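import Mathlib

-- ▼ part R237/DimCount
section

/-!
Row 237, dimension count (helper930).

`dimCount`: for a bilinear map `β : U × W → G` whose differential at one point `(u0,w0)` has a
one-dimensional kernel, and a non-zero linear functional `τ` on `U`, the closure of the image of
`{τ = 0}` does not contain `β u w` for all `(u,w)` in a non-empty open set.
-/

set_option autoImplicit false

namespace Crest.Agent.R237.Dim

open MvPolynomial Module

theorem exists_relation {σ : Type} [Fintype σ] {m : ℕ} (hkm : Fintype.card σ < m)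
    (H : Fin m → MvPolynomial σ ℝ) :
    ∃ Φ : MvPolynomial (Fin m) ℝ, Φ ≠ 0 ∧ aeval H Φ = 0 := by
  by_contra hcon
  push Not at hcon
  have hind : AlgebraicIndependent ℝ H := by
    rw [algebraicIndependent_iff]
    intro p hp
    by_contra hne
    exact hcon p hne hp
  have h1 := hind.cardinalMk_le_trdeg
  rw [MvPolynomial.trdeg_of_isDomain] at h1
  simp at h1
  omega

theorem eq_zero_of_open {σ : Type*} [Fintype σ] (Φ : MvPolynomial σ ℝ) (O : Set (σ → ℝ))
    (hO : IsOpen O) (x0 : σ → ℝ) (hx0 : x0 ∈ O) (h : ∀ x ∈ O, eval x Φ = 0) : Φ = 0 := by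
  obtain ⟨ε, hε, hball⟩ := Metric.isOpen_iff.1 hO x0 hx0
  refine funext_set (fun i => Metric.ball (x0 i) ε) ?_ ?_
  · intro i
    rw [Real.ball_eq_Ioo]
    exact Set.Ioo_infinite (by linarith)
  · intro x hx
    rw [map_zero]
    apply h
    apply hball
    rw [Metric.mem_ball, dist_pi_lt_iff hε]
    intro i
    exact hx i trivial

theorem eval_aeval' {σ ρ : Type*} (x : σ → ℝ) (H : ρ → MvPolynomial σ ℝ) (Φ : MvPolynomial ρ ℝ) :
    eval x (aeval H Φ) = eval (fun i => eval x (H i)) Φ := by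
  induction Φ using MvPolynomial.induction_on with
  | C a => simp
  | add p q hp hq => rw [map_add, map_add, map_add, hp, hq]
  | mul_X p i hp => rw [map_mul, map_mul, map_mul, hp, aeval_X, eval_X]

theorem bilin_poly {U W : Type*} [AddCommGroup U] [Module ℝ U] [AddCommGroup W] [Module ℝ W]
    (f : U →ₗ[ℝ] W →ₗ[ℝ] ℝ) {ι κ : Type} [Fintype ι] [Fintype κ] (u1 : U) (k : ι → U)
    (b : κ → W) :
    ∃ P : MvPolynomial (ι ⊕ κ) ℝ, ∀ (y : ι → ℝ) (z : κ → ℝ),
      eval (Sum.elim y z) P = f (u1 + ∑ i, y i • k i) (∑ j, z j • b j) := by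
  refine ⟨∑ j, X (Sum.inr j) * (C (f u1 (b j)) + ∑ i, X (Sum.inl i) * C (f (k i) (b j))), ?_⟩
  intro y z
  simp only [map_sum, map_mul, map_add, eval_X, eval_C, Sum.elim_inr, Sum.elim_inl,
    map_smul, LinearMap.add_apply, LinearMap.sum_apply, LinearMap.smul_apply, smul_eq_mul]

theorem dimCount {U W G : Type*} [NormedAddCommGroup U] [NormedSpace ℝ U] [FiniteDimensional ℝ U]
    [NormedAddCommGroup W] [NormedSpace ℝ W] [FiniteDimensional ℝ W]
    [AddCommGroup G] [Module ℝ G] [TopologicalSpace G] [IsTopologicalAddGroup G]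
    [ContinuousSMul ℝ G] [T2Space G] [FiniteDimensional ℝ G]
    (β : U →ₗ[ℝ] W →ₗ[ℝ] G) (τ : U →ₗ[ℝ] ℝ) (hτ : τ ≠ 0) (hdim : 2 ≤ finrank ℝ U)
    (u0 : U) (w0 : W)
    (hker : ∀ u w, β u w0 + β u0 w = 0 → ∃ s : ℝ, u = s • u0 ∧ w = -(s • w0))
    (O : Set (U × W)) (hO : IsOpen O) (hne : O.Nonempty) :
    ∃ p ∈ O, β p.1 p.2 ∉ closure {g : G | ∃ u w, τ u = 0 ∧ g = β u w} := by
  classical
  -- the differential
  let D : U × W →ₗ[ℝ] G := (β.flip w0).coprod (β u0)
  have hD : ∀ u w, D (u, w) = β u w0 + β u0 w := fun u w => by simp [D]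
  have hkerD : finrank ℝ (LinearMap.ker D) ≤ 1 := by
    have hle : LinearMap.ker D ≤ Submodule.span ℝ {((u0, -w0) : U × W)} := by
      rintro ⟨u, w⟩ h
      rw [LinearMap.mem_ker, hD] at h
      obtain ⟨s, hs1, hs2⟩ := hker u w h
      rw [Submodule.mem_span_singleton]
      exact ⟨s, by simp [hs1, hs2]⟩
    refine (Submodule.finrank_mono hle).trans ((finrank_span_le_card _).trans ?_)
    simp
  have hrn := LinearMap.finrank_range_add_finrank_ker D
  rw [Module.finrank_prod] at hrn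
  set r := finrank ℝ (LinearMap.range D) with hr
  have hrge : finrank ℝ U + finrank ℝ W ≤ r + 1 := by omega
  -- projection onto the range of the differential, in coordinates
  obtain ⟨pr, hpr⟩ := LinearMap.exists_leftInverse_of_injective (LinearMap.range D).subtype
    (by simp)
  let bR := finBasis ℝ (LinearMap.range D)
  let ℓ : G →ₗ[ℝ] (Fin r → ℝ) := bR.equivFun.toLinearMap ∘ₗ pr
  have hℓD : Function.Surjective (ℓ ∘ₗ D) := by
    intro y
    obtain ⟨⟨g, v, hv⟩, hg⟩ := bR.equivFun.surjective y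
    refine ⟨v, ?_⟩
    have h1 : pr g = ⟨g, v, hv⟩ := by
      have := LinearMap.congr_fun hpr ⟨g, v, hv⟩
      simpa using this
    simp only [ℓ, LinearMap.comp_apply, hv, LinearEquiv.coe_coe, h1, hg]
  have hℓc : Continuous ℓ := LinearMap.continuous_of_finiteDimensional ℓ
  -- coordinate form of the bilinear map
  let f : Fin r → U →ₗ[ℝ] W →ₗ[ℝ] ℝ := fun i => β.compr₂ ((LinearMap.proj i) ∘ₗ ℓ)
  have hf : ∀ i u w, f i u w = ℓ (β u w) i := fun i u w => by simp [f]
  -- bases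
  have hkt : finrank ℝ (LinearMap.ker τ) + 1 = finrank ℝ U := by
    have h1 := LinearMap.finrank_range_add_finrank_ker τ
    have h2 : finrank ℝ (LinearMap.range τ) = 1 := by
      have : LinearMap.range τ = ⊤ := LinearMap.range_eq_top.2 (LinearMap.surjective hτ)
      rw [this, finrank_top]
      simp
    omega
  obtain ⟨m, hm⟩ : ∃ m, finrank ℝ (LinearMap.ker τ) = m + 1 := ⟨finrank ℝ U - 2, by omega⟩
  let bK : Basis (Fin (m + 1)) ℝ (LinearMap.ker τ) := finBasisOfFinrankEq ℝ _ hm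
  let bU := finBasis ℝ U
  let bW := finBasis ℝ W
  -- the relation on the chart
  choose H hH using fun i : Fin r =>
    bilin_poly (f i) (bK 0 : U) (fun j : Fin m => (bK j.succ : U)) (fun j => bW j)
  have hcard : Fintype.card (Fin m ⊕ Fin (finrank ℝ W)) < r := by
    simp
    omega
  obtain ⟨Φ, hΦ0, hΦ⟩ := exists_relation hcard H
  have hchart : ∀ (y : Fin m → ℝ) (w : W),
      eval (ℓ (β ((bK 0 : U) + ∑ j, y j • (bK j.succ : U)) w)) Φ = 0 := by
    intro y w
    have h1 : eval (Sum.elim y (fun j => bW.repr w j)) (aeval H Φ) = 0 := by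
      rw [hΦ, map_zero]
    rw [eval_aeval'] at h1
    have h2 : ℓ (β ((bK 0 : U) + ∑ j, y j • (bK j.succ : U)) w)
        = fun i => eval (Sum.elim y fun j => bW.repr w j) (H i) := by
      funext i
      rw [hH, hf, bW.sum_repr]
    rw [h2]
    exact h1
  have hK : ∀ u, τ u = 0 → ∀ w, eval (ℓ (β u w)) Φ = 0 := by
    intro u hu w
    obtain ⟨c, hc⟩ : ∃ c : Fin (m + 1) → ℝ, u = ∑ i, c i • (bK i : U) := by
      refine ⟨bK.repr ⟨u, hu⟩, ?_⟩
      have h1 := congrArg Subtype.val (bK.sum_repr ⟨u, hu⟩)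
      rw [← Submodule.coe_subtype, map_sum] at h1
      simp only [map_smul, Submodule.coe_subtype] at h1
      exact h1.symm
    rw [Fin.sum_univ_succ] at hc
    -- the case of a non-zero leading coefficient
    have hnz : ∀ s : ℝ, s ≠ 0 → eval (ℓ (β (s • (bK 0 : U) + ∑ i : Fin m, c i.succ • (bK i.succ : U)) w)) Φ
        = 0 := by
      intro s hs
      have h1 := hchart (fun i => s⁻¹ * c i.succ) (s • w)
      have h2 : β (s • (bK 0 : U) + ∑ i : Fin m, c i.succ • (bK i.succ : U)) w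
          = β ((bK 0 : U) + ∑ j : Fin m, (s⁻¹ * c j.succ) • (bK j.succ : U)) (s • w) := by
        have h3 : s • (bK 0 : U) + ∑ i : Fin m, c i.succ • (bK i.succ : U)
            = s • ((bK 0 : U) + ∑ j : Fin m, (s⁻¹ * c j.succ) • (bK j.succ : U)) := by
          rw [smul_add, Finset.smul_sum]
          congr 1
          refine Finset.sum_congr rfl fun i _ => ?_
          rw [smul_smul, ← mul_assoc, mul_inv_cancel₀ hs, one_mul]
        rw [h3, map_smul, LinearMap.smul_apply, map_smul]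
      rw [h2]
      exact h1
    have hcont : Continuous fun s : ℝ =>
        eval (ℓ (β (s • (bK 0 : U) + ∑ i : Fin m, c i.succ • (bK i.succ : U)) w)) Φ := by
      have h1 : Continuous fun s : ℝ =>
          ℓ (β (s • (bK 0 : U) + ∑ i : Fin m, c i.succ • (bK i.succ : U)) w) := by
        have h2 : (fun s : ℝ =>
            ℓ (β (s • (bK 0 : U) + ∑ i : Fin m, c i.succ • (bK i.succ : U)) w))
            = fun s : ℝ => s • ℓ (β (bK 0 : U) w)
              + ℓ (β (∑ i : Fin m, c i.succ • (bK i.succ : U)) w) := by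
          funext s
          simp only [map_add, LinearMap.add_apply, map_smul, LinearMap.smul_apply]
        rw [h2]
        fun_prop
      exact (MvPolynomial.continuous_eval Φ).comp h1
    have hall : ∀ s : ℝ, eval (ℓ (β (s • (bK 0 : U) + ∑ i : Fin m, c i.succ • (bK i.succ : U)) w)) Φ
        = 0 := by
      intro s
      have hcl : IsClosed {s : ℝ | eval (ℓ (β (s • (bK 0 : U) + ∑ i : Fin m, c i.succ • (bK i.succ : U)) w)) Φ
        = 0} := isClosed_eq hcont continuous_const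
      have hsub : ({0}ᶜ : Set ℝ) ⊆ {s : ℝ | eval (ℓ (β (s • (bK 0 : U) + ∑ i : Fin m, c i.succ • (bK i.succ : U)) w)) Φ
        = 0} := fun s hs => hnz s hs
      have := hcl.closure_subset_iff.2 hsub
      rw [(dense_compl_singleton (0 : ℝ)).closure_eq] at this
      exact this (Set.mem_univ s)
    rw [hc]
    exact hall (c 0)
  have hclos : ∀ g ∈ closure {g : G | ∃ u w, τ u = 0 ∧ g = β u w}, eval (ℓ g) Φ = 0 := by
    have hcl : IsClosed {g : G | eval (ℓ g) Φ = 0} :=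
      isClosed_eq ((MvPolynomial.continuous_eval Φ).comp hℓc) continuous_const
    have hsub : {g : G | ∃ u w, τ u = 0 ∧ g = β u w} ⊆ {g : G | eval (ℓ g) Φ = 0} := by
      rintro g ⟨u, w, hu, rfl⟩
      exact hK u hu w
    exact fun g hg => (hcl.closure_subset_iff.2 hsub) hg
  by_contra hcon
  push Not at hcon
  -- the full polynomial map
  choose PF hPF using fun i : Fin r => bilin_poly (f i) (0 : U) (fun j => bU j) (fun j => bW j)
  have hPF' : ∀ (x : Fin (finrank ℝ U) ⊕ Fin (finrank ℝ W) → ℝ), eval x (aeval PF Φ)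
      = eval (ℓ (β (∑ i, x (Sum.inl i) • bU i) (∑ j, x (Sum.inr j) • bW j))) Φ := by
    intro x
    rw [eval_aeval']
    congr 1
    congr 1
    funext i
    have h1 := hPF i (fun i => x (Sum.inl i)) (fun j => x (Sum.inr j))
    have h2 : Sum.elim (fun i => x (Sum.inl i)) (fun j => x (Sum.inr j)) = x := by
      funext k
      cases k <;> rfl
    rw [h2, zero_add, hf] at h1
    exact h1
  have hΨ : aeval PF Φ = 0 := by
    obtain ⟨⟨ua, wa⟩, ha⟩ := hne
    let T : (Fin (finrank ℝ U) ⊕ Fin (finrank ℝ W) → ℝ) → U × W := fun x =>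
      (∑ i, x (Sum.inl i) • bU i, ∑ j, x (Sum.inr j) • bW j)
    have hT : Continuous T := by
      refine Continuous.prodMk ?_ ?_
      · fun_prop
      · fun_prop
    refine eq_zero_of_open (aeval PF Φ) (T ⁻¹' O) (hO.preimage hT)
      (Sum.elim (fun i => bU.repr ua i) (fun j => bW.repr wa j)) ?_ ?_
    · rw [Set.mem_preimage]
      have : T (Sum.elim (fun i => bU.repr ua i) (fun j => bW.repr wa j)) = (ua, wa) := by
        simp only [T, Sum.elim_inl, Sum.elim_inr, bU.sum_repr, bW.sum_repr]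
      rw [this]
      exact ha
    · intro x hx
      rw [hPF']
      exact hclos _ (hcon _ hx)
  have hall : ∀ u w, eval (ℓ (β u w)) Φ = 0 := by
    intro u w
    have h1 := hPF' (Sum.elim (fun i => bU.repr u i) (fun j => bW.repr w j))
    rw [hΨ, map_zero] at h1
    simp only [Sum.elim_inl, Sum.elim_inr, bU.sum_repr, bW.sum_repr] at h1
    exact h1.symm
  -- the image contains an open set
  let β' : U →L[ℝ] W →L[ℝ] (Fin r → ℝ) := LinearMap.toContinuousLinearMap
    ((LinearMap.toContinuousLinearMap (𝕜 := ℝ) (E := W) (F' := Fin r → ℝ)).toLinearMap ∘ₗ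
      (β.compr₂ ℓ))
  have hβ' : ∀ u w, β' u w = ℓ (β u w) := fun u w => by simp [β']
  have hbil := β'.isBoundedBilinearMap
  have hder := hbil.hasStrictFDerivAt (u0, w0)
  have hsurj : (hbil.deriv (u0, w0)).range = ⊤ := by
    rw [LinearMap.range_eq_top]
    intro y
    obtain ⟨⟨u, w⟩, huw⟩ := hℓD y
    refine ⟨(u, w), ?_⟩
    rw [← huw]
    simp only [ContinuousLinearMap.coe_coe, IsBoundedBilinearMap.deriv_apply, hβ',
      LinearMap.comp_apply, hD, map_add]
    abel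
  have hmap := hder.map_nhds_eq_of_surj hsurj
  have hrange : Set.range (fun p : U × W => β' p.1 p.2) ∈ nhds (β' u0 w0) := by
    have : Set.range (fun p : U × W => β' p.1 p.2) ∈
        Filter.map (fun p : U × W => β' p.1 p.2) (nhds (u0, w0)) :=
      Filter.range_mem_map
    rw [hmap] at this
    exact this
  obtain ⟨V, hVsub, hVo, hVmem⟩ := mem_nhds_iff.1 hrange
  apply hΦ0
  refine eq_zero_of_open Φ V hVo _ hVmem ?_
  intro x hx
  obtain ⟨⟨u, w⟩, rfl⟩ := hVsub hx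
  change eval (β' u w) Φ = 0
  rw [hβ']
  exact hall u w

end Crest.Agent.R237.Dim
end

-- ▼ part R237/DimXi
section

/-!
Row 237, Lemma XI (helper930): a quadratic form which is non-negative on a cone, invariant under
translations by a subspace and negative at a point that is not in the closure.
-/

set_option autoImplicit false

namespace Crest.Agent.R237.Dim

open Module
open scoped RealInnerProductSpace

theorem exists_xi {E : Type*} [NormedAddCommGroup E] [InnerProductSpace ℝ E]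
    [FiniteDimensional ℝ E] (T : Submodule ℝ E) (C : Set E) (hC0 : (0 : E) ∈ C)
    (hC : ∀ x ∈ C, ∀ s : ℝ, s • x ∈ C) (g : E)
    (hg : g ∉ closure {x | ∃ c ∈ C, ∃ t ∈ T, x = c + t}) :
    ∃ Ξ : E →ₗ[ℝ] E →ₗ[ℝ] ℝ, (∀ x y, Ξ x y = Ξ y x) ∧
      (∀ x y, ∀ t ∈ T, Ξ (x + t) y = Ξ x y) ∧
      (∀ x ∈ C, 0 ≤ Ξ x x) ∧ Ξ g g < 0 ∧ ∃ M : ℝ, 0 < M ∧ ∀ x, Ξ x x ≤ M * ‖x‖ ^ 2 := by
  classical
  let P : E →ₗ[ℝ] E := LinearMap.id - (T.starProjection : E →L[ℝ] E).toLinearMap
  have hP : ∀ x, P x = x - T.starProjection x := fun x => rfl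
  have hPT : ∀ t ∈ T, P t = 0 := by
    intro t ht
    rw [hP, Submodule.starProjection_eq_self_iff.2 ht, sub_self]
  have hPx : ∀ x, ‖P x‖ ≤ ‖x‖ := by
    intro x
    have h1 : ⟪P x, T.starProjection x⟫ = 0 :=
      Submodule.starProjection_inner_eq_zero x _ (Submodule.starProjection_apply_mem T x)
    have h2 : x = P x + T.starProjection x := by rw [hP]; abel
    have h3 : ‖x‖ ^ 2 = ‖P x‖ ^ 2 + ‖T.starProjection x‖ ^ 2 := by
      conv_lhs => rw [h2]
      rw [norm_add_sq_real, h1]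
      ring
    have h4 : ‖P x‖ ^ 2 ≤ ‖x‖ ^ 2 := by
      rw [h3]
      nlinarith [sq_nonneg ‖T.starProjection x‖]
    exact le_of_sq_le_sq h4 (norm_nonneg _)
  rw [Metric.mem_closure_iff] at hg
  push Not at hg
  obtain ⟨δ, hδ, hdist⟩ := hg
  have hd : ∀ c ∈ C, δ ≤ ‖P g - P c‖ := by
    intro c hc
    have h1 := hdist (c + (T.starProjection g - T.starProjection c))
      ⟨c, hc, _, T.sub_mem (Submodule.starProjection_apply_mem T g)
        (Submodule.starProjection_apply_mem T c), rfl⟩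
    rw [dist_eq_norm] at h1
    have h2 : g - (c + (T.starProjection g - T.starProjection c)) = P g - P c := by
      rw [hP, hP]; abel
    rwa [h2] at h1
  have hg0 : δ ≤ ‖P g‖ := by
    have := hd 0 hC0
    simpa using this
  have key : ∀ c ∈ C, ⟪P g, P c⟫ ^ 2 ≤ (‖P g‖ ^ 2 - δ ^ 2) * ‖P c‖ ^ 2 := by
    intro c hc
    by_cases h0 : P c = 0
    · simp [h0]
    have hpos : 0 < ‖P c‖ ^ 2 := by positivity
    set s : ℝ := ⟪P g, P c⟫ / ‖P c‖ ^ 2 with hs
    have h1 := hd (s • c) (hC c hc s)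
    rw [map_smul] at h1
    have h2 : δ ^ 2 ≤ ‖P g - s • P c‖ ^ 2 := by
      exact pow_le_pow_left₀ hδ.le h1 2
    rw [norm_sub_sq_real, inner_smul_right, norm_smul, mul_pow, Real.norm_eq_abs, sq_abs] at h2
    have h3 : s * ‖P c‖ ^ 2 = ⟪P g, P c⟫ := by
      rw [hs]; field_simp
    have h4 : δ ^ 2 ≤ ‖P g‖ ^ 2 - s * ⟪P g, P c⟫ := by
      have : s ^ 2 * ‖P c‖ ^ 2 = s * ⟪P g, P c⟫ := by rw [← h3]; ring
      rw [this] at h2
      linarith
    have h5 : ⟪P g, P c⟫ ^ 2 = (s * ⟪P g, P c⟫) * ‖P c‖ ^ 2 := by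
      rw [mul_right_comm, h3]; ring
    rw [h5]
    exact mul_le_mul_of_nonneg_right (by linarith) hpos.le
  let a : ℝ := ‖P g‖ ^ 2 - δ ^ 2
  have ha : 0 ≤ a := by
    have := pow_le_pow_left₀ hδ.le hg0 2
    simp only [a]
    linarith
  let Ξ : E →ₗ[ℝ] E →ₗ[ℝ] ℝ := LinearMap.mk₂ ℝ
    (fun x y => a * ⟪P x, P y⟫ - ⟪P g, P x⟫ * ⟪P g, P y⟫)
    (by intro x y z; simp only [map_add, inner_add_left, inner_add_right]; ring)
    (by intro s x y; simp only [map_smul, inner_smul_left, inner_smul_right, smul_eq_mul,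
          RCLike.conj_to_real]; ring)
    (by intro x y z; simp only [map_add, inner_add_right]; ring)
    (by intro s x y; simp only [map_smul, inner_smul_right, smul_eq_mul]; ring)
  have hΞ : ∀ x y, Ξ x y = a * ⟪P x, P y⟫ - ⟪P g, P x⟫ * ⟪P g, P y⟫ := fun x y => rfl
  refine ⟨Ξ, ?_, ?_, ?_, ?_, a + 1, by linarith, ?_⟩
  · intro x y
    rw [hΞ, hΞ, real_inner_comm (P y) (P x)]
    ring
  · intro x y t ht
    rw [hΞ, hΞ, map_add, hPT t ht, add_zero]
  · intro x hx
    rw [hΞ, real_inner_self_eq_norm_sq]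
    have := key x hx
    simp only [a]
    nlinarith
  · rw [hΞ, real_inner_self_eq_norm_sq]
    have h1 : 0 < ‖P g‖ ^ 2 := by
      have : 0 < ‖P g‖ := lt_of_lt_of_le hδ hg0
      positivity
    have h2 : 0 < δ ^ 2 := by positivity
    simp only [a]
    nlinarith [mul_pos h1 h2]
  · intro x
    rw [hΞ, real_inner_self_eq_norm_sq]
    have h1 : ‖P x‖ ^ 2 ≤ ‖x‖ ^ 2 := pow_le_pow_left₀ (norm_nonneg _) (hPx x) 2
    nlinarith [mul_le_mul_of_nonneg_left h1 ha, sq_nonneg ‖x‖, mul_self_nonneg ⟪P g, P x⟫]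

/-- Matrix version. -/
theorem exists_xi_matrix {ι κ : Type*} [Fintype ι] [Fintype κ]
    (T : Submodule ℝ (Matrix ι κ ℝ)) (C : Set (Matrix ι κ ℝ)) (hC0 : (0 : Matrix ι κ ℝ) ∈ C)
    (hC : ∀ x ∈ C, ∀ s : ℝ, s • x ∈ C) (g : Matrix ι κ ℝ)
    (hg : g ∉ closure {x | ∃ c ∈ C, ∃ t ∈ T, x = c + t}) :
    ∃ Ξ : Matrix ι κ ℝ →ₗ[ℝ] Matrix ι κ ℝ →ₗ[ℝ] ℝ, (∀ x y, Ξ x y = Ξ y x) ∧
      (∀ x y, ∀ t ∈ T, Ξ (x + t) y = Ξ x y) ∧
      (∀ x ∈ C, 0 ≤ Ξ x x) ∧ Ξ g g < 0 ∧
      ∃ M : ℝ, 0 < M ∧ ∀ x, Ξ x x ≤ M * ∑ i, ∑ a, x i a ^ 2 := by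
  classical
  let L : Matrix ι κ ℝ ≃ₗ[ℝ] EuclideanSpace ℝ (ι × κ) :=
    { toFun := fun x => WithLp.toLp 2 fun p => x p.1 p.2
      invFun := fun v => Matrix.of fun i a => v (i, a)
      map_add' := fun x y => rfl
      map_smul' := fun s x => rfl
      left_inv := fun x => rfl
      right_inv := fun v => rfl }
  have hLc : Continuous L := LinearMap.continuous_of_finiteDimensional L.toLinearMap
  have hLsc : Continuous L.symm := LinearMap.continuous_of_finiteDimensional L.symm.toLinearMap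
  have hnorm : ∀ x, ‖L x‖ ^ 2 = ∑ i, ∑ a, x i a ^ 2 := by
    intro x
    rw [EuclideanSpace.norm_sq_eq, Fintype.sum_prod_type]
    simp only [Real.norm_eq_abs, sq_abs]
    rfl
  have hg' : L g ∉ closure {x | ∃ c ∈ L '' C, ∃ t ∈ T.map L.toLinearMap, x = c + t} := by
    intro hmem
    apply hg
    have h1 : L.symm (L g) ∈ closure (L.symm '' {x | ∃ c ∈ L '' C, ∃ t ∈ T.map L.toLinearMap,
        x = c + t}) := image_closure_subset_closure_image hLsc ⟨L g, hmem, rfl⟩
    rw [L.symm_apply_apply] at h1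
    refine closure_mono ?_ h1
    rintro _ ⟨_, ⟨_, ⟨c, hc, rfl⟩, _, ⟨t, ht, rfl⟩, rfl⟩, rfl⟩
    refine ⟨c, hc, t, ht, ?_⟩
    rw [map_add]
    simp
  obtain ⟨Ξ, h1, h2, h3, h4, M, hM, h5⟩ := exists_xi (T.map L.toLinearMap) (L '' C)
    ⟨0, hC0, map_zero L⟩ (by
      rintro _ ⟨c, hc, rfl⟩ s
      exact ⟨s • c, hC c hc s, map_smul L s c⟩) (L g) hg'
  refine ⟨(Ξ.comp L.toLinearMap).compl₂ L.toLinearMap, ?_, ?_, ?_, ?_, M, hM, ?_⟩
  · intro x y
    exact h1 _ _
  · intro x y t ht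
    have := h2 (L x) (L y) (L t) ⟨t, ht, rfl⟩
    simpa using this
  · intro x hx
    exact h3 _ ⟨x, hx, rfl⟩
  · exact h4
  · intro x
    have := h5 (L x)
    rw [hnorm] at this
    exact this

end Crest.Agent.R237.Dim
end

-- ▼ part R237/EX

/-!
Row 237, existence theorem EX (helper930): from the one-dimensional kernel of the linearised
system (LKC) to the quadratic form `Ξ` and the point `(P, Z)`.
-/

set_option autoImplicit false

namespace Crest.Agent.R237.EX

open Module Matrix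

variable {n d : ℕ}

/-- Symmetric 3-tensors. -/
def IsSym3 (Z : Fin n → Fin n → Fin n → ℝ) : Prop :=
  ∀ i j k, Z i j k = Z j i k ∧ Z i j k = Z i k j

/-- The matrix `L (u_i v_a)` of a cubic functional. -/
def zeta (q : Fin d → Matrix (Fin n) (Fin n) ℝ) (Z : Fin n → Fin n → Fin n → ℝ) :
    Matrix (Fin n) (Fin d) ℝ :=
  Matrix.of fun i a => ∑ j, ∑ k, q a j k * Z i j k

/-- The translation direction `(q_a y)_i`. -/
def transl (q : Fin d → Matrix (Fin n) (Fin n) ℝ) (y : Fin n → ℝ) :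
    Matrix (Fin n) (Fin d) ℝ :=
  Matrix.of fun i a => ∑ j, q a i j * y j

/-- symmetric 3-tensors as a submodule -/
def sym3 (n : ℕ) : Submodule ℝ (Fin n → Fin n → Fin n → ℝ) where
  carrier := {Z | IsSym3 Z}
  add_mem' := by
    intro Z Z' h h' i j k
    have h1 := h i j k
    have h2 := h' i j k
    simp only [Pi.add_apply]
    exact ⟨by rw [h1.1, h2.1], by rw [h1.2, h2.2]⟩
  zero_mem' := by
    intro i j k
    simp
  smul_mem' := by
    intro s Z h i j k
    have h1 := h i j k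
    simp only [Pi.smul_apply]
    exact ⟨by rw [h1.1], by rw [h1.2]⟩

/-- symmetric matrices as a submodule -/
def symM (n : ℕ) : Submodule ℝ (Matrix (Fin n) (Fin n) ℝ) where
  carrier := {P | P.IsSymm}
  add_mem' := fun h h' => h.add h'
  zero_mem' := Matrix.isSymm_zero
  smul_mem' := fun s _ h => h.smul s

/-- `zeta` as a linear map -/
def zetaL (q : Fin d → Matrix (Fin n) (Fin n) ℝ) :
    (Fin n → Fin n → Fin n → ℝ) →ₗ[ℝ] Matrix (Fin n) (Fin d) ℝ where
  toFun := zeta q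
  map_add' := by
    intro Z Z'
    ext i a
    simp [zeta, mul_add, Finset.sum_add_distrib]
  map_smul' := by
    intro s Z
    ext i a
    simp only [zeta, Matrix.of_apply, Matrix.smul_apply, Pi.smul_apply, smul_eq_mul,
      RingHom.id_apply, Finset.mul_sum]
    refine Finset.sum_congr rfl fun j _ => Finset.sum_congr rfl fun k _ => ?_
    ring

/-- `transl` as a linear map -/
def translL (q : Fin d → Matrix (Fin n) (Fin n) ℝ) :
    (Fin n → ℝ) →ₗ[ℝ] Matrix (Fin n) (Fin d) ℝ where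
  toFun := transl q
  map_add' := by
    intro Z Z'
    ext i a
    simp [transl, mul_add, Finset.sum_add_distrib]
  map_smul' := by
    intro s Z
    ext i a
    simp only [transl, Matrix.of_apply, Matrix.smul_apply, Pi.smul_apply, smul_eq_mul,
      RingHom.id_apply, Finset.mul_sum]
    refine Finset.sum_congr rfl fun j _ => ?_
    ring

/-- matrices close to the identity are positive definite -/
theorem posDef_of_close (P : Matrix (Fin n) (Fin n) ℝ) (hP : P.IsSymm)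
    (h : ∀ i j, |P i j - (1 : Matrix (Fin n) (Fin n) ℝ) i j| ≤ 1 / (2 * ((n : ℝ) + 1))) :
    P.PosDef := by
  rw [Matrix.posDef_iff_dotProduct_mulVec]
  refine ⟨by rw [Matrix.IsHermitian, Matrix.conjTranspose_eq_transpose_of_trivial]; exact hP, ?_⟩
  intro x hx
  have hxs : 0 < ∑ i, x i ^ 2 := by
    obtain ⟨i, hi⟩ := Function.ne_iff.1 hx
    refine Finset.sum_pos' (fun j _ => sq_nonneg _) ⟨i, Finset.mem_univ i, ?_⟩
    have : x i ≠ 0 := hi
    positivity
  have h1 : star x ⬝ᵥ P *ᵥ x = ∑ i, ∑ j, x i * (P i j * x j) := by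
    simp [dotProduct, mulVec, Finset.mul_sum]
  have h2 : ∑ i, ∑ j, x i * ((1 : Matrix (Fin n) (Fin n) ℝ) i j * x j) = ∑ i, x i ^ 2 := by
    refine Finset.sum_congr rfl fun i _ => ?_
    rw [Finset.sum_eq_single i]
    · simp [sq]
    · intro j _ hj
      rw [Matrix.one_apply_ne (Ne.symm hj)]
      simp
    · simp
  set ε : ℝ := 1 / (2 * ((n : ℝ) + 1)) with hε
  have hεn : ε * n ≤ 1 / 2 := by
    rw [hε, div_mul_eq_mul_div, one_mul, div_le_div_iff₀ (by positivity) (by norm_num)]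
    linarith
  have h3 : ∑ i, ∑ j, x i * (P i j * x j) ≥ ∑ i, ∑ j, (x i * ((1 : Matrix (Fin n) (Fin n) ℝ) i j * x j) - ε * (|x i| * |x j|)) := by
    refine Finset.sum_le_sum fun i _ => Finset.sum_le_sum fun j _ => ?_
    have h4 : |x i * ((P i j - (1 : Matrix (Fin n) (Fin n) ℝ) i j) * x j)| ≤ ε * (|x i| * |x j|) := by
      rw [abs_mul, abs_mul]
      have := mul_le_mul_of_nonneg_right (h i j) (mul_nonneg (abs_nonneg (x i)) (abs_nonneg (x j)))
      calc |x i| * (|P i j - (1 : Matrix (Fin n) (Fin n) ℝ) i j| * |x j|) = |P i j - (1 : Matrix (Fin n) (Fin n) ℝ) i j| * (|x i| * |x j|) := by ring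
        _ ≤ _ := this
    have h5 := neg_le_of_abs_le h4
    linarith [h5, mul_sub (x i * 1) (P i j * x j) ((1 : Matrix (Fin n) (Fin n) ℝ) i j * x j), sub_mul (P i j) ((1 : Matrix (Fin n) (Fin n) ℝ) i j) (x j),
      (by ring : x i * ((P i j - (1 : Matrix (Fin n) (Fin n) ℝ) i j) * x j) = x i * (P i j * x j) - x i * ((1 : Matrix (Fin n) (Fin n) ℝ) i j * x j))]
  have h6 : ∑ i, ∑ j, (x i * ((1 : Matrix (Fin n) (Fin n) ℝ) i j * x j) - ε * (|x i| * |x j|))
      = ∑ i, x i ^ 2 - ε * (∑ i, |x i|) ^ 2 := by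
    simp only [Finset.sum_sub_distrib]
    rw [h2]
    congr 1
    rw [sq, Finset.sum_mul_sum, Finset.mul_sum]
    refine Finset.sum_congr rfl fun i _ => ?_
    rw [Finset.mul_sum]
  have h7 : (∑ i, |x i|) ^ 2 ≤ n * ∑ i, x i ^ 2 := by
    have := sq_sum_le_card_mul_sum_sq (s := Finset.univ) (f := fun i => |x i|)
    simpa using this
  rw [h1]
  have hε0 : 0 < ε := by positivity
  have h8 : ε * (∑ i, |x i|) ^ 2 ≤ 1 / 2 * ∑ i, x i ^ 2 := by
    calc ε * (∑ i, |x i|) ^ 2 ≤ ε * (n * ∑ i, x i ^ 2) := mul_le_mul_of_nonneg_left h7 hε0.le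
      _ = (ε * n) * ∑ i, x i ^ 2 := by ring
      _ ≤ _ := mul_le_mul_of_nonneg_right hεn hxs.le
  linarith

theorem two_le_finrank_symM (hn : 2 ≤ n) : 2 ≤ finrank ℝ (symM n) := by
  classical
  let i0 : Fin n := ⟨0, by omega⟩
  let i1 : Fin n := ⟨1, by omega⟩
  have hne : i0 ≠ i1 := by simp [i0, i1]
  let A : Matrix (Fin n) (Fin n) ℝ := Matrix.diagonal (Pi.single i0 1)
  have hA : A.IsSymm := by simp [A, Matrix.IsSymm, Matrix.diagonal_transpose]
  let v : Fin 2 → symM n := ![⟨1, Matrix.isSymm_one⟩, ⟨A, hA⟩]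
  have hv : LinearIndependent ℝ v := by
    rw [LinearIndependent.pair_iff]
    intro s t hst
    have h1 := congrArg (fun x : symM n => x.1 i0 i0) hst
    have h2 := congrArg (fun x : symM n => x.1 i1 i1) hst
    simp [A, hne.symm] at h1 h2
    subst h2
    simpa using h1
  have := hv.fintype_card_le_finrank
  simpa using this

section

attribute [local instance] Matrix.normedAddCommGroup Matrix.normedSpace

theorem exists_EX (q : Fin d → Matrix (Fin n) (Fin n) ℝ) (hn : 2 ≤ n)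
    (P0 : Matrix (Fin n) (Fin n) ℝ) (hP0 : P0.IsSymm)
    (Z0 : Fin n → Fin n → Fin n → ℝ) (hZ0 : IsSym3 Z0)
    (lkc : ∀ D : Matrix (Fin n) (Fin n) ℝ, D.IsSymm → ∀ Z', IsSym3 Z' → ∀ y : Fin n → ℝ,
      D * zeta q Z0 + P0 * zeta q Z' + transl q y = 0 →
        ∃ s : ℝ, D = s • P0 ∧ zeta q Z' = -(s • zeta q Z0)) :
    ∃ (Ξ : Matrix (Fin n) (Fin d) ℝ →ₗ[ℝ] Matrix (Fin n) (Fin d) ℝ →ₗ[ℝ] ℝ)
      (P : Matrix (Fin n) (Fin n) ℝ) (Z : Fin n → Fin n → Fin n → ℝ) (φ : ℝ),
      P.PosDef ∧ IsSym3 Z ∧ (∀ X Y, Ξ X Y = Ξ Y X) ∧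
      (∀ X Y y, Ξ (X + transl q y) Y = Ξ X Y) ∧
      (∀ P' : Matrix (Fin n) (Fin n) ℝ, P'.IsSymm → P'.trace = 0 → ∀ Z', IsSym3 Z' →
        0 ≤ Ξ (P' * zeta q Z') (P' * zeta q Z')) ∧
      0 < φ ∧ (∀ X, Ξ X X ≤ φ * ∑ i, ∑ a, X i a ^ 2) ∧
      Ξ (P * zeta q Z) (P * zeta q Z) < 0 := by
  classical
  let T : Submodule ℝ (Matrix (Fin n) (Fin d) ℝ) := LinearMap.range (translL q)
  obtain ⟨g, hg⟩ := T.mkQ.exists_rightInverse_of_surjective (Submodule.range_mkQ T)
  let π : Matrix (Fin n) (Fin d) ℝ →ₗ[ℝ] Matrix (Fin n) (Fin d) ℝ := g ∘ₗ T.mkQ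
  have hπ : ∀ x, π x = 0 ↔ x ∈ T := by
    intro x
    constructor
    · intro h
      have h1 : T.mkQ (g (T.mkQ x)) = T.mkQ x := LinearMap.congr_fun hg (T.mkQ x)
      have h2 : g (T.mkQ x) = 0 := h
      rw [h2, map_zero] at h1
      exact (Submodule.Quotient.mk_eq_zero T).1 h1.symm
    · intro h
      have h1 : T.mkQ x = 0 := (Submodule.Quotient.mk_eq_zero T).2 h
      change g (T.mkQ x) = 0
      rw [h1, map_zero]
  let W : Submodule ℝ (Matrix (Fin n) (Fin d) ℝ) := (sym3 n).map (zetaL q)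
  let β : symM n →ₗ[ℝ] W →ₗ[ℝ] Matrix (Fin n) (Fin d) ℝ := LinearMap.mk₂ ℝ
    (fun u w => π (u.1 * w.1))
    (by intro x y z; simp [Matrix.add_mul])
    (by intro s x y; simp)
    (by intro x y z; simp [Matrix.mul_add])
    (by intro s x y; simp)
  have hβ : ∀ u w, β u w = π (u.1 * w.1) := fun u w => rfl
  let τ : symM n →ₗ[ℝ] ℝ := (Matrix.traceLinearMap (Fin n) ℝ ℝ) ∘ₗ (symM n).subtype
  have hτ : τ ≠ 0 := by
    intro h
    have h1 : τ ⟨1, Matrix.isSymm_one⟩ = 0 := by rw [h]; rfl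
    have h2 : τ ⟨1, Matrix.isSymm_one⟩ = (n : ℝ) := by
      change Matrix.trace (1 : Matrix (Fin n) (Fin n) ℝ) = n
      simp
    rw [h2] at h1
    have : n = 0 := by exact_mod_cast h1
    omega
  let u0 : symM n := ⟨P0, hP0⟩
  let w0 : W := ⟨zeta q Z0, ⟨Z0, hZ0, rfl⟩⟩
  have hker : ∀ u w, β u w0 + β u0 w = 0 → ∃ s : ℝ, u = s • u0 ∧ w = -(s • w0) := by
    rintro ⟨u, hu⟩ ⟨_, Z', hZ', rfl⟩ h
    rw [hβ, hβ, ← map_add, hπ] at h
    obtain ⟨y, hy⟩ := h
    have hy' : transl q y = u * zeta q Z0 + P0 * zeta q Z' := hy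
    obtain ⟨s, hs1, hs2⟩ := lkc u hu Z' hZ' (-y) (by
      have h1 : transl q (-y) = -transl q y := by
        have := map_neg (translL q) y
        exact this
      rw [h1, hy']
      abel)
    refine ⟨s, ?_, ?_⟩
    · exact Subtype.ext hs1
    · exact Subtype.ext hs2
  let O : Set (symM n × W) := {p | ∀ i j, |p.1.1 i j - (1 : Matrix (Fin n) (Fin n) ℝ) i j|
    < 1 / (2 * ((n : ℝ) + 1))}
  have hO : IsOpen O := by
    have : O = ⋂ i, ⋂ j, {p : symM n × W | |p.1.1 i j - (1 : Matrix (Fin n) (Fin n) ℝ) i j|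
        < 1 / (2 * ((n : ℝ) + 1))} := by
      ext p
      simp [O]
    rw [this]
    refine isOpen_iInter_of_finite fun i => isOpen_iInter_of_finite fun j => ?_
    refine isOpen_lt ?_ continuous_const
    have h1 : Continuous fun p : symM n × W => p.1.1 i j := by
      have h2 : Continuous fun p : symM n × W => (p.1.1 : Matrix (Fin n) (Fin n) ℝ) :=
        continuous_subtype_val.comp continuous_fst
      exact (continuous_apply j).comp ((continuous_apply i).comp h2)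
    exact (h1.sub continuous_const).abs
  have hne : O.Nonempty := by
    refine ⟨(⟨1, Matrix.isSymm_one⟩, 0), ?_⟩
    intro i j
    simp only [sub_self, abs_zero]
    positivity
  obtain ⟨⟨⟨P, hP⟩, ⟨_, Z, hZ, rfl⟩⟩, hpO, hcl⟩ := Dim.dimCount β τ hτ (two_le_finrank_symM hn) u0 w0 hker O hO hne
  let C : Set (Matrix (Fin n) (Fin d) ℝ) := {x | ∃ (P' : Matrix (Fin n) (Fin n) ℝ)
    (Z' : Fin n → Fin n → Fin n → ℝ), P'.IsSymm ∧ P'.trace = 0 ∧
    IsSym3 Z' ∧ x = P' * zeta q Z'}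
  have hC0 : (0 : Matrix (Fin n) (Fin d) ℝ) ∈ C := by
    refine ⟨0, 0, Matrix.isSymm_zero, by simp, by intro i j k; simp, by simp⟩
  have hC : ∀ x ∈ C, ∀ s : ℝ, s • x ∈ C := by
    rintro _ ⟨P', Z', h1, h2, h3, rfl⟩ s
    refine ⟨s • P', Z', h1.smul s, by simp [h2], h3, by simp⟩
  have hgC : P * zeta q Z ∉ closure {x | ∃ c ∈ C, ∃ t ∈ T, x = c + t} := by
    intro hmem
    apply hcl
    have hπc : Continuous π := LinearMap.continuous_of_finiteDimensional π
    have h1 : π (P * zeta q Z) ∈ closure (π '' {x | ∃ c ∈ C, ∃ t ∈ T, x = c + t}) :=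
      image_closure_subset_closure_image hπc ⟨_, hmem, rfl⟩
    refine closure_mono ?_ h1
    rintro _ ⟨_, ⟨_, ⟨P', Z', h1, h2, h3, rfl⟩, t, ht, rfl⟩, rfl⟩
    refine ⟨⟨P', h1⟩, ⟨zeta q Z', ⟨Z', h3, rfl⟩⟩, h2, ?_⟩
    rw [map_add, (hπ t).2 ht, add_zero]
    rfl
  obtain ⟨Ξ, e1, e2, e3, e4, φ, e5, e6⟩ := Dim.exists_xi_matrix T C hC0 hC _ hgC
  refine ⟨Ξ, P, Z, φ, ?_, hZ, e1, ?_, ?_, e5, e6, e4⟩
  · exact posDef_of_close P hP fun i j => (hpO i j).le
  · intro X Y y
    exact e2 X Y _ ⟨y, rfl⟩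
  · intro P' hP' htr Z' hZ'
    exact e3 _ ⟨P', Z', hP', htr, hZ', rfl⟩

end

end Crest.Agent.R237.EX
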