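import Crest.Agent.R237.V0

/-! Row 237 (S0367), node F1 in polynomial form (helper868), for the frozen data `V0.q`, `V0.pt`
of helper432: the quadratic forms vanishing at the 17 points are exactly the span of `qf`. -/

set_option autoImplicit false

namespace Crest.Agent.R237.F1

open MvPolynomial

/-- the quadratic form of a matrix as a polynomial -/
noncomputable def qform {n : ℕ} (Q : Matrix (Fin n) (Fin n) ℝ) : MvPolynomial (Fin n) ℝ :=
  ∑ i, ∑ j, C (Q i j) * (X i * X j)

/-- the 19 quadrics. -/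
noncomputable def qf (a : Fin 19) : MvPolynomial (Fin 8) ℝ := qform (V0.q a)

theorem isHomogeneous_qform {n : ℕ} (Q : Matrix (Fin n) (Fin n) ℝ) :
    (qform Q).IsHomogeneous 2 := by
  refine IsHomogeneous.sum _ _ _ fun i _ => IsHomogeneous.sum _ _ _ fun j _ => ?_
  have h := (isHomogeneous_C (Fin n) (Q i j)).mul ((isHomogeneous_X ℝ i).mul (isHomogeneous_X ℝ j))
  simpa using h

theorem eval_qform {n : ℕ} (Q : Matrix (Fin n) (Fin n) ℝ) (v : Fin n → ℝ) :
    eval v (qform Q) = ∑ i, ∑ j, Q i j * (v i * v j) := by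
  simp [qform]

theorem hq (a : Fin 19) : (qf a).IsHomogeneous 2 := isHomogeneous_qform _

theorem eval_q (k : Fin 17) (a : Fin 19) : eval (V0.pt k) (qf a) = 0 := by
  rw [qf, eval_qform]
  exact V0.q_pt a k

/-- a multi-index of degree two. -/
theorem exists_of_degree_two {σ : Type*} (m : σ →₀ ℕ) (hm : m.degree = 2) :
    ∃ i j, m = Finsupp.single i 1 + Finsupp.single j 1 := by
  classical
  have step : ∀ (m : σ →₀ ℕ) (n : ℕ), m.degree = n + 1 →
      ∃ i m', m = Finsupp.single i 1 + m' ∧ m'.degree = n := by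
    intro m n hm
    have h0 : m ≠ 0 := by
      rintro rfl
      simp at hm
    obtain ⟨i, hi⟩ := Finsupp.ne_iff.1 h0
    have hle : Finsupp.single i 1 ≤ m := by
      rw [Finsupp.single_le_iff]
      exact Nat.one_le_iff_ne_zero.2 hi
    refine ⟨i, m - Finsupp.single i 1, (add_tsub_cancel_of_le hle).symm, ?_⟩
    have := congrArg Finsupp.degree (add_tsub_cancel_of_le hle)
    rw [map_add, Finsupp.degree_single, hm] at this
    omega
  obtain ⟨i, m', h1, h2⟩ := step m 1 hm
  obtain ⟨j, m'', h3, h4⟩ := step m' 0 h2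
  have h5 : m'' = 0 := by
    rwa [Finsupp.degree_eq_zero_iff] at h4
  exact ⟨i, j, by rw [h1, h3, h5, add_zero]⟩

/-- a quadratic form is a combination of products of two variables. -/
theorem exists_coeffs {n : ℕ} (g : MvPolynomial (Fin n) ℝ) (hg : g.IsHomogeneous 2) :
    ∃ b : Fin n → Fin n → ℝ, g = ∑ i, ∑ j, C (b i j) * (X i * X j) := by
  classical
  have hmem : g ∈ Submodule.span ℝ
      (Set.range fun p : Fin n × Fin n => (X p.1 * X p.2 : MvPolynomial (Fin n) ℝ)) := by
    rw [g.as_sum]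
    refine Submodule.sum_mem _ fun m hm => ?_
    have hd : m.degree = 2 := by
      have := hg (mem_support_iff.1 hm)
      rwa [Pi.one_def, ← Finsupp.degree_eq_weight_one] at this
    obtain ⟨i, j, hij⟩ := exists_of_degree_two m hd
    have : monomial m (coeff m g) = (coeff m g) • (X i * X j : MvPolynomial (Fin n) ℝ) := by
      rw [hij, X, X, monomial_mul, smul_monomial]
      simp
    rw [this]
    exact Submodule.smul_mem _ _ (Submodule.subset_span ⟨(i, j), rfl⟩)
  rw [Submodule.mem_span_range_iff_exists_fun] at hmem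
  obtain ⟨c, hc⟩ := hmem
  refine ⟨fun i j => c (i, j), ?_⟩
  rw [← hc, Fintype.sum_prod_type]
  refine Finset.sum_congr rfl fun i _ => Finset.sum_congr rfl fun j _ => ?_
  rw [smul_eq_C_mul]

/-- a quadratic form is the form of a symmetric matrix. -/
theorem exists_symm {n : ℕ} (g : MvPolynomial (Fin n) ℝ) (hg : g.IsHomogeneous 2) :
    ∃ Q : Matrix (Fin n) (Fin n) ℝ, Q.IsSymm ∧ g = qform Q := by
  obtain ⟨b, hb⟩ := exists_coeffs g hg
  refine ⟨Matrix.of fun i j => (b i j + b j i) / 2, ?_, ?_⟩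
  · ext i j
    simp only [Matrix.transpose_apply, Matrix.of_apply]
    ring
  · have h1 : g = ∑ i, ∑ j, C (b j i) * (X i * X j) := by
      rw [hb, Finset.sum_comm]
      refine Finset.sum_congr rfl fun i _ => Finset.sum_congr rfl fun j _ => ?_
      ring
    have h2 : qform (Matrix.of fun i j => (b i j + b j i) / 2) =
        C (1 / 2 : ℝ) * (∑ i, ∑ j, C (b i j) * (X i * X j)) +
          C (1 / 2 : ℝ) * (∑ i, ∑ j, C (b j i) * (X i * X j)) := by
      simp only [qform, Finset.mul_sum, ← Finset.sum_add_distrib]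
      refine Finset.sum_congr rfl fun i _ => Finset.sum_congr rfl fun j _ => ?_
      rw [Matrix.of_apply, show (b i j + b j i) / 2 = (1 / 2) * b i j + (1 / 2) * b j i by ring,
        C_add, C_mul, C_mul]
      ring
    rw [h2, ← h1, ← hb, ← add_mul, ← C_add]
    norm_num

theorem qform_add {n : ℕ} (Q R : Matrix (Fin n) (Fin n) ℝ) :
    qform (Q + R) = qform Q + qform R := by
  simp only [qform, Matrix.add_apply, C_add, add_mul, Finset.sum_add_distrib]

theorem qform_smul {n : ℕ} (c : ℝ) (Q : Matrix (Fin n) (Fin n) ℝ) :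
    qform (c • Q) = c • qform Q := by
  simp only [qform, Matrix.smul_apply, smul_eq_mul, C_mul, smul_eq_C_mul, Finset.mul_sum,
    mul_assoc]


/-- `qform` as a linear map. -/
noncomputable def qformL (n : ℕ) : Matrix (Fin n) (Fin n) ℝ →ₗ[ℝ] MvPolynomial (Fin n) ℝ where
  toFun := qform
  map_add' := qform_add
  map_smul' c Q := qform_smul c Q

theorem qform_sum {n : ℕ} {ι : Type*} (s : Finset ι) (c : ι → ℝ)
    (Q : ι → Matrix (Fin n) (Fin n) ℝ) :
    qform (∑ a ∈ s, c a • Q a) = ∑ a ∈ s, c a • qform (Q a) := by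
  have h := map_sum (qformL n) (fun a => c a • Q a) s
  simp only [map_smul] at h
  exact h

/-- the quadratic forms vanishing at the 17 points are in the span of the 19 quadrics. -/
theorem hspan (g : MvPolynomial (Fin 8) ℝ) (hg : g.IsHomogeneous 2)
    (hv : ∀ k, eval (V0.pt k) g = 0) : g ∈ Submodule.span ℝ (Set.range qf) := by
  obtain ⟨Q, hQ, rfl⟩ := exists_symm g hg
  have h := V0.span_q Q hQ fun k => by
    rw [← eval_qform]
    exact hv k
  rw [h, qform_sum]
  exact Submodule.sum_mem _ fun a _ =>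
    Submodule.smul_mem _ _ (Submodule.subset_span ⟨a, rfl⟩)

/-- the table of the binomials: `qf a = 2 (X p1 X p2 - X p3 X p4)`. -/
def tb : Fin 19 → (Fin 8 × Fin 8) × (Fin 8 × Fin 8) :=
  ![((0,1),(1,3)), ((0,3),(1,3)), ((1,2),(2,4)), ((1,4),(2,4)), ((2,3),(3,5)), ((2,5),(3,5)),
    ((3,4),(4,6)), ((3,6),(4,6)), ((4,5),(5,7)), ((4,7),(5,7)), ((5,6),(6,0)), ((5,0),(6,0)),
    ((6,7),(7,1)), ((6,1),(7,1)), ((7,0),(0,2)), ((7,2),(0,2)), ((0,4),(1,5)), ((0,4),(2,6)),
    ((0,4),(3,7))]

theorem qi_tb : ∀ (a : Fin 19) (i j : Fin 8), V0.qi a i j =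
    (if i = (tb a).1.1 ∧ j = (tb a).1.2 then 1 else 0) +
    (if i = (tb a).1.2 ∧ j = (tb a).1.1 then 1 else 0) -
    ((if i = (tb a).2.1 ∧ j = (tb a).2.2 then 1 else 0) +
    (if i = (tb a).2.2 ∧ j = (tb a).2.1 then 1 else 0)) := by decide +kernel



end Crest.Agent.R237.F1
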