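import Mathlib

-- ▼ part R237/H823PF
section

set_option autoImplicit false

namespace Crest.Agent.R237

open Polynomial

/-- Partial fractions over `ℂ` for a denominator with simple roots. -/
theorem partial_fraction (P f : ℂ[X]) (hP : P ≠ 0)
    (hs : ∀ r, P.eval r = 0 → P.derivative.eval r ≠ 0) (hdeg : f.degree < P.degree)
    (z : ℂ) (hz : P.eval z ≠ 0) :
    f.eval z / P.eval z =
      ∑ r ∈ P.roots.toFinset, (f.eval r / P.derivative.eval r) / (z - r) := by
  classical
  have hnodup : P.roots.Nodup := by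
    rw [Multiset.nodup_iff_count_le_one]
    intro r
    rw [Polynomial.count_roots]
    by_contra h
    push Not at h
    have h2 := (Polynomial.one_lt_rootMultiplicity_iff_isRoot hP).1 h
    exact hs r h2.1 h2.2
  have hsplit : P.Splits := IsAlgClosed.splits P
  have hprod : P = C P.leadingCoeff * Lagrange.nodal P.roots.toFinset id := by
    conv_lhs => rw [hsplit.eq_prod_roots]
    congr 1
    rw [Lagrange.nodal_eq]
    rw [Finset.prod_multiset_map_count] 
    apply Finset.prod_congr rfl
    intro r hr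
    rw [Multiset.count_eq_one_of_mem hnodup (Multiset.mem_toFinset.1 hr)]
    simp
  have hlc : P.leadingCoeff ≠ 0 := leadingCoeff_ne_zero.2 hP
  set s := P.roots.toFinset with hsdef
  have hcard : (s.card : WithBot ℕ) = P.degree := by
    rw [Polynomial.degree_eq_natDegree hP, ← hsplit.natDegree_eq_card_roots.symm, hsdef,
      Multiset.toFinset_card_of_nodup hnodup]
  have hf : f = Lagrange.interpolate s id (fun i => f.eval (id i)) := by
    apply Lagrange.eq_interpolate (Set.injOn_id _)
    rw [hcard]; exact hdeg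
  have hzs : ∀ i ∈ s, z ≠ id i := by
    intro i hi h
    apply hz
    rw [h]
    have := Multiset.mem_toFinset.1 hi
    exact (Polynomial.mem_roots hP).1 this
  have h1 : f.eval z = (Lagrange.nodal s id).eval z *
      ∑ i ∈ s, Lagrange.nodalWeight s id i * (z - id i)⁻¹ * f.eval (id i) := by
    conv_lhs => rw [hf]
    exact Lagrange.eval_interpolate_not_at_node _ hzs
  have hPz : P.eval z = P.leadingCoeff * (Lagrange.nodal s id).eval z := by
    conv_lhs => rw [hprod]
    rw [eval_mul, eval_C]
  have hnz : (Lagrange.nodal s id).eval z ≠ 0 := by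
    intro h
    rw [hPz, h, mul_zero] at hz
    exact hz rfl
  have hder : ∀ r ∈ s, P.derivative.eval r =
      P.leadingCoeff * (Lagrange.nodalWeight s id r)⁻¹ := by
    intro r hr
    rw [Lagrange.nodalWeight_eq_eval_derivative_nodal hr, inv_inv]
    conv_lhs => rw [hprod]
    simp
  rw [h1, hPz, mul_comm P.leadingCoeff, mul_div_mul_left _ _ hnz, Finset.sum_div]
  apply Finset.sum_congr rfl
  intro r hr
  rw [hder r hr]
  have hw : Lagrange.nodalWeight s id r ≠ 0 := Lagrange.nodalWeight_ne_zero (Set.injOn_id _) hr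
  have hzr : z - r ≠ 0 := sub_ne_zero.2 (hzs r hr)
  simp only [id]
  field_simp

end Crest.Agent.R237
end

-- ▼ part R237/H823Core
section

set_option autoImplicit false
set_option linter.unusedSectionVars false
set_option linter.unusedVariables false

namespace Crest.Agent.R237

open Polynomial

section core
variable {J : Type*} [Fintype J] [DecidableEq J]

/-- `Im (1/(z-l))`-type computation: a weighted sum of `1/(z-l_j)` with nonneg real weights. -/
theorem im_sum_div (lam w : J → ℝ) (z : ℂ) :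
    (∑ j, (w j : ℂ) / (z - lam j)).im = - z.im * ∑ j, w j / Complex.normSq (z - lam j) := by
  rw [Complex.im_sum, Finset.mul_sum]
  apply Finset.sum_congr rfl
  intro j _
  rw [Complex.div_im]
  simp
  ring

theorem im_zero_of_sum_eq_zero (lam w : J → ℝ) (hw : ∀ j, 0 ≤ w j) (hpos : ∃ j, 0 < w j) (z : ℂ)
    (hz : ∑ j, (w j : ℂ) / (z - lam j) = 0) : z.im = 0 := by
  by_contra him
  have h := im_sum_div lam w z
  rw [hz, Complex.zero_im] at h
  have hns : ∀ j, 0 < Complex.normSq (z - lam j) := by
    intro j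
    rw [Complex.normSq_pos]
    intro h0
    have : (z - lam j).im = 0 := by rw [h0]; rfl
    simp at this
    exact him this
  have hsum : 0 < ∑ j, w j / Complex.normSq (z - lam j) := by
    obtain ⟨j0, hj0⟩ := hpos
    apply Finset.sum_pos'
    · intro j _; exact div_nonneg (hw j) (hns j).le
    · exact ⟨j0, Finset.mem_univ _, div_pos hj0 (hns j0)⟩
  have h1 : - z.im * ∑ j, w j / Complex.normSq (z - lam j) ≠ 0 :=
    mul_ne_zero (neg_ne_zero.2 him) hsum.ne'
  exact h1 h.symm

variable (lam w : J → ℝ) (β : J → J → ℝ)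

/-- The node polynomial. -/
noncomputable def Qp : ℂ[X] := ∏ j, (X - C (lam j : ℂ))
noncomputable def Qe (j : J) : ℂ[X] := ∏ i ∈ Finset.univ.erase j, (X - C (lam i : ℂ))
noncomputable def N1 : ℂ[X] := ∑ j, C (w j : ℂ) * Qe lam j
noncomputable def Fp : ℂ[X] := ∑ j, ∑ k, C (β j k : ℂ) * (Qe lam j * Qe lam k)

theorem mul_Qe (j : J) : (X - C (lam j : ℂ)) * Qe lam j = Qp lam := by
  unfold Qe Qp
  exact Finset.mul_prod_erase Finset.univ (fun i => (X - C (lam i : ℂ))) (Finset.mem_univ j)

theorem eval_Qe_mul (j : J) (z : ℂ) : (z - lam j) * (Qe lam j).eval z = (Qp lam).eval z := by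
  rw [← mul_Qe lam j]; simp

theorem eval_Qe (j : J) (z : ℂ) (hz : z ≠ lam j) :
    (Qe lam j).eval z = (Qp lam).eval z / (z - lam j) := by
  have h : z - lam j ≠ 0 := sub_ne_zero.2 hz
  rw [← eval_Qe_mul lam j, mul_div_cancel_left₀ _ h]

theorem eval_Qp_ne (z : ℂ) (hz : ∀ j, z ≠ lam j) : (Qp lam).eval z ≠ 0 := by
  unfold Qp
  rw [eval_prod]
  apply Finset.prod_ne_zero_iff.2
  intro j _
  simpa using sub_ne_zero.2 (hz j)

theorem eval_Qp_node (j : J) : (Qp lam).eval (lam j : ℂ) = 0 := by
  rw [← eval_Qe_mul lam j]; simp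

theorem eval_Qe_node_ne {j k : J} (hjk : j ≠ k) : (Qe lam j).eval (lam k : ℂ) = 0 := by
  unfold Qe
  rw [eval_prod]
  apply Finset.prod_eq_zero (Finset.mem_erase.2 ⟨hjk.symm, Finset.mem_univ k⟩)
  simp

theorem eval_Qe_self_ne (hinj : Function.Injective lam) (j : J) :
    (Qe lam j).eval (lam j : ℂ) ≠ 0 := by
  unfold Qe
  rw [eval_prod]
  apply Finset.prod_ne_zero_iff.2
  intro i hi
  have hij : i ≠ j := (Finset.mem_erase.1 hi).1
  simp only [eval_sub, eval_X, eval_C]
  rw [sub_ne_zero]
  intro h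
  exact hij (hinj (Complex.ofReal_injective h.symm))

theorem monic_Qe (j : J) : (Qe lam j).Monic := monic_prod_of_monic _ _ (fun i _ => monic_X_sub_C _)
theorem monic_Qp : (Qp lam).Monic := monic_prod_of_monic _ _ (fun i _ => monic_X_sub_C _)

theorem natDegree_Qe (j : J) : (Qe lam j).natDegree = Fintype.card J - 1 := by
  unfold Qe
  rw [natDegree_prod_of_monic _ _ (fun i _ => monic_X_sub_C _)]
  simp

theorem natDegree_Qp : (Qp lam).natDegree = Fintype.card J := by
  unfold Qp
  rw [natDegree_prod_of_monic _ _ (fun i _ => monic_X_sub_C _)]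
  simp

theorem eval_N1 (z : ℂ) (hz : ∀ j, z ≠ lam j) :
    (N1 lam w).eval z = (Qp lam).eval z * ∑ j, (w j : ℂ) / (z - lam j) := by
  unfold N1
  rw [eval_finsetSum, Finset.mul_sum]
  apply Finset.sum_congr rfl
  intro j _
  rw [eval_mul, eval_C, eval_Qe lam j z (hz j)]
  ring

theorem eval_N1_node (j : J) :
    (N1 lam w).eval (lam j : ℂ) = w j * (Qe lam j).eval (lam j : ℂ) := by
  unfold N1
  rw [eval_finsetSum, Finset.sum_eq_single j]
  · simp
  · intro k _ hk
    rw [eval_mul, eval_Qe_node_ne lam hk, mul_zero]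
  · simp

theorem eval_Fp (z : ℂ) (hz : ∀ j, z ≠ lam j) :
    (Fp lam β).eval z = (Qp lam).eval z ^ 2 *
      ∑ j, ∑ k, (β j k : ℂ) / ((z - lam j) * (z - lam k)) := by
  unfold Fp
  rw [eval_finsetSum, Finset.mul_sum]
  apply Finset.sum_congr rfl
  intro j _
  rw [eval_finsetSum, Finset.mul_sum]
  apply Finset.sum_congr rfl
  intro k _
  rw [eval_mul, eval_mul, eval_C, eval_Qe lam j z (hz j), eval_Qe lam k z (hz k)]
  have h1 : z - lam j ≠ 0 := sub_ne_zero.2 (hz j)
  have h2 : z - lam k ≠ 0 := sub_ne_zero.2 (hz k)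
  field_simp

theorem eval_Fp_node (j : J) :
    (Fp lam β).eval (lam j : ℂ) = β j j * ((Qe lam j).eval (lam j : ℂ)) ^ 2 := by
  unfold Fp
  rw [eval_finsetSum, Finset.sum_eq_single j]
  · rw [eval_finsetSum, Finset.sum_eq_single j]
    · rw [eval_mul, eval_mul, eval_C]; ring
    · intro k _ hk
      rw [eval_mul, eval_mul, eval_Qe_node_ne lam hk]; ring
    · simp
  · intro k _ hk
    rw [eval_finsetSum]
    apply Finset.sum_eq_zero
    intro l _
    rw [eval_mul, eval_mul, eval_Qe_node_ne lam hk]; ring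
  · simp

theorem derivative_Qp_node (j : J) :
    (derivative (Qp lam)).eval (lam j : ℂ) = (Qe lam j).eval (lam j : ℂ) := by
  rw [← mul_Qe lam j]
  simp

theorem derivative_N1_root (z : ℂ) (hz : ∀ j, z ≠ lam j)
    (h0 : ∑ j, (w j : ℂ) / (z - lam j) = 0) :
    (derivative (N1 lam w)).eval z =
      - (Qp lam).eval z * ∑ j, (w j : ℂ) / (z - lam j) ^ 2 := by
  have hder : ∀ j, (derivative (Qe lam j)).eval z =
      ((derivative (Qp lam)).eval z - (Qp lam).eval z / (z - lam j)) / (z - lam j) := by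
    intro j
    have h1 : z - lam j ≠ 0 := sub_ne_zero.2 (hz j)
    have h2 : (derivative (Qp lam)).eval z =
        (Qe lam j).eval z + (z - lam j) * (derivative (Qe lam j)).eval z := by
      conv_lhs => rw [← mul_Qe lam j]
      simp
    rw [h2, eval_Qe lam j z (hz j)]
    field_simp
    ring
  unfold N1
  rw [derivative_sum, eval_finsetSum]
  have h3 : ∀ j, (derivative (C (w j : ℂ) * Qe lam j)).eval z =
      (derivative (Qp lam)).eval z * ((w j : ℂ) / (z - lam j)) -
        (Qp lam).eval z * ((w j : ℂ) / (z - lam j) ^ 2) := by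
    intro j
    have h1 : z - lam j ≠ 0 := sub_ne_zero.2 (hz j)
    rw [derivative_C_mul, eval_C_mul, hder j]
    field_simp
  rw [Finset.sum_congr rfl (fun j _ => h3 j), Finset.sum_sub_distrib, ← Finset.mul_sum,
    ← Finset.mul_sum, h0]
  ring

theorem core_partial [Nonempty J] (hinj : Function.Injective lam) (hw : ∀ j, 0 < w j)
    (hβ : ∀ t : ℝ, (∀ j, t ≠ lam j) → ∑ j, w j / (t - lam j) = 0 →
      0 ≤ ∑ j, ∑ k, β j k / ((t - lam j) * (t - lam k))) :
    ∃ (S : Finset ℝ) (cf : ℝ → ℝ), (∀ r ∈ S, cf r ≤ 0) ∧ (∀ r ∈ S, ∃ j, lam j ≤ r) ∧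
      ∀ z : ℂ, (∀ j, z ≠ lam j) → ∑ j, (w j : ℂ) / (z - lam j) ≠ 0 →
        (∑ j, ∑ k, (β j k : ℂ) / ((z - lam j) * (z - lam k))) / (∑ j, (w j : ℂ) / (z - lam j))
          = ∑ j, ((β j j / w j : ℝ) : ℂ) / (z - lam j) + ∑ r ∈ S, (cf r : ℂ) / (z - r) := by
  classical
  set P : ℂ[X] := Qp lam * N1 lam w with hPdef
  have hcardpos : 0 < Fintype.card J := Fintype.card_pos
  -- coefficient
  have hcoeff : (N1 lam w).coeff (Fintype.card J - 1) = ((∑ j, w j : ℝ) : ℂ) := by
    unfold N1
    rw [finsetSum_coeff, Complex.ofReal_sum]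
    apply Finset.sum_congr rfl
    intro j _
    rw [coeff_C_mul, ← natDegree_Qe lam j, (monic_Qe lam j).coeff_natDegree, mul_one]
  have hsumw : (∑ j, w j) ≠ 0 := by
    apply ne_of_gt
    exact Finset.sum_pos (fun j _ => hw j) Finset.univ_nonempty
  have hcne : (N1 lam w).coeff (Fintype.card J - 1) ≠ 0 := by
    rw [hcoeff]; exact_mod_cast hsumw
  have hN1ne : N1 lam w ≠ 0 := by
    intro h; rw [h] at hcne; simp at hcne
  have hQne : Qp lam ≠ 0 := (monic_Qp lam).ne_zero
  have hPne : P ≠ 0 := mul_ne_zero hQne hN1ne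
  have hPdeg : 2 * Fintype.card J - 1 ≤ P.natDegree := by
    rw [hPdef, natDegree_mul hQne hN1ne, natDegree_Qp]
    have := le_natDegree_of_ne_zero hcne
    omega
  have hFdeg : (Fp lam β).natDegree ≤ 2 * (Fintype.card J - 1) := by
    unfold Fp
    apply natDegree_sum_le_of_forall_le
    intro j _
    apply natDegree_sum_le_of_forall_le
    intro k _
    refine (natDegree_C_mul_le _ _).trans ?_
    refine natDegree_mul_le.trans ?_
    rw [natDegree_Qe, natDegree_Qe]; omega
  have hdeg : (Fp lam β).degree < P.degree := by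
    apply degree_lt_degree
    omega
  -- roots of N1
  have hroot : ∀ z : ℂ, (N1 lam w).eval z = 0 →
      (∀ j, z ≠ lam j) ∧ ∑ j, (w j : ℂ) / (z - lam j) = 0 := by
    intro z hz
    have h1 : ∀ j, z ≠ lam j := by
      intro j h
      rw [h, eval_N1_node] at hz
      rcases mul_eq_zero.1 hz with h2 | h2
      · exact (hw j).ne' (by exact_mod_cast h2)
      · exact eval_Qe_self_ne lam hinj j h2
    refine ⟨h1, ?_⟩
    rw [eval_N1 lam w z h1] at hz
    rcases mul_eq_zero.1 hz with h2 | h2
    · exact absurd h2 (eval_Qp_ne lam z h1)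
    · exact h2
  have hreal : ∀ z : ℂ, (N1 lam w).eval z = 0 → z.im = 0 := by
    intro z hz
    exact im_zero_of_sum_eq_zero lam w (fun j => (hw j).le)
      ⟨Classical.arbitrary J, hw _⟩ z (hroot z hz).2
  have hpos2 : ∀ t : ℝ, (∀ j, t ≠ lam j) → 0 < ∑ j, w j / (t - lam j) ^ 2 := by
    intro t ht
    apply Finset.sum_pos _ Finset.univ_nonempty
    intro j _
    apply div_pos (hw j)
    have h9 := sub_ne_zero.2 (ht j)
    positivity
  have hderiv : ∀ r, P.eval r = 0 → P.derivative.eval r ≠ 0 := by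
    intro r hr
    rw [hPdef, eval_mul] at hr
    rw [hPdef, derivative_mul, eval_add, eval_mul, eval_mul]
    by_cases hrn : (N1 lam w).eval r = 0
    · obtain ⟨h1, h2⟩ := hroot r hrn
      have h3 := hreal r hrn
      have hre : r = (r.re : ℂ) := by
        apply Complex.ext <;> simp [h3]
      rw [hrn, mul_zero, zero_add, derivative_N1_root lam w r h1 h2]
      have hq := eval_Qp_ne lam r h1
      have hs : ∑ j, (w j : ℂ) / (r - lam j) ^ 2 ≠ 0 := by
        have h4 : ∀ j, r.re ≠ lam j := by
          intro j h5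
          exact h1 j (by rw [hre, h5])
        have h6 := hpos2 r.re h4
        intro h7
        apply h6.ne'
        rw [hre] at h7
        exact_mod_cast h7
      exact mul_ne_zero hq (mul_ne_zero (neg_ne_zero.2 hq) hs)
    · have hq : (Qp lam).eval r = 0 := by
        rcases mul_eq_zero.1 hr with h | h
        · exact h
        · exact absurd h hrn
      obtain ⟨j, hj⟩ : ∃ j, r = lam j := by
        by_contra hcon
        push Not at hcon
        exact eval_Qp_ne lam r hcon hq
      rw [hq, zero_mul, add_zero, hj, derivative_Qp_node, eval_N1_node]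
      have := eval_Qe_self_ne lam hinj j
      refine mul_ne_zero this (mul_ne_zero ?_ this)
      exact_mod_cast (hw j).ne'
  -- roots of P
  set Sn : Finset ℂ := (N1 lam w).roots.toFinset with hSn
  set Sl : Finset ℂ := Finset.univ.image (fun j => (lam j : ℂ)) with hSl
  have hmemSn : ∀ r, r ∈ Sn ↔ (N1 lam w).eval r = 0 := by
    intro r
    rw [hSn, Multiset.mem_toFinset, mem_roots hN1ne]; rfl
  have hrootsP : P.roots.toFinset = Sl ∪ Sn := by
    ext r
    rw [Multiset.mem_toFinset, mem_roots hPne, Finset.mem_union, hmemSn]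
    show P.eval r = 0 ↔ _
    rw [hPdef, eval_mul, mul_eq_zero]
    constructor
    · rintro (h | h)
      · left
        by_contra hcon
        apply eval_Qp_ne lam r _ h
        intro j hj
        apply hcon
        rw [hSl, Finset.mem_image]
        exact ⟨j, Finset.mem_univ _, hj.symm⟩
      · right; exact h
    · rintro (h | h)
      · left
        rw [hSl, Finset.mem_image] at h
        obtain ⟨j, _, hj⟩ := h
        rw [← hj, eval_Qp_node]
      · right; exact h
  have hdisj : Disjoint Sl Sn := by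
    rw [Finset.disjoint_left]
    intro r hr hr2
    rw [hSl, Finset.mem_image] at hr
    obtain ⟨j, _, hj⟩ := hr
    rw [hmemSn] at hr2
    exact (hroot r hr2).1 j hj.symm
  refine ⟨Sn.image Complex.re, fun r =>
    (∑ j, ∑ k, β j k / ((r - lam j) * (r - lam k))) / (- ∑ j, w j / (r - lam j) ^ 2), ?_, ?_, ?_⟩
  · intro r hr
    rw [Finset.mem_image] at hr
    obtain ⟨z, hz, rfl⟩ := hr
    rw [hmemSn] at hz
    obtain ⟨h1, h2⟩ := hroot z hz
    have h3 := hreal z hz
    have hre : z = (z.re : ℂ) := by apply Complex.ext <;> simp [h3]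
    have h4 : ∀ j, z.re ≠ lam j := by
      intro j h5
      exact h1 j (by rw [hre, h5])
    have h6 : ∑ j, w j / (z.re - lam j) = 0 := by
      rw [hre] at h2
      exact_mod_cast h2
    exact div_nonpos_of_nonneg_of_nonpos (hβ z.re h4 h6) (neg_nonpos.2 (hpos2 z.re h4).le)
  · intro r hr
    rw [Finset.mem_image] at hr
    obtain ⟨z, hz, rfl⟩ := hr
    rw [hmemSn] at hz
    obtain ⟨h1, h2⟩ := hroot z hz
    have h3 := hreal z hz
    have hre : z = (z.re : ℂ) := by apply Complex.ext <;> simp [h3]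
    have h6 : ∑ j, w j / (z.re - lam j) = 0 := by
      rw [hre] at h2
      exact_mod_cast h2
    by_contra hcon
    push Not at hcon
    have : ∑ j, w j / (z.re - lam j) < 0 := by
      apply Finset.sum_neg _ Finset.univ_nonempty
      intro j _
      exact div_neg_of_pos_of_neg (hw j) (sub_neg.2 (hcon j))
    rw [h6] at this
    exact lt_irrefl _ this
  · intro z hz hNz
    have hPz : P.eval z ≠ 0 := by
      rw [hPdef, eval_mul, eval_N1 lam w z hz]
      exact mul_ne_zero (eval_Qp_ne lam z hz) (mul_ne_zero (eval_Qp_ne lam z hz) hNz)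
    have hpf := partial_fraction P (Fp lam β) hPne hderiv hdeg z hPz
    have hlhs : (Fp lam β).eval z / P.eval z =
        (∑ j, ∑ k, (β j k : ℂ) / ((z - lam j) * (z - lam k))) /
          (∑ j, (w j : ℂ) / (z - lam j)) := by
      rw [hPdef, eval_mul, eval_N1 lam w z hz, eval_Fp lam β z hz]
      have := eval_Qp_ne lam z hz
      field_simp
    rw [← hlhs, hpf, hrootsP, Finset.sum_union hdisj]
    congr 1
    · rw [hSl, Finset.sum_image]
      · apply Finset.sum_congr rfl
        intro j _
        congr 1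
        rw [eval_Fp_node, hPdef, derivative_mul, eval_add, eval_mul, eval_mul, eval_Qp_node,
          zero_mul, add_zero, derivative_Qp_node, eval_N1_node]
        have h1 := eval_Qe_self_ne lam hinj j
        have h2 : (w j : ℂ) ≠ 0 := by exact_mod_cast (hw j).ne'
        rw [Complex.ofReal_div]
        field_simp
      · intro a _ b _ hab
        exact hinj (Complex.ofReal_injective hab)
    · rw [Finset.sum_image]
      · apply Finset.sum_congr rfl
        intro r hr
        rw [hmemSn] at hr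
        obtain ⟨h1, h2⟩ := hroot r hr
        have h3 := hreal r hr
        have hre : r = (r.re : ℂ) := by apply Complex.ext <;> simp [h3]
        have hq := eval_Qp_ne lam r h1
        rw [← hre]
        congr 1
        rw [eval_Fp lam β r h1, hPdef, derivative_mul, eval_add, eval_mul, eval_mul, hr, mul_zero,
          zero_add, derivative_N1_root lam w r h1 h2]
        push_cast
        rw [← hre]
        rw [show (Qp lam).eval r * (-(Qp lam).eval r * ∑ j, (w j : ℂ) / (r - lam j) ^ 2) =
          (Qp lam).eval r ^ 2 * (- ∑ j, (w j : ℂ) / (r - lam j) ^ 2) by ring]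
        rw [mul_div_mul_left _ _ (pow_ne_zero 2 hq)]
      · intro a ha b hb hab
        have h3 := hreal a ((hmemSn a).1 ha)
        have h4 := hreal b ((hmemSn b).1 hb)
        exact Complex.ext hab (by rw [h3, h4])

end core

end Crest.Agent.R237
end

-- ▼ part R237/H823Group

set_option autoImplicit false
set_option linter.unusedSectionVars false
set_option linter.unusedVariables false

namespace Crest.Agent.R237

section group
variable {K : Type*} [Fintype K]

open Classical in
theorem core_grouped {E : Type} [AddCommGroup E] [Module ℝ E]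
    (Ξ : E →ₗ[ℝ] E →ₗ[ℝ] ℝ) (lam w φ : K → ℝ) (X : K → E)
    (hw : ∀ k, 0 ≤ w k) (hpos : ∃ k, 0 < w k) (hφ : ∀ k, 0 ≤ φ k)
    (hX0 : ∀ k, w k = 0 → X k = 0)
    (hΞ : ∀ s : Finset K, Ξ (∑ k ∈ s, X k) (∑ k ∈ s, X k) ≤ (∑ k ∈ s, w k) * (∑ k ∈ s, φ k))
    (hβ : ∀ t : ℝ, (∀ k, t = lam k → w k = 0) → ∑ k, w k * (t - lam k)⁻¹ = 0 →
      0 ≤ Ξ (∑ k, (t - lam k)⁻¹ • X k) (∑ k, (t - lam k)⁻¹ • X k)) :
    ∃ (S : Finset ℝ) (cf : ℝ → ℝ), (∀ r ∈ S, cf r ≤ 0) ∧ (∀ r ∈ S, ∃ k, lam k ≤ r) ∧
      ∀ z : ℂ, (∀ k, z ≠ lam k) → ∑ k, (w k : ℂ) / (z - lam k) ≠ 0 →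
        (∑ k, ∑ l, (Ξ (X k) (X l) : ℂ) / ((z - lam k) * (z - lam l)))
            / (∑ k, (w k : ℂ) / (z - lam k))
          - ∑ k, (φ k : ℂ) / (z - lam k) = ∑ r ∈ S, (cf r : ℂ) / (z - r) := by
  set W : ℝ → ℝ := fun v => ∑ k with lam k = v, w k with hW
  set XX : ℝ → E := fun v => ∑ k with lam k = v, X k with hXX
  set Ph : ℝ → ℝ := fun v => ∑ k with lam k = v, φ k with hPh
  set SJ : Finset ℝ := (Finset.univ.image lam).filter (fun v => 0 < W v) with hSJ
  have hWnn : ∀ v, 0 ≤ W v := fun v => Finset.sum_nonneg (fun k _ => hw k)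
  have hW0 : ∀ k, lam k ∉ SJ → w k = 0 := by
    intro k hk
    have h1 : ¬ 0 < W (lam k) := by
      intro h
      apply hk
      rw [hSJ, Finset.mem_filter]
      exact ⟨Finset.mem_image_of_mem _ (Finset.mem_univ _), h⟩
    have h2 : W (lam k) = 0 := le_antisymm (not_lt.1 h1) (hWnn _)
    have h3 := (Finset.sum_eq_zero_iff_of_nonneg (fun i _ => hw i)).1 h2 k (by simp)
    exact h3
  have hgroup : ∀ {M : Type} [AddCommMonoid M] (g : K → M), (∀ k, w k = 0 → g k = 0) →
      ∑ k, g k = ∑ v : SJ, ∑ k with lam k = (v : ℝ), g k := by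
    intro M _ g hg
    have h1 : ∑ v ∈ Finset.univ.image lam, ∑ k with lam k = v, g k = ∑ k, g k :=
      Finset.sum_fiberwise_of_maps_to (fun k _ => Finset.mem_image_of_mem _ (Finset.mem_univ _)) g
    rw [← h1]
    have h2 : ∑ v ∈ SJ, ∑ k with lam k = v, g k
        = ∑ v ∈ Finset.univ.image lam, ∑ k with lam k = v, g k := by
      rw [hSJ]
      apply Finset.sum_filter_of_ne
      intro v hv hne
      by_contra hcon
      apply hne
      apply Finset.sum_eq_zero
      intro k hk
      rw [Finset.mem_filter] at hk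
      apply hg
      apply hW0
      rw [hSJ, Finset.mem_filter, hk.2]
      exact fun h => hcon h.2
    rw [← h2]
    exact (Finset.sum_coe_sort SJ (fun v => ∑ k with lam k = v, g k)).symm
  have hne : Nonempty SJ := by
    obtain ⟨k, hk⟩ := hpos
    refine ⟨⟨lam k, ?_⟩⟩
    by_contra hcon
    exact hk.ne' (hW0 k hcon)
  -- reindexing of the double sums, generic field version
  have hXsum : ∀ t : ℝ, ∑ k, (t - lam k)⁻¹ • X k = ∑ v : SJ, (t - (v : ℝ))⁻¹ • XX v := by
    intro t
    rw [hgroup (fun k => (t - lam k)⁻¹ • X k) (fun k hk => by rw [hX0 k hk, smul_zero])]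
    apply Finset.sum_congr rfl
    intro v _
    rw [hXX, Finset.smul_sum]
    apply Finset.sum_congr rfl
    intro k hk
    rw [(Finset.mem_filter.1 hk).2]
  have hcore := core_partial (J := SJ) (fun v => (v : ℝ)) (fun v => W v)
    (fun v v' => Ξ (XX v) (XX v')) Subtype.val_injective
    (fun v => (Finset.mem_filter.1 v.2).2) (by
      intro t ht hsum
      have h1 : ∀ k, t = lam k → w k = 0 := by
        intro k hk
        apply hW0
        intro hmem
        exact ht ⟨lam k, hmem⟩ hk
      have h2 : ∑ k, w k * (t - lam k)⁻¹ = 0 := by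
        rw [hgroup (fun k => w k * (t - lam k)⁻¹) (fun k hk => by rw [hk, zero_mul]), ← hsum]
        apply Finset.sum_congr rfl
        intro v _
        rw [hW, div_eq_mul_inv, Finset.sum_mul]
        apply Finset.sum_congr rfl
        intro k hk
        rw [(Finset.mem_filter.1 hk).2]
      have h3 := hβ t h1 h2
      rw [hXsum t] at h3
      refine h3.trans_eq ?_
      rw [LinearMap.map_sum₂]
      apply Finset.sum_congr rfl
      intro v _
      rw [map_sum]
      apply Finset.sum_congr rfl
      intro v' _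
      rw [map_smul, map_smul, LinearMap.smul_apply, smul_eq_mul, smul_eq_mul]
      rw [div_eq_mul_inv, mul_inv]
      ring)
  obtain ⟨S1, cf1, hcf1, hS1, hform⟩ := hcore
  refine ⟨S1 ∪ Finset.univ.image lam, fun r => (if r ∈ S1 then cf1 r else 0) +
    (if r ∈ SJ then Ξ (XX r) (XX r) / W r else 0) - Ph r, ?_, ?_, ?_⟩
  · intro r hr
    have hPhnn : 0 ≤ Ph r := Finset.sum_nonneg (fun k _ => hφ k)
    have h1 : (if r ∈ S1 then cf1 r else 0) ≤ 0 := by
      split_ifs with h
      · exact hcf1 r h
      · exact le_refl _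
    have h2 : (if r ∈ SJ then Ξ (XX r) (XX r) / W r else 0) ≤ Ph r := by
      split_ifs with h
      · have h3 : 0 < W r := (Finset.mem_filter.1 h).2
        rw [div_le_iff₀ h3, mul_comm]
        exact hΞ _
      · exact hPhnn
    simp only
    linarith
  · intro r hr
    rw [Finset.mem_union] at hr
    rcases hr with h | h
    · obtain ⟨v, hv⟩ := hS1 r h
      have h2 := (Finset.mem_filter.1 v.2).1
      rw [Finset.mem_image] at h2
      obtain ⟨k, _, hk⟩ := h2
      exact ⟨k, by rw [hk]; exact hv⟩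
    · rw [Finset.mem_image] at h
      obtain ⟨k, _, hk⟩ := h
      exact ⟨k, hk.le⟩
  · intro z hz hN
    have hzJ : ∀ v : SJ, z ≠ ((v : ℝ) : ℂ) := by
      intro v
      have h2 := (Finset.mem_filter.1 v.2).1
      rw [Finset.mem_image] at h2
      obtain ⟨k, _, hk⟩ := h2
      rw [← hk]
      exact hz k
    have hNJ : ∑ k, (w k : ℂ) / (z - lam k) = ∑ v : SJ, (W v : ℂ) / (z - (v : ℝ)) := by
      rw [hgroup (fun k => (w k : ℂ) / (z - lam k)) (fun k hk => by simp [hk])]
      apply Finset.sum_congr rfl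
      intro v _
      rw [hW, Complex.ofReal_sum, Finset.sum_div]
      apply Finset.sum_congr rfl
      intro k hk
      rw [(Finset.mem_filter.1 hk).2]
    have hnum : ∑ k, ∑ l, (Ξ (X k) (X l) : ℂ) / ((z - lam k) * (z - lam l)) =
        ∑ v : SJ, ∑ v' : SJ, (Ξ (XX v) (XX v') : ℂ) / ((z - (v : ℝ)) * (z - (v' : ℝ))) := by
      rw [hgroup (fun k => ∑ l, (Ξ (X k) (X l) : ℂ) / ((z - lam k) * (z - lam l)))
        (fun k hk => by simp [hX0 k hk])]
      apply Finset.sum_congr rfl
      intro v _
      have h1 : ∀ k ∈ Finset.univ.filter (fun k => lam k = (v : ℝ)),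
          ∑ l, (Ξ (X k) (X l) : ℂ) / ((z - lam k) * (z - lam l)) =
          ∑ v' : SJ, (Ξ (X k) (XX v') : ℂ) / ((z - (v : ℝ)) * (z - (v' : ℝ))) := by
        intro k hk
        rw [hgroup (fun l => (Ξ (X k) (X l) : ℂ) / ((z - lam k) * (z - lam l)))
          (fun l hl => by simp [hX0 l hl])]
        apply Finset.sum_congr rfl
        intro v' _
        rw [hXX, map_sum, Complex.ofReal_sum, Finset.sum_div]
        apply Finset.sum_congr rfl
        intro l hl
        rw [(Finset.mem_filter.1 hl).2, (Finset.mem_filter.1 hk).2]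
      rw [Finset.sum_congr rfl h1, Finset.sum_comm]
      apply Finset.sum_congr rfl
      intro v' _
      rw [← Finset.sum_div]
      congr 1
      rw [← Complex.ofReal_sum]
      congr 1
      exact (LinearMap.map_sum₂ Ξ _ _ _).symm
    have hform2 := hform z hzJ (by rw [← hNJ]; exact hN)
    rw [hnum, hNJ, hform2]
    -- the three sums
    have hs1 : ∑ r ∈ S1 ∪ Finset.univ.image lam, ((if r ∈ S1 then cf1 r else 0 : ℝ) : ℂ) / (z - r)
        = ∑ r ∈ S1, (cf1 r : ℂ) / (z - r) := by
      rw [← Finset.sum_subset (Finset.subset_union_left (s₁ := S1) (s₂ := Finset.univ.image lam))]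
      · apply Finset.sum_congr rfl
        intro r hr
        rw [if_pos hr]
      · intro r _ hr
        rw [if_neg hr]; simp
    have hs2 : ∑ r ∈ S1 ∪ Finset.univ.image lam,
        ((if r ∈ SJ then Ξ (XX r) (XX r) / W r else 0 : ℝ) : ℂ) / (z - r)
        = ∑ v : SJ, ((Ξ (XX v) (XX v) / W v : ℝ) : ℂ) / (z - (v : ℝ)) := by
      rw [Finset.sum_coe_sort SJ (fun v => ((Ξ (XX v) (XX v) / W v : ℝ) : ℂ) / (z - (v : ℝ)))]
      rw [← Finset.sum_subset (s₁ := SJ)]
      · apply Finset.sum_congr rfl
        intro r hr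
        rw [if_pos hr]
      · intro r hr
        exact Finset.mem_union_right _ (Finset.mem_filter.1 hr).1
      · intro r _ hr
        rw [if_neg hr]; simp
    have hs3 : ∑ r ∈ S1 ∪ Finset.univ.image lam, (Ph r : ℂ) / (z - r)
        = ∑ k, (φ k : ℂ) / (z - lam k) := by
      rw [← Finset.sum_fiberwise_of_maps_to (s := Finset.univ) (t := S1 ∪ Finset.univ.image lam)
        (g := lam) (fun k _ => Finset.mem_union_right _
          (Finset.mem_image_of_mem _ (Finset.mem_univ k)))]
      apply Finset.sum_congr rfl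
      intro r _
      rw [hPh, Complex.ofReal_sum, Finset.sum_div]
      apply Finset.sum_congr rfl
      intro k hk
      rw [(Finset.mem_filter.1 hk).2]
    rw [← hs1, ← hs2, ← hs3, ← Finset.sum_add_distrib, ← Finset.sum_sub_distrib]
    apply Finset.sum_congr rfl
    intro r _
    push_cast
    ring

end group

end Crest.Agent.R237
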