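import Crest.Agent.R237.Hyp1
import Crest.Agent.R237.HData

-- ▼ part R237/Hyp2
section

/-!
Row 237 (S0367): abstract hyperbolicity of module cones, part 2: homogeneity, openness,
concavity of `T`.
-/

set_option autoImplicit false
set_option linter.unusedSectionVars false

namespace Crest.Agent.R237.Hyp

open Matrix

theorem posDef_of_near {n : Type*} [Fintype n] [DecidableEq n] {C : Matrix n n ℝ}
    (hC : C.IsSymm) (h : ∀ i j, |C i j - (1 : Matrix n n ℝ) i j| ≤ 1 / (2 * (Fintype.card n : ℝ) + 1)) :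
    C.PosDef := by
  refine Matrix.PosDef.of_dotProduct_mulVec_pos ?_ ?_
  · rw [Matrix.IsHermitian, conjTranspose_eq_transpose_of_trivial, hC.eq]
  · intro k hk
    rw [star_trivial]
    have hsq : 0 < ∑ i, k i ^ 2 := by
      obtain ⟨i, hi⟩ : ∃ i, k i ≠ 0 := by
        by_contra hcon
        push Not at hcon
        exact hk (funext hcon)
      exact Finset.sum_pos' (fun j _ => sq_nonneg _) ⟨i, Finset.mem_univ _, by positivity⟩
    have e1 : k ⬝ᵥ (C *ᵥ k) = ∑ i, k i ^ 2 +
        ∑ i, ∑ j, k i * (C i j - (1 : Matrix n n ℝ) i j) * k j := by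
      have : ∀ i, ∑ j, k i * (C i j - (1 : Matrix n n ℝ) i j) * k j =
          k i * (C *ᵥ k) i - k i ^ 2 := by
        intro i
        have h2 : ∑ j, k i * (1 : Matrix n n ℝ) i j * k j = k i ^ 2 := by
          simp [Matrix.one_apply]
          ring
        have h3 : k i * (C *ᵥ k) i = ∑ j, k i * C i j * k j := by
          simp only [mulVec, dotProduct, Finset.mul_sum]
          exact Finset.sum_congr rfl fun j _ => by ring
        rw [h3, ← h2, ← Finset.sum_sub_distrib]
        exact Finset.sum_congr rfl fun j _ => by ring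
      simp only [this, dotProduct, Finset.sum_sub_distrib]
      ring
    have hN : (0:ℝ) < 2 * (Fintype.card n : ℝ) + 1 := by positivity
    have e2 : |∑ i, ∑ j, k i * (C i j - (1 : Matrix n n ℝ) i j) * k j| ≤
        (Fintype.card n : ℝ) / (2 * (Fintype.card n : ℝ) + 1) * ∑ i, k i ^ 2 := by
      calc _ ≤ ∑ i, ∑ j, |k i * (C i j - (1 : Matrix n n ℝ) i j) * k j| := by
            refine (Finset.abs_sum_le_sum_abs _ _).trans ?_
            exact Finset.sum_le_sum fun i _ => Finset.abs_sum_le_sum_abs _ _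
        _ ≤ ∑ i, ∑ j, (1 / (2 * (Fintype.card n : ℝ) + 1)) * ((k i ^ 2 + k j ^ 2) / 2) := by
            refine Finset.sum_le_sum fun i _ => Finset.sum_le_sum fun j _ => ?_
            rw [abs_mul, abs_mul]
            have hh := h i j
            have h4 : |k i| * |k j| ≤ (k i ^ 2 + k j ^ 2) / 2 := by
              nlinarith [sq_nonneg (|k i| - |k j|), sq_abs (k i), sq_abs (k j)]
            calc |k i| * |C i j - (1 : Matrix n n ℝ) i j| * |k j|
                = |C i j - (1 : Matrix n n ℝ) i j| * (|k i| * |k j|) := by ring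
              _ ≤ (1 / (2 * (Fintype.card n : ℝ) + 1)) * ((k i ^ 2 + k j ^ 2) / 2) :=
                  mul_le_mul hh h4 (by positivity) (by positivity)
        _ = _ := by
            simp only [← Finset.mul_sum, ← Finset.sum_div, Finset.sum_add_distrib,
              Finset.sum_const, Finset.card_univ, nsmul_eq_mul]
            field_simp
            ring
    rw [e1]
    have e3 := (abs_le.mp e2).1
    have e4 : (Fintype.card n : ℝ) / (2 * (Fintype.card n : ℝ) + 1) < 1 := by
      rw [div_lt_one hN]; linarith [(Nat.cast_nonneg (Fintype.card n) : (0:ℝ) ≤ _)]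
    nlinarith

/-- congruence by an invertible matrix preserves positive definiteness (iff form) -/
theorem posDef_congr_iff {n : Type*} [Fintype n] [DecidableEq n] {G A : Matrix n n ℝ}
    (hG : G.det ≠ 0) : (Gᵀ * A * G).PosDef ↔ A.PosDef := by
  have hu : IsUnit G := (Matrix.isUnit_iff_isUnit_det G).mpr (isUnit_iff_ne_zero.mpr hG)
  have := Matrix.IsUnit.posDef_star_left_conjugate_iff (x := A) hu
  rw [star_eq_conjTranspose, conjTranspose_eq_transpose_of_trivial] at this
  exact this

theorem posDef_diag_iff {n : Type*} [Fintype n] [DecidableEq n] {d : n → ℝ} :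
    (diagonal d).PosDef ↔ ∀ j, 0 < d j := Matrix.posDef_diagonal_iff

/-! ### Homogeneity -/

theorem det_isHomogeneous {σ : Type*} {n : Type*} [Fintype n] [DecidableEq n]
    (A : Matrix n n (MvPolynomial σ ℝ)) (d : n → ℕ)
    (h : ∀ i j, (A i j).IsHomogeneous (d j)) :
    A.det.IsHomogeneous (∑ j, d j) := by
  rw [Matrix.det_apply]
  refine MvPolynomial.IsHomogeneous.sum _ _ _ fun τ _ => ?_
  have h1 : (∏ i, A (τ i) i).IsHomogeneous (∑ i, d i) :=
    MvPolynomial.IsHomogeneous.prod _ _ _ fun i _ => h _ _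
  rcases Int.units_eq_one_or (Equiv.Perm.sign τ) with hs | hs
  · rw [hs]; simpa using h1
  · rw [hs]; simpa using h1.neg

namespace Dat

variable {M : ℕ} {ι κ : Type*} [Fintype ι] [DecidableEq ι] [Fintype κ] (D : Dat M ι κ)

theorem lin_isHomogeneous (c : Fin M → ℝ) :
    (∑ m, (MvPolynomial.X m : MvPolynomial (Fin M) ℝ) *
      algebraMap ℝ (MvPolynomial (Fin M) ℝ) (c m)).IsHomogeneous 1 := by
  refine MvPolynomial.IsHomogeneous.sum _ _ _ fun m _ => ?_
  have := (MvPolynomial.isHomogeneous_X ℝ m).mul (MvPolynomial.isHomogeneous_C (Fin M) (c m))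
  simpa [MvPolynomial.algebraMap_eq] using this

theorem poly_isHomogeneous : D.poly.IsHomogeneous (Fintype.card ι + 1) := by
  unfold poly pR
  have hA : ∀ i j, (D.AR (MvPolynomial.X : Fin M → MvPolynomial (Fin M) ℝ) i j).IsHomogeneous 1 :=
    fun i j => lin_isHomogeneous _
  have hB : ∀ i j, (D.BR (MvPolynomial.X : Fin M → MvPolynomial (Fin M) ℝ) i j).IsHomogeneous 1 :=
    fun i j => lin_isHomogeneous _
  have hw : (D.wR (MvPolynomial.X : Fin M → MvPolynomial (Fin M) ℝ)).IsHomogeneous 1 :=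
    lin_isHomogeneous _
  have hTh : ∀ i j, (D.ThR (MvPolynomial.X : Fin M → MvPolynomial (Fin M) ℝ) i j).IsHomogeneous 2 := by
    intro i j
    unfold ThR
    rw [Matrix.mul_apply]
    refine MvPolynomial.IsHomogeneous.sum _ _ _ fun l _ => ?_
    rw [Matrix.mul_apply]
    have h1 : (∑ m, D.BR (MvPolynomial.X : Fin M → MvPolynomial (Fin M) ℝ) i m *
        (D.Lam.map (algebraMap ℝ (MvPolynomial (Fin M) ℝ))) m l).IsHomogeneous 1 := by
      refine MvPolynomial.IsHomogeneous.sum _ _ _ fun m _ => ?_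
      have := (hB i m).mul (MvPolynomial.isHomogeneous_C (Fin M) (D.Lam m l))
      simpa [MvPolynomial.algebraMap_eq] using this
    exact h1.mul (hB j l)
  refine MvPolynomial.IsHomogeneous.sub ?_ ?_
  · have h1 := det_isHomogeneous _ (fun _ : ι => 1) hA
    simp only [Finset.sum_const, Finset.card_univ, smul_eq_mul, mul_one] at h1
    exact h1.mul hw
  · have : trace (adjugate (D.AR (MvPolynomial.X : Fin M → MvPolynomial (Fin M) ℝ)) *
        D.ThR MvPolynomial.X) =
        ∑ i, ((D.AR (MvPolynomial.X : Fin M → MvPolynomial (Fin M) ℝ)).updateCol i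
          (fun r => D.ThR (MvPolynomial.X : Fin M → MvPolynomial (Fin M) ℝ) r i)).det := by
      simp only [Matrix.trace, Matrix.diag]
      refine Finset.sum_congr rfl fun i _ => ?_
      rw [← Matrix.cramer_apply, Matrix.cramer_eq_adjugate_mulVec]
      rfl
    rw [this]
    refine MvPolynomial.IsHomogeneous.sum _ _ _ fun i _ => ?_
    have h1 := det_isHomogeneous ((D.AR (MvPolynomial.X : Fin M → MvPolynomial (Fin M) ℝ)).updateCol i
          (fun r => D.ThR (MvPolynomial.X : Fin M → MvPolynomial (Fin M) ℝ) r i))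
          (fun j => if j = i then 2 else 1) (by
        intro r j
        by_cases hj : j = i
        · subst hj
          simp only [updateCol_self, if_true]
          exact hTh _ _
        · simp only [updateCol_ne hj, if_neg hj]
          exact hA _ _)
    have h2 : (Finset.univ.filter (fun j : ι => j = i)).card = 1 := by
      rw [Finset.filter_eq' Finset.univ i]; simp
    have h4 : (Finset.univ.filter (fun j : ι => ¬ j = i)).card = Fintype.card ι - 1 := by
      rw [Finset.filter_ne' Finset.univ i, Finset.card_erase_of_mem (Finset.mem_univ _),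
        Finset.card_univ]
    have h3 : 0 < Fintype.card ι := Fintype.card_pos_iff.mpr ⟨i⟩
    have hs : ∑ j : ι, (if j = i then 2 else 1) = Fintype.card ι + 1 := by
      rw [Finset.sum_ite]
      simp only [Finset.sum_const, smul_eq_mul, mul_one, h4, h2]
      omega
    rw [hs] at h1
    exact h1

/-! ### Real points -/

theorem AR_real (x : Fin M → ℝ) : D.AR x = D.A x := by
  ext i j
  rw [lin_apply D.A x]
  simp [AR, Matrix.sum_apply]

theorem BR_real (x : Fin M → ℝ) : D.BR x = D.B x := by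
  ext i j
  rw [lin_apply D.B x]
  simp [BR, Matrix.sum_apply]

theorem wR_real (x : Fin M → ℝ) : D.wR x = D.w x := by
  rw [lin_apply D.w x]
  simp [wR]

theorem ThR_real (x : Fin M → ℝ) : D.ThR x = D.Th x := by
  unfold ThR Th
  rw [BR_real]
  congr 2


theorem eval_poly_eq {x : Fin M → ℝ} (h : (D.A x).det ≠ 0) :
    MvPolynomial.eval x D.poly = det (D.A x) * D.T x := by
  have := D.aeval_poly x
  rw [MvPolynomial.aeval_eq_eval] at this
  have h' := pR_eq (D := D) (ξ := x) (by rwa [AR_real])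
  rw [AR_real, ThR_real, wR_real] at h'
  rw [T, ← h', ← this]

theorem pt_real (α β : ℝ) (L X : Fin M → ℝ) : pt α β L X = α • L + β • X := by
  funext m; simp [pt]

theorem T_formula {G : Matrix ι ι ℝ} {μ : ι → ℝ} {L X : Fin M → ℝ}
    (h1 : Gᵀ * D.A L * G = 1) (h2 : Gᵀ * D.A X * G = diagonal μ) {α β : ℝ}
    (hne : ∀ j, α + β * μ j ≠ 0) :
    D.T (α • L + β • X) = α * D.T L + β * D.cst G μ L X -
        ∑ j, β ^ 2 * D.rho G μ L X j / (α + β * μ j) := by
  have e1 := formula (D := D) (F := ℝ) h1 h2 (α := 1) (β := 0) (by simp)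
  have e2 := formula (D := D) (F := ℝ) h1 h2 (α := α) (β := β) (by simpa using hne)
  simp only [pt_real, wR_real, AR_real, ThR_real] at e1 e2
  simp only [one_smul, zero_smul, add_zero, Algebra.algebraMap_self, RingHom.id_apply,
    one_mul, zero_mul, ne_eq, OfNat.ofNat_ne_zero, not_false_eq_true, zero_pow, zero_div,
    Finset.sum_const_zero, sub_zero] at e1 e2
  rw [← T] at e1 e2
  rw [e2, e1]

end Dat

end Crest.Agent.R237.Hyp
end

-- ▼ part R237/Hyp3
section

/-!
Row 237 (S0367): abstract hyperbolicity of module cones, part 3: residues, concavity of `T`,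
continuity.
-/

set_option autoImplicit false
set_option linter.unusedSectionVars false

namespace Crest.Agent.R237.Hyp

open Matrix

namespace Dat

variable {M : ℕ} {ι κ : Type*} [Fintype ι] [DecidableEq ι] [Fintype κ] (D : Dat M ι κ)

/-- all residues on the pencil `X + a L` are nonnegative. -/
def Good (L X : Fin M → ℝ) : Prop :=
  ∀ (a : ℝ) (k : ι → ℝ), D.A (X + a • L) *ᵥ k = 0 → 0 ≤ k ⬝ᵥ (D.Th (X + a • L) *ᵥ k)

variable {D}

theorem mulVec_eq_zero_of {n : Type*} [Fintype n] [DecidableEq n] {G : Matrix n n ℝ}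
    (hG : G.det ≠ 0) {v : n → ℝ} (h : Gᵀ *ᵥ v = 0) : v = 0 := by
  have hu : IsUnit (Gᵀ).det := by rw [det_transpose]; exact isUnit_iff_ne_zero.mpr hG
  have := congrArg (fun z => (Gᵀ)⁻¹ *ᵥ z) h
  simpa [mulVec_mulVec, Matrix.nonsing_inv_mul _ hu] using this

theorem rho_nonneg {G : Matrix ι ι ℝ} {μ : ι → ℝ} {L X : Fin M → ℝ}
    (h1 : Gᵀ * D.A L * G = 1) (h2 : Gᵀ * D.A X * G = diagonal μ) (hg : D.Good L X) (j : ι) :
    0 ≤ D.rho G μ L X j := by
  have hd := AR_diag (F := ℝ) h1 h2 (-μ j) 1
  have ht := ThR_diag (F := ℝ) D G (-μ j) 1 L X j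
  have hp : (-μ j) • L + (1:ℝ) • X = X + (-μ j) • L := by rw [one_smul, add_comm]
  rw [pt_real, AR_real, hp] at hd
  rw [pt_real, ThR_real, hp] at ht
  simp only [Algebra.algebraMap_self, RingHom.id_apply] at hd ht
  have hGid : G.map (RingHom.id ℝ) = G := by ext; simp
  rw [hGid] at hd ht
  have hk : D.A (X + (-μ j) • L) *ᵥ (G *ᵥ Pi.single j 1) = 0 := by
    apply mulVec_eq_zero_of (det_G_ne h1)
    rw [mulVec_mulVec, mulVec_mulVec, hd]
    ext i
    by_cases hij : i = j
    · subst hij; simp [diagonal_apply]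
    · simp [diagonal_apply, hij]
  have h3 := hg (-μ j) _ hk
  have h4 : (G *ᵥ Pi.single j 1) ⬝ᵥ (D.Th (X + (-μ j) • L) *ᵥ (G *ᵥ Pi.single j 1)) =
      (Gᵀ * D.Th (X + (-μ j) • L) * G) j j := by
    rw [mulVec_single_one]
    simp only [Matrix.mul_apply, dotProduct, mulVec, transpose_apply, Matrix.col_apply,
      Finset.sum_mul, Finset.mul_sum]
    rw [Finset.sum_comm]
    refine Finset.sum_congr rfl fun a _ => Finset.sum_congr rfl fun b _ => by ring
  rw [h4, ht] at h3
  rw [rho]
  linarith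

theorem mu_pos_iff {G : Matrix ι ι ℝ} {μ : ι → ℝ} {L X : Fin M → ℝ}
    (h1 : Gᵀ * D.A L * G = 1) (h2 : Gᵀ * D.A X * G = diagonal μ) (α β : ℝ) :
    (D.A (α • L + β • X)).PosDef ↔ ∀ j, 0 < α + β * μ j := by
  have hd := AR_diag (F := ℝ) h1 h2 α β
  rw [pt_real, AR_real] at hd
  simp only [Algebra.algebraMap_self, RingHom.id_apply] at hd
  have hGid : G.map (RingHom.id ℝ) = G := by ext; simp
  rw [hGid] at hd
  rw [← posDef_congr_iff (G := G) (det_G_ne h1), hd, posDef_diag_iff]


/-- the set `{A > 0}` is open -/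
theorem isOpen_posDef : IsOpen {x : Fin M → ℝ | (D.A x).PosDef} := by
  rw [isOpen_iff_mem_nhds]
  intro L hL
  obtain ⟨G, μ, h1, h2⟩ := sim_diag (C := D.A 0) hL (D.hA 0)
  have hcont : Continuous fun x => Gᵀ * D.A x * G := by
    have hA : Continuous fun x => D.A x := LinearMap.continuous_of_finiteDimensional D.A
    exact (continuous_const.matrix_mul hA).matrix_mul continuous_const
  have hnear : ∀ᶠ x in nhds L, ∀ i j, |(Gᵀ * D.A x * G) i j - (1 : Matrix ι ι ℝ) i j| <
      1 / (2 * (Fintype.card ι : ℝ) + 1) := by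
    rw [Filter.eventually_all]
    intro i
    rw [Filter.eventually_all]
    intro j
    have hc : Continuous fun x => |(Gᵀ * D.A x * G) i j - (1 : Matrix ι ι ℝ) i j| :=
      ((hcont.matrix_elem i j).sub continuous_const).abs
    have h0 : |(Gᵀ * D.A L * G) i j - (1 : Matrix ι ι ℝ) i j| <
        1 / (2 * (Fintype.card ι : ℝ) + 1) := by
      rw [h1, sub_self, abs_zero]; positivity
    exact (hc.tendsto L).eventually (gt_mem_nhds h0)
  filter_upwards [hnear] with x hx
  rw [← posDef_congr_iff (G := G) (det_G_ne h1)]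
  refine posDef_of_near ?_ fun i j => (hx i j).le
  rw [Matrix.IsSymm]
  simp only [transpose_mul, transpose_transpose, (D.hA x).eq, Matrix.mul_assoc]

theorem continuousAt_T {x : Fin M → ℝ} (h : (D.A x).det ≠ 0) : ContinuousAt D.T x := by
  have hA : Continuous fun x => (D.A x).det :=
    (LinearMap.continuous_of_finiteDimensional D.A).matrix_det
  have hp : Continuous fun x => MvPolynomial.eval x D.poly := MvPolynomial.continuous_eval _
  have h2 : ContinuousAt (fun x => MvPolynomial.eval x D.poly / (D.A x).det) x :=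
    hp.continuousAt.div hA.continuousAt h
  refine h2.congr ?_
  have hne : ∀ᶠ y in nhds x, (D.A y).det ≠ 0 := hA.continuousAt.eventually_ne h
  filter_upwards [hne] with y hy
  rw [eval_poly_eq D hy]
  field_simp

theorem T_smul {x : Fin M → ℝ} (h : (D.A x).PosDef) (r : ℝ) (hr : r ≠ 0) :
    D.T (r • x) = r * D.T x := by
  obtain ⟨G, μ, h1, h2⟩ := sim_diag (C := D.A 0) h (D.hA 0)
  have := T_formula D h1 h2 (α := r) (β := 0) (by intro j; simpa using hr)
  simpa using this

/-- one-dimensional concavity on good pencils -/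
theorem T_conc_good {L X : Fin M → ℝ} (hL : (D.A L).PosDef) (hX : (D.A (L + X)).PosDef)
    (hg : D.Good L X) {t : ℝ} (ht0 : 0 ≤ t) (ht1 : t ≤ 1) :
    (1 - t) * D.T L + t * D.T (L + X) ≤ D.T (L + t • X) := by
  obtain ⟨G, μ, h1, h2⟩ := sim_diag hL (D.hA X)
  have hμ : ∀ j, 0 < 1 + μ j := by
    have := (mu_pos_iff h1 h2 1 1).mp (by simpa using hX)
    simpa using this
  have hμt : ∀ j, 0 < 1 + t * μ j := by
    intro j
    have := hμ j
    nlinarith [mul_nonneg ht0 this.le]
  have e1 := T_formula D h1 h2 (α := 1) (β := 1) (by intro j; simpa using (hμ j).ne')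
  have e2 := T_formula D h1 h2 (α := 1) (β := t) (by intro j; exact (hμt j).ne')
  simp only [one_smul, one_mul, one_pow] at e1 e2
  rw [e1, e2]
  have key : ∑ j, t ^ 2 * D.rho G μ L X j / (1 + t * μ j) ≤
      t * ∑ j, D.rho G μ L X j / (1 + μ j) := by
    rw [Finset.mul_sum]
    refine Finset.sum_le_sum fun j _ => ?_
    have hr := rho_nonneg h1 h2 hg j
    rw [mul_div_assoc, ← mul_div_assoc, div_le_iff₀ (hμt j)]
    have h3 : t * (D.rho G μ L X j / (1 + μ j)) * (1 + t * μ j) =
        D.rho G μ L X j * (t * (1 + t * μ j) / (1 + μ j)) := by ring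
    rw [h3, mul_comm]
    refine mul_le_mul_of_nonneg_left ?_ hr
    rw [le_div_iff₀ (hμ j)]
    nlinarith [mul_nonneg ht0 (sub_nonneg.mpr ht1)]
  linarith

/-- the residue hypothesis: through every point of `{A > 0}` good directions are dense -/
def RES (D : Dat M ι κ) : Prop := ∀ L, (D.A L).PosDef → Dense {X | D.Good L X}

theorem T_conc (hR : D.RES) {L X : Fin M → ℝ} (hL : (D.A L).PosDef)
    (hX : (D.A (L + X)).PosDef) {t : ℝ} (ht0 : 0 ≤ t) (ht1 : t ≤ 1) :
    (1 - t) * D.T L + t * D.T (L + X) ≤ D.T (L + t • X) := by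
  by_contra hcon
  push Not at hcon
  have hLt : (D.A (L + t • X)).PosDef := by
    obtain ⟨G, μ, h1, h2⟩ := sim_diag hL (D.hA X)
    have hμ : ∀ j, 0 < 1 + μ j := by
      have := (mu_pos_iff h1 h2 1 1).mp (by simpa using hX)
      simpa using this
    have := (mu_pos_iff h1 h2 1 t).mpr (fun j => by
      have := hμ j
      nlinarith [mul_nonneg ht0 this.le])
    simpa using this
  have hc : ContinuousAt (fun Y : Fin M → ℝ =>
      D.T (L + t • Y) - ((1 - t) * D.T L + t * D.T (L + Y))) X := by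
    have c1 : ContinuousAt (fun Y : Fin M → ℝ => D.T (L + t • Y)) X :=
      ContinuousAt.comp (g := D.T) (continuousAt_T hLt.det_pos.ne')
        (by fun_prop)
    have c2 : ContinuousAt (fun Y : Fin M → ℝ => D.T (L + Y)) X :=
      ContinuousAt.comp (g := D.T) (continuousAt_T hX.det_pos.ne') (by fun_prop)
    exact c1.sub (continuousAt_const.add (continuousAt_const.mul c2))
  have hneg : D.T (L + t • X) - ((1 - t) * D.T L + t * D.T (L + X)) < 0 := by linarith
  have hev : ∀ᶠ Y in nhds X, D.T (L + t • Y) - ((1 - t) * D.T L + t * D.T (L + Y)) < 0 :=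
    hc.eventually (gt_mem_nhds hneg)
  have hev2 : ∀ᶠ Y in nhds X, (D.A (L + Y)).PosDef := by
    have : ContinuousAt (fun Y : Fin M → ℝ => L + Y) X := by fun_prop
    exact this.eventually (isOpen_posDef.mem_nhds hX)
  obtain ⟨Y, hY1, hY2⟩ := (mem_closure_iff_nhds.mp ((hR L hL) X)) _ (hev.and hev2)
  have := T_conc_good hL hY1.2 hY2 ht0 ht1
  linarith [hY1.1]

end Dat

end Crest.Agent.R237.Hyp
end

-- ▼ part R237/Hyp4
section

/-!
Row 237 (S0367): abstract hyperbolicity of module cones, part 4: the complex bound,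
`IsHyperbolic`, and the description of the closed cone.
-/

set_option autoImplicit false
set_option linter.unusedSectionVars false

namespace Crest.Agent.R237.Hyp

open Matrix Crest.GeometryTopology

namespace Dat

variable {M : ℕ} {ι κ : Type*} [Fintype ι] [DecidableEq ι] [Fintype κ] {D : Dat M ι κ}

theorem abs_im_div (z : ℂ) (μ ρ : ℝ) (h : z + μ ≠ 0) :
    ((ρ : ℂ) / (z + μ)).im = - z.im * (ρ / Complex.normSq (z + μ)) := by
  rw [Complex.div_im]
  simp
  ring

/-- the complex lower bound on good pencils -/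
theorem bound_good {L X : Fin M → ℝ} (hL : (D.A L).PosDef) (hT : 0 < D.T L)
    (hg : D.Good L X) {z : ℂ} (hz : z.im ≠ 0) :
    (D.A L).det * D.T L * |z.im| ^ (Fintype.card ι + 1) ≤
      ‖MvPolynomial.aeval (pt z 1 L X) D.poly‖ := by
  obtain ⟨G, μ, h1, h2⟩ := sim_diag hL (D.hA X)
  have hne : ∀ j, z + 1 * algebraMap ℝ ℂ (μ j) ≠ 0 := by
    intro j h
    apply hz
    have := congrArg Complex.im h
    simpa using this
  have hdet := det_AR (F := ℂ) h1 h2 z 1
  have hdet0 : (D.AR (pt z 1 L X)).det ≠ 0 := by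
    rw [hdet]
    refine mul_ne_zero ?_ (Finset.prod_ne_zero_iff.mpr fun j _ => hne j)
    simpa using hL.det_pos.ne'
  rw [D.aeval_poly, pR_eq hdet0, formula h1 h2 hne]
  have e1 := T_formula D h1 h2 (α := 1) (β := 0) (by simp)
  simp only [one_smul, zero_smul, add_zero, one_mul, zero_mul, ne_eq, OfNat.ofNat_ne_zero,
    not_false_eq_true, zero_pow, zero_div, Finset.sum_const_zero, sub_zero] at e1
  have e2 := formula (D := D) (F := ℝ) h1 h2 (α := 1) (β := 0) (by simp)
  simp only [pt_real, wR_real, AR_real, ThR_real] at e2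
  simp only [one_smul, zero_smul, add_zero, Algebra.algebraMap_self, RingHom.id_apply,
    one_mul, zero_mul, ne_eq, OfNat.ofNat_ne_zero, not_false_eq_true, zero_pow, zero_div,
    Finset.sum_const_zero, sub_zero] at e2
  rw [← T] at e2
  rw [← e2, norm_mul, hdet, norm_mul]
  have hb1 : |z.im| ^ (Fintype.card ι) ≤ ‖∏ j, (z + 1 * algebraMap ℝ ℂ (μ j))‖ := by
    rw [norm_prod]
    calc |z.im| ^ (Fintype.card ι) = ∏ _j : ι, |z.im| := by simp
      _ ≤ ∏ j, ‖z + 1 * algebraMap ℝ ℂ (μ j)‖ := by
        refine Finset.prod_le_prod (fun _ _ => abs_nonneg _) fun j _ => ?_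
        have := Complex.abs_im_le_norm (z + 1 * algebraMap ℝ ℂ (μ j))
        simpa using this
  have hb2 : D.T L * |z.im| ≤ ‖z * algebraMap ℝ ℂ (D.T L) + 1 * algebraMap ℝ ℂ (D.cst G μ L X) -
      ∑ j, 1 ^ 2 * algebraMap ℝ ℂ (D.rho G μ L X j) / (z + 1 * algebraMap ℝ ℂ (μ j))‖ := by
    refine le_trans ?_ (Complex.abs_im_le_norm _)
    have him : (z * algebraMap ℝ ℂ (D.T L) + 1 * algebraMap ℝ ℂ (D.cst G μ L X) -
      ∑ j, 1 ^ 2 * algebraMap ℝ ℂ (D.rho G μ L X j) / (z + 1 * algebraMap ℝ ℂ (μ j))).im =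
        z.im * (D.T L + ∑ j, D.rho G μ L X j / Complex.normSq (z + (μ j : ℂ))) := by
      simp only [one_pow, one_mul, Complex.sub_im, Complex.add_im, Complex.im_sum,
        Complex.coe_algebraMap]
      have : ∀ j ∈ Finset.univ, ((D.rho G μ L X j : ℂ) / (z + (μ j : ℂ))).im =
          - z.im * (D.rho G μ L X j / Complex.normSq (z + (μ j : ℂ))) :=
        fun j _ => abs_im_div _ _ _ (by simpa using hne j)
      rw [Finset.sum_congr rfl this, ← Finset.mul_sum]
      simp
      ring
    rw [him, abs_mul, mul_comm]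
    refine mul_le_mul_of_nonneg_left ?_ (abs_nonneg _)
    refine le_trans ?_ (le_abs_self _)
    have : 0 ≤ ∑ j, D.rho G μ L X j / Complex.normSq (z + (μ j : ℂ)) :=
      Finset.sum_nonneg fun j _ => div_nonneg (rho_nonneg h1 h2 hg j) (Complex.normSq_nonneg _)
    linarith
  have hd : ‖algebraMap ℝ ℂ (D.A L).det‖ = (D.A L).det := by
    simp [abs_of_pos hL.det_pos]
  rw [hd]
  calc (D.A L).det * D.T L * |z.im| ^ (Fintype.card ι + 1)
      = ((D.A L).det * |z.im| ^ (Fintype.card ι)) * (D.T L * |z.im|) := by ring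
    _ ≤ _ := mul_le_mul (mul_le_mul_of_nonneg_left hb1 hL.det_pos.le) hb2
        (by positivity) (by have := hL.det_pos; positivity)

theorem bound (hR : D.RES) {L : Fin M → ℝ} (hL : (D.A L).PosDef) (hT : 0 < D.T L)
    (X : Fin M → ℝ) {z : ℂ} (hz : z.im ≠ 0) :
    (D.A L).det * D.T L * |z.im| ^ (Fintype.card ι + 1) ≤
      ‖MvPolynomial.aeval (pt z 1 L X) D.poly‖ := by
  have hcont : Continuous fun X : Fin M → ℝ => ‖MvPolynomial.aeval (pt z 1 L X) D.poly‖ := by
    have h1 : Continuous fun X : Fin M → ℝ => (pt z 1 L X : Fin M → ℂ) := by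
      unfold pt
      refine continuous_pi fun m => ?_
      have : Continuous fun X : Fin M → ℝ => algebraMap ℝ ℂ (X m) :=
        Complex.continuous_ofReal.comp (continuous_apply m)
      exact continuous_const.add (continuous_const.mul this)
    have h2 : Continuous fun ξ : Fin M → ℂ => MvPolynomial.aeval ξ D.poly := by
      have : (fun ξ : Fin M → ℂ => MvPolynomial.aeval ξ D.poly) =
          fun ξ => MvPolynomial.eval ξ (MvPolynomial.map (algebraMap ℝ ℂ) D.poly) := by
        funext ξ
        rw [MvPolynomial.eval_map, MvPolynomial.aeval_def]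
      rw [this]
      exact MvPolynomial.continuous_eval _
    exact (h2.comp h1).norm
  have hcl : IsClosed {X : Fin M → ℝ | (D.A L).det * D.T L * |z.im| ^ (Fintype.card ι + 1) ≤
      ‖MvPolynomial.aeval (pt z 1 L X) D.poly‖} := isClosed_le continuous_const hcont
  have hsub : {X | D.Good L X} ⊆ {X : Fin M → ℝ |
      (D.A L).det * D.T L * |z.im| ^ (Fintype.card ι + 1) ≤
      ‖MvPolynomial.aeval (pt z 1 L X) D.poly‖} := fun X hX => bound_good hL hT hX hz
  have := closure_minimal hsub hcl
  exact this ((hR L hL) X)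


end Dat

end Crest.Agent.R237.Hyp
end

-- ▼ part R237/Hyp5
section

/-!
Row 237 (S0367): abstract hyperbolicity of module cones, part 5: the description of the closed
cone.
-/

set_option autoImplicit false
set_option linter.unusedSectionVars false

namespace Crest.Agent.R237.Hyp

open Matrix Crest.GeometryTopology

theorem eval_smul_homog {σ : Type*} {F : MvPolynomial σ ℝ} {n : ℕ} (hF : F.IsHomogeneous n)
    (r : ℝ) (x : σ → ℝ) : MvPolynomial.eval (r • x) F = r ^ n * MvPolynomial.eval x F := by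
  rw [MvPolynomial.eval_eq, MvPolynomial.eval_eq, Finset.mul_sum]
  refine Finset.sum_congr rfl fun d hd => ?_
  have hd' : ∑ i ∈ d.support, d i = n := by
    have := hF (MvPolynomial.mem_support_iff.mp hd)
    rw [Finsupp.weight_apply] at this
    simpa [Finsupp.sum] using this
  have : ∏ i ∈ d.support, (r • x) i ^ d i = r ^ n * ∏ i ∈ d.support, x i ^ d i := by
    simp only [Pi.smul_apply, smul_eq_mul, mul_pow, Finset.prod_mul_distrib]
    congr 1
    rw [Finset.prod_pow_eq_pow_sum, ← hd']
  rw [this]; ring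

namespace Dat

variable {M : ℕ} {ι κ : Type*} [Fintype ι] [DecidableEq ι] [Fintype κ] {D : Dat M ι κ}

/-- the open cone -/
def Op (D : Dat M ι κ) : Set (Fin M → ℝ) := {x | (D.A x).PosDef ∧ 0 < D.T x}


theorem posDef_smul {x : Fin M → ℝ} (hx : (D.A x).PosDef) {r : ℝ} (hr : 0 < r) :
    (D.A (r • x)).PosDef := by rw [map_smul]; exact hx.smul hr

/-- superadditivity of `T` -/
theorem T_add (hR : D.RES) {x y : Fin M → ℝ} (hx : (D.A x).PosDef) (hy : (D.A y).PosDef) :
    D.T x + D.T y ≤ D.T (x + y) := by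
  have h := T_conc hR (L := (2:ℝ) • x) (X := (2:ℝ) • y - (2:ℝ) • x) (posDef_smul hx two_pos)
    (by rw [add_sub_cancel]; exact posDef_smul hy two_pos) (t := 1/2) (by norm_num) (by norm_num)
  rw [add_sub_cancel, T_smul hx 2 (by norm_num), T_smul hy 2 (by norm_num)] at h
  have e : (2:ℝ) • x + (1/2 : ℝ) • ((2:ℝ) • y - (2:ℝ) • x) = x + y := by
    rw [smul_sub, smul_smul, smul_smul]; norm_num
    rw [two_smul]; abel
  rw [e] at h
  linarith





theorem of_mem_closedCone (hR : D.RES) {e x : Fin M → ℝ} (he : e ∈ D.Op)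
    (hx : x ∈ Hyperbolic.closedCone D.poly e) {s : ℝ} (hs : 0 < s) : x + s • e ∈ D.Op := by
  obtain ⟨G, μ, h1, h2⟩ := sim_diag he.1 (D.hA x)
  have hp : ∀ s : ℝ, 0 < s → MvPolynomial.eval (x + s • e) D.poly ≠ 0 := by
    intro s hs h0
    have e1 : (fun i => (-s) * e i - x i) = (-1 : ℝ) • (x + s • e) := by
      funext i; simp; ring
    have := hx (-s) (by rw [e1, eval_smul_homog D.poly_isHomogeneous, h0, mul_zero])
    linarith
  have hA : ∀ s : ℝ, (D.A (x + s • e)).PosDef ↔ ∀ j, 0 < s + μ j := by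
    intro s
    have := mu_pos_iff h1 h2 s 1
    rw [one_smul, add_comm] at this
    simpa using this
  -- positivity of `T` on a half line where `A > 0`
  have hTpos : ∀ s0 : ℝ, 0 ≤ s0 → (∀ s, s0 < s → (D.A (x + s • e)).PosDef) →
      ∀ s, s0 < s → 0 < D.T (x + s • e) := by
    intro s0 hs0 hpd s hs
    by_contra hcon
    push Not at hcon
    -- for large r, T > 0
    have hlim : Filter.Tendsto (fun r : ℝ => D.T (e + r • x)) (nhds 0) (nhds (D.T e)) := by
      have c1 : ContinuousAt (fun r : ℝ => D.T (e + r • x)) 0 := by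
        have : ContinuousAt D.T (e + (0:ℝ) • x) := by
          rw [zero_smul, add_zero]; exact continuousAt_T he.1.det_pos.ne'
        exact ContinuousAt.comp (g := D.T) this (by fun_prop)
      have := c1.tendsto
      simpa using this
    have hev : ∀ᶠ r : ℝ in nhds 0, 0 < D.T (e + r • x) := hlim.eventually (lt_mem_nhds he.2)
    obtain ⟨δ, hδ, hball⟩ := Metric.eventually_nhds_iff.mp hev
    set R := max (s + 1) (1 + 1 / δ) with hRdef
    have hRs : s < R := by have := le_max_left (s+1) (1 + 1/δ); linarith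
    have hRpos : 0 < R := by linarith
    have hRδ : 1 / δ < R := by have := le_max_right (s+1) (1 + 1/δ); linarith
    have hTR : 0 < D.T (x + R • e) := by
      have hb := hball (y := R⁻¹) (by
        rw [dist_zero_right, Real.norm_eq_abs, abs_of_pos (inv_pos.mpr hRpos)]
        rw [inv_lt_comm₀ hRpos hδ, ← one_div]; exact hRδ)
      have hpd' : (D.A (e + R⁻¹ • x)).PosDef := by
        have := posDef_smul (hpd R (by linarith)) (inv_pos.mpr hRpos)
        have e3 : R⁻¹ • (x + R • e) = e + R⁻¹ • x := by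
          rw [smul_add, smul_smul, inv_mul_cancel₀ hRpos.ne', one_smul, add_comm]
        rwa [e3] at this
      have e2 : x + R • e = R • (e + R⁻¹ • x) := by
        rw [smul_add, smul_smul, mul_inv_cancel₀ hRpos.ne', one_smul, add_comm]
      rw [e2, T_smul hpd' R hRpos.ne']
      exact mul_pos hRpos hb
    -- IVT
    have hc : ContinuousOn (fun r : ℝ => D.T (x + r • e)) (Set.Icc s R) := by
      intro r hr
      have h3 : (D.A (x + r • e)).PosDef := hpd r (by linarith [hr.1])
      have h4 : ContinuousAt (fun r : ℝ => D.T (x + r • e)) r :=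
        ContinuousAt.comp (g := D.T) (f := fun r : ℝ => x + r • e)
          (continuousAt_T h3.det_pos.ne') (by fun_prop)
      exact h4.continuousWithinAt
    obtain ⟨r, hr, hr0⟩ := intermediate_value_Icc hRs.le hc
      (show (0:ℝ) ∈ Set.Icc (D.T (x + s • e)) (D.T (x + R • e)) from ⟨hcon, hTR.le⟩)
    have hpr : (D.A (x + r • e)).PosDef := hpd r (by linarith [hr.1])
    apply hp r (by linarith [hr.1])
    have hr0' : D.T (x + r • e) = 0 := hr0
    rw [eval_poly_eq D hpr.det_pos.ne', hr0', mul_zero]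
  -- all `μ j ≥ 0`
  have hμ : ∀ j, 0 ≤ μ j := by
    by_contra hcon
    push Not at hcon
    obtain ⟨j1, hj1⟩ := hcon
    obtain ⟨j0, -, hj0⟩ := Finset.exists_min_image Finset.univ μ ⟨j1, Finset.mem_univ _⟩
    have hneg : μ j0 < 0 := lt_of_le_of_lt (hj0 j1 (Finset.mem_univ _)) hj1
    set s0 := - μ j0 with hs0
    have hs0pos : 0 < s0 := by linarith
    have hpd : ∀ s, s0 < s → (D.A (x + s • e)).PosDef := fun s hs =>
      (hA s).mpr fun j => by have := hj0 j (Finset.mem_univ _); linarith
    have hT := hTpos s0 hs0pos.le hpd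
    -- T is bounded above near s0
    have hbd : ∀ s, s0 < s → s ≤ s0 + 1 → D.T (x + s • e) ≤
        D.T (x + (s0 + 1) • e) := by
      intro s hs hs1
      have e2 : x + (s0 + 1) • e = (x + s • e) + (s0 + 1 - s) • e := by
        rw [add_assoc, ← add_smul]; congr 2; ring
      rcases eq_or_lt_of_le hs1 with h | h
      · rw [h]
      · have hpos : 0 < s0 + 1 - s := by linarith
        rw [e2]
        have := T_add hR (hpd s hs) (posDef_smul he.1 hpos)
        rw [T_smul he.1 _ hpos.ne'] at this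
        have h4 := mul_pos hpos he.2
        linarith
    -- p(x + s e) → 0
    have hdet : ∀ s : ℝ, (D.A (x + s • e)).det = (D.A e).det * ∏ j, (s + μ j) := by
      intro s
      have := det_AR (F := ℝ) h1 h2 s 1
      rw [pt_real, AR_real, one_smul, add_comm] at this
      simpa using this
    have hpcont : Continuous fun s : ℝ => MvPolynomial.eval (x + s • e) D.poly :=
      (MvPolynomial.continuous_eval _).comp (by fun_prop)
    have hp0 : MvPolynomial.eval (x + s0 • e) D.poly = 0 := by
      have htend : Filter.Tendsto (fun s : ℝ => MvPolynomial.eval (x + s • e) D.poly)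
          (nhdsWithin s0 (Set.Ioi s0)) (nhds (MvPolynomial.eval (x + s0 • e) D.poly)) :=
        (hpcont.tendsto s0).mono_left nhdsWithin_le_nhds
      have htend2 : Filter.Tendsto (fun s : ℝ => MvPolynomial.eval (x + s • e) D.poly)
          (nhdsWithin s0 (Set.Ioi s0)) (nhds 0) := by
        have hup : Filter.Tendsto (fun s : ℝ => ((D.A e).det * ∏ j, (s + μ j)) *
            D.T (x + (s0 + 1) • e)) (nhdsWithin s0 (Set.Ioi s0)) (nhds 0) := by
          have hc : Continuous fun s : ℝ => ((D.A e).det * ∏ j, (s + μ j)) *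
            D.T (x + (s0 + 1) • e) := by fun_prop
          have := (hc.tendsto s0).mono_left (nhdsWithin_le_nhds (s := Set.Ioi s0))
          have hz : ((D.A e).det * ∏ j, (s0 + μ j)) * D.T (x + (s0 + 1) • e) = 0 := by
            rw [Finset.prod_eq_zero (Finset.mem_univ j0) (by rw [hs0]; ring)]
            ring
          rwa [hz] at this
        refine tendsto_of_tendsto_of_tendsto_of_le_of_le' tendsto_const_nhds hup ?_ ?_
        · filter_upwards [self_mem_nhdsWithin] with s hs
          rw [eval_poly_eq D (hpd s hs).det_pos.ne']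
          exact (mul_pos (hpd s hs).det_pos (hT s hs)).le
        · have : Set.Ioc s0 (s0 + 1) ∈ nhdsWithin s0 (Set.Ioi s0) :=
            Ioc_mem_nhdsGT (by linarith)
          filter_upwards [this] with s hs
          rw [eval_poly_eq D (hpd s hs.1).det_pos.ne', ← hdet]
          exact mul_le_mul_of_nonneg_left (hbd s hs.1 hs.2) (hpd s hs.1).det_pos.le
      exact tendsto_nhds_unique htend htend2
    exact hp s0 hs0pos hp0
  have hpd : ∀ s : ℝ, 0 < s → (D.A (x + s • e)).PosDef := fun s hs =>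
    (hA s).mpr fun j => by have := hμ j; linarith
  exact ⟨hpd s hs, hTpos 0 le_rfl hpd s hs⟩











end Dat

end Crest.Agent.R237.Hyp
end

-- ▼ part R237/HPoly

/-!
Row 237 (S0367): the polynomial part of Theorem H for `HData` (helper663).
-/

set_option autoImplicit false
set_option linter.unusedSectionVars false
set_option linter.unusedVariables false

namespace Crest.Agent.R237

open Matrix Crest.GeometryTopology

section lowTr
variable {n : ℕ} {R : Type*}

theorem lowTr_smul [CommRing R] (r : R) (A : Matrix (Fin (n + 1)) (Fin (n + 1)) R) :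
    lowTr (r • A) = r * lowTr A := by
  simp [lowTr, Finset.mul_sum]

theorem lowTr_map {S : Type*} [CommRing R] [CommRing S] (f : R →+* S)
    (A : Matrix (Fin (n + 1)) (Fin (n + 1)) R) : lowTr (A.map f) = f (lowTr A) := by
  simp [lowTr]

end lowTr

namespace HData

variable {m n d : ℕ} (D : HData m n d)

/-! ### P1 -/

section alg
variable {A B : Type*} [CommRing A] [Algebra ℝ A] [CommRing B] [Algebra ℝ B]

theorem map_MA (f : A →ₐ[ℝ] B) (z : Fin m → A) : (D.MA z).map f = D.MA (fun i => f (z i)) := by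
  ext i j; simp [MA]

theorem map_TA (f : A →ₐ[ℝ] B) (z : Fin m → A) : (D.TA z).map f = D.TA (fun i => f (z i)) := by
  ext i j; simp [TA]

theorem map_wA (f : A →ₐ[ℝ] B) (z : Fin m → A) : f (D.wA z) = D.wA (fun i => f (z i)) := by
  simp [wA]

theorem map_XiA (f : A →ₐ[ℝ] B) (Y : Matrix (Fin n) (Fin d) A) :
    f (D.XiA Y) = D.XiA (Y.map f) := by
  simp [XiA]

theorem map_adj (f : A →ₐ[ℝ] B) {k : ℕ} (Y : Matrix (Fin k) (Fin k) A) :
    Y.adjugate.map f = (Y.map f).adjugate := by
  have := RingHom.map_adjugate f.toRingHom Y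
  simpa [RingHom.mapMatrix_apply] using this

theorem map_det' (f : A →ₐ[ℝ] B) {k : ℕ} (Y : Matrix (Fin k) (Fin k) A) :
    f Y.det = (Y.map f).det := by
  have := RingHom.map_det f.toRingHom Y
  simpa [RingHom.mapMatrix_apply] using this

theorem map_tr (f : A →ₐ[ℝ] B) {k : ℕ} (Y : Matrix (Fin k) (Fin k) A) :
    f Y.trace = (Y.map f).trace := by
  simp [Matrix.trace, Matrix.diag]

theorem map_pA (f : A →ₐ[ℝ] B) (z : Fin m → A) : f (D.pA z) = D.pA (fun i => f (z i)) := by
  unfold pA
  have h1 : f (lowTr (D.MA z).adjugate) = lowTr (D.MA (fun i => f (z i))).adjugate := by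
    rw [← map_MA, ← map_adj]
    exact (lowTr_map f.toRingHom _).symm
  have h2 : f ((D.TA z)ᵀ * (D.MA z).adjugate * D.TA z).trace =
      ((D.TA (fun i => f (z i)))ᵀ * (D.MA (fun i => f (z i))).adjugate *
        D.TA (fun i => f (z i))).trace := by
    rw [← map_MA, ← map_TA, ← map_adj, ← transpose_map, ← Matrix.map_mul, ← Matrix.map_mul,
      map_tr]
  have h3 : f (D.XiA (((D.MA z).adjugate * D.TA z).submatrix Fin.succ id)) =
      D.XiA (((D.MA (fun i => f (z i))).adjugate * D.TA (fun i => f (z i))).submatrix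
        Fin.succ id) := by
    rw [map_XiA, ← map_MA, ← map_TA, ← map_adj, ← Matrix.map_mul]
    rfl
  rw [map_add, map_mul, map_mul, map_sub, map_mul, h1, h2, h3, map_wA, map_det', map_MA]
  simp

theorem aeval_p (z : Fin m → A) : MvPolynomial.aeval z D.p = D.pA z := by
  unfold p
  rw [map_pA]
  simp

end alg

theorem eval_p (x : Fin m → ℝ) : MvPolynomial.eval x D.p = D.pA x := by
  have := D.aeval_p x
  rwa [MvPolynomial.aeval_eq_eval] at this

/-! ### P2: homogeneity -/

theorem adj_isHomogeneous {σ : Type*} {k : ℕ}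
    (A : Matrix (Fin (k + 1)) (Fin (k + 1)) (MvPolynomial σ ℝ))
    (h : ∀ i j, (A i j).IsHomogeneous 1) (i j : Fin (k + 1)) :
    (A.adjugate i j).IsHomogeneous k := by
  have h0 : A.adjugate i j = (A.updateCol i (Pi.single j 1)).det := by
    rw [← Matrix.cramer_apply, Matrix.cramer_eq_adjugate_mulVec, Matrix.mulVec_single_one]
    rfl
  rw [h0]
  have h1 := Hyp.det_isHomogeneous (A.updateCol i (Pi.single j 1))
    (fun c => if c = i then 0 else 1) (by
      intro r c
      by_cases hc : c = i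
      · subst hc
        simp only [updateCol_self, if_true]
        by_cases hr : r = j
        · subst hr; simpa using MvPolynomial.isHomogeneous_one σ ℝ
        · rw [Pi.single_eq_of_ne hr]; exact MvPolynomial.isHomogeneous_zero σ ℝ 0
      · simp only [updateCol_ne hc, if_neg hc]
        exact h _ _)
  have h4 : (Finset.univ.filter (fun c : Fin (k + 1) => ¬ c = i)).card = k := by
    rw [Finset.filter_ne' Finset.univ i, Finset.card_erase_of_mem (Finset.mem_univ _),
      Finset.card_univ, Fintype.card_fin]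
    rfl
  have hs : ∑ c : Fin (k + 1), (if c = i then 0 else 1) = k := by
    rw [Finset.sum_ite]
    simp only [Finset.sum_const, smul_eq_mul, mul_one, mul_zero, h4, zero_add]
  rwa [hs] at h1

theorem p_homog : D.p.IsHomogeneous (2 * n + 2) := by
  unfold p pA
  set X : Fin m → MvPolynomial (Fin m) ℝ := fun i => MvPolynomial.X i with hX
  have hM : ∀ i j, (D.MA X i j).IsHomogeneous 1 := fun i j => Hyp.Dat.lin_isHomogeneous _
  have hT : ∀ i j, (D.TA X i j).IsHomogeneous 1 := fun i j => Hyp.Dat.lin_isHomogeneous _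
  have hw : (D.wA X).IsHomogeneous 1 := Hyp.Dat.lin_isHomogeneous _
  have hadj := adj_isHomogeneous (D.MA X) hM
  have hadjT : ∀ i j, (((D.MA X).adjugate * D.TA X) i j).IsHomogeneous (n + 1) := by
    intro i j
    rw [Matrix.mul_apply]
    exact MvPolynomial.IsHomogeneous.sum _ _ _ fun l _ => (hadj i l).mul (hT l j)
  have hlow : (lowTr (D.MA X).adjugate).IsHomogeneous n :=
    MvPolynomial.IsHomogeneous.sum _ _ _ fun i _ => hadj _ _
  have hdet : (D.MA X).det.IsHomogeneous (n + 1) := by
    have h1 := Hyp.det_isHomogeneous (D.MA X) (fun _ => 1) hM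
    simpa using h1
  have htr : ((D.TA X)ᵀ * (D.MA X).adjugate * D.TA X).trace.IsHomogeneous (n + 2) := by
    rw [Matrix.mul_assoc, Matrix.trace]
    refine MvPolynomial.IsHomogeneous.sum _ _ _ fun a _ => ?_
    rw [Matrix.diag_apply, Matrix.mul_apply]
    refine MvPolynomial.IsHomogeneous.sum _ _ _ fun l _ => ?_
    have := (hT l a).mul (hadjT l a)
    rw [show n + 2 = 1 + (n + 1) from by ring]
    exact this
  refine MvPolynomial.IsHomogeneous.add ?_ ?_
  · have h1 : (algebraMap ℝ (MvPolynomial (Fin m) ℝ) D.phi * lowTr (D.MA X).adjugate).IsHomogeneous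
        (0 + n) := (MvPolynomial.isHomogeneous_C (Fin m) D.phi).mul hlow
    have h2 : ((D.MA X).det * D.wA X - ((D.TA X)ᵀ * (D.MA X).adjugate * D.TA X).trace).IsHomogeneous
        (n + 2) := (hdet.mul hw).sub htr
    rw [show 2 * n + 2 = (0 + n) + (n + 2) from by ring]
    exact h1.mul h2
  · unfold XiA
    refine MvPolynomial.IsHomogeneous.sum _ _ _ fun i _ => ?_
    refine MvPolynomial.IsHomogeneous.sum _ _ _ fun a _ => ?_
    refine MvPolynomial.IsHomogeneous.sum _ _ _ fun j _ => ?_
    refine MvPolynomial.IsHomogeneous.sum _ _ _ fun b _ => ?_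
    have h1 := (MvPolynomial.isHomogeneous_C (Fin m)
      (D.Xi (Matrix.single i a 1) (Matrix.single j b 1))).mul
      ((hadjT i.succ a).mul (hadjT j.succ b))
    rw [show 2 * n + 2 = 0 + ((n + 1) + (n + 1)) from by ring]
    exact h1

/-! ### P3: real values -/

theorem MA_real (x : Fin m → ℝ) : D.MA x = D.M x := by
  ext i j
  rw [Hyp.Dat.lin_apply D.M x]
  simp [MA, Matrix.sum_apply]

theorem TA_real (x : Fin m → ℝ) : D.TA x = D.T x := by
  ext i j
  rw [Hyp.Dat.lin_apply D.T x]
  simp [TA, Matrix.sum_apply]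

theorem wA_real (x : Fin m → ℝ) : D.wA x = D.w x := by
  rw [Hyp.Dat.lin_apply D.w x]
  simp [wA]

theorem mat_sum (Y : Matrix (Fin n) (Fin d) ℝ) :
    Y = ∑ i, ∑ a, Y i a • Matrix.single i a (1 : ℝ) := by
  conv_lhs => rw [Matrix.matrix_eq_sum_single Y]
  refine Finset.sum_congr rfl fun i _ => Finset.sum_congr rfl fun a _ => ?_
  rw [Matrix.smul_single, smul_eq_mul, mul_one]

theorem XiA_real (Y : Matrix (Fin n) (Fin d) ℝ) : D.XiA Y = D.Xi Y Y := by
  have h1 : ∀ Z : Matrix (Fin n) (Fin d) ℝ,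
      D.Xi Y Z = ∑ i, ∑ a, Y i a * D.Xi (Matrix.single i a 1) Z := by
    intro Z
    conv_lhs => rw [mat_sum Y]
    simp only [map_sum, LinearMap.sum_apply, map_smul, LinearMap.smul_apply, smul_eq_mul]
  have h2 : ∀ Z : Matrix (Fin n) (Fin d) ℝ,
      D.Xi Z Y = ∑ j, ∑ b, Y j b * D.Xi Z (Matrix.single j b 1) := by
    intro Z
    conv_lhs => rw [mat_sum Y]
    simp only [map_sum, map_smul, smul_eq_mul]
  rw [h1]
  simp only [XiA, Algebra.algebraMap_self, RingHom.id_apply]
  refine Finset.sum_congr rfl fun i _ => Finset.sum_congr rfl fun a _ => ?_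
  rw [h2, Finset.mul_sum]
  refine Finset.sum_congr rfl fun j _ => ?_
  rw [Finset.mul_sum]
  refine Finset.sum_congr rfl fun b _ => by ring

theorem XiA_smul {A : Type*} [CommRing A] [Algebra ℝ A] (r : A) (Y : Matrix (Fin n) (Fin d) A) :
    D.XiA (r • Y) = r ^ 2 * D.XiA Y := by
  simp only [XiA, Finset.mul_sum, Matrix.smul_apply, smul_eq_mul]
  refine Finset.sum_congr rfl fun i _ => Finset.sum_congr rfl fun a _ =>
    Finset.sum_congr rfl fun j _ => Finset.sum_congr rfl fun b _ => by ring

theorem adj_eq {K : Type*} [Field K] {k : ℕ} {A : Matrix (Fin k) (Fin k) K} (h : A.det ≠ 0) :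
    A.adjugate = A.det • A⁻¹ := by
  rw [Matrix.inv_def, smul_smul, Ring.mul_inverse_cancel _ (isUnit_iff_ne_zero.mpr h), one_smul]

/-- the polynomial through the rational function, over any field. -/
theorem pA_eq_field {K : Type*} [Field K] [Algebra ℝ K] (z : Fin m → K)
    (hdet : (D.MA z).det ≠ 0) (htr : lowTr (D.MA z)⁻¹ ≠ 0) :
    D.pA z = (D.MA z).det ^ 2 * lowTr (D.MA z)⁻¹ *
      (algebraMap ℝ K D.phi * (D.wA z - ((D.TA z)ᵀ * (D.MA z)⁻¹ * D.TA z).trace) +
        D.XiA (((D.MA z)⁻¹ * D.TA z).submatrix Fin.succ id) / lowTr (D.MA z)⁻¹) := by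
  unfold pA
  rw [adj_eq hdet, lowTr_smul]
  have h1 : ((D.TA z)ᵀ * ((D.MA z).det • (D.MA z)⁻¹) * D.TA z).trace =
      (D.MA z).det * ((D.TA z)ᵀ * (D.MA z)⁻¹ * D.TA z).trace := by
    rw [Matrix.mul_smul, Matrix.smul_mul, trace_smul, smul_eq_mul]
  have h2 : ((D.MA z).det • (D.MA z)⁻¹ * D.TA z).submatrix Fin.succ id =
      (D.MA z).det • ((D.MA z)⁻¹ * D.TA z).submatrix Fin.succ id := by
    rw [Matrix.smul_mul]; rfl
  rw [h1, h2, XiA_smul]
  field_simp


theorem pA_eq (x : Fin m → ℝ) (hdet : (D.M x).det ≠ 0) (htr : lowTr (D.M x)⁻¹ ≠ 0) :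
    D.pA x = (D.M x).det ^ 2 * lowTr (D.M x)⁻¹ * D.F x := by
  have h := D.pA_eq_field x (by rwa [MA_real]) (by rwa [MA_real])
  rw [MA_real, TA_real, wA_real, XiA_real] at h
  rw [h, F, lin]
  simp

theorem lowTr_pos {A : Matrix (Fin (n + 1)) (Fin (n + 1)) ℝ} (hn : 0 < n) (h : A.PosDef) :
    0 < lowTr A := by
  unfold lowTr
  have : Nonempty (Fin n) := ⟨⟨0, hn⟩⟩
  exact Finset.sum_pos (fun i _ => h.diag_pos) Finset.univ_nonempty

theorem lowTr_inv_pos {A : Matrix (Fin (n + 1)) (Fin (n + 1)) ℝ} (hn : 0 < n) (h : A.PosDef) :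
    0 < lowTr A⁻¹ := lowTr_pos hn h.inv

theorem pA_eq_of_posDef (x : Fin m → ℝ) (h : (D.M x).PosDef) :
    MvPolynomial.eval x D.p = (D.M x).det ^ 2 * lowTr (D.M x)⁻¹ * D.F x := by
  rw [eval_p, pA_eq _ _ h.det_pos.ne' (lowTr_inv_pos D.n_pos h).ne']

/-! ### P4 -/

theorem F_e : D.F D.e = D.aa := by
  unfold F lin aa
  rw [D.M_e, inv_one, Matrix.mul_one, Matrix.one_mul]
  have h1 : (D.T D.e).submatrix Fin.succ id = (0 : Matrix (Fin n) (Fin d) ℝ) := by
    ext i a; simpa using D.T_e i a
  have h2 : ((D.T D.e)ᵀ * D.T D.e).trace = ∑ a, (D.T D.e 0 a) ^ 2 := by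
    simp only [Matrix.trace, Matrix.diag, Matrix.mul_apply, transpose_apply]
    refine Finset.sum_congr rfl fun a _ => ?_
    rw [Fin.sum_univ_succ]
    simp [D.T_e, sq]
  rw [h1, h2]
  simp

theorem posDef_e : (D.M D.e).PosDef := by rw [D.M_e]; exact Matrix.PosDef.one

theorem eval_e_pos : 0 < MvPolynomial.eval D.e D.p := by
  rw [pA_eq_of_posDef _ _ D.posDef_e, F_e]
  have h1 := D.posDef_e.det_pos
  have h2 := lowTr_inv_pos D.n_pos D.posDef_e
  have h3 := D.aa_pos
  positivity

theorem eval_neg (x : Fin m → ℝ) : MvPolynomial.eval (-x) D.p = MvPolynomial.eval x D.p := by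
  have h := Hyp.eval_smul_homog D.p_homog (-1) x
  rw [neg_one_smul] at h
  rw [h, show 2 * n + 2 = 2 * (n + 1) from by ring, pow_mul]
  simp

theorem isOpen_posDef : IsOpen {x : Fin m → ℝ | (D.M x).PosDef} := by
  let D' : Hyp.Dat m (Fin (n + 1)) (Fin (n + 1)) := ⟨D.M, D.M, D.w, 0, D.M_symm⟩
  exact Hyp.Dat.isOpen_posDef (D := D')

theorem continuous_M : Continuous fun x => D.M x := LinearMap.continuous_of_finiteDimensional D.M

theorem continuousAt_F {x : Fin m → ℝ} (h : (D.M x).PosDef) : ContinuousAt D.F x := by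
  have hp : Continuous fun x => MvPolynomial.eval x D.p := MvPolynomial.continuous_eval _
  have hdet : Continuous fun x => (D.M x).det := D.continuous_M.matrix_det
  have hadj : Continuous fun x => lowTr (D.M x).adjugate := by
    unfold lowTr
    exact continuous_finsetSum _ fun i _ => (D.continuous_M.matrix_adjugate).matrix_elem _ _
  have hne : (D.M x).det * lowTr (D.M x).adjugate ≠ 0 := by
    rw [adj_eq h.det_pos.ne', lowTr_smul]
    have := h.det_pos; have := lowTr_inv_pos D.n_pos h
    positivity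
  have h2 : ContinuousAt (fun x => MvPolynomial.eval x D.p /
      ((D.M x).det * lowTr (D.M x).adjugate)) x :=
    hp.continuousAt.div (hdet.mul hadj).continuousAt hne
  refine h2.congr ?_
  have hev : ∀ᶠ y in nhds x, (D.M y).PosDef := D.isOpen_posDef.mem_nhds h
  filter_upwards [hev] with y hy
  rw [pA_eq_of_posDef _ _ hy, adj_eq hy.det_pos.ne', lowTr_smul]
  have h1 := hy.det_pos; have h2 := lowTr_inv_pos D.n_pos hy
  field_simp


end HData

end Crest.Agent.R237
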