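import Mathlib

/-!
Row 237 (S0367): invariance of `F` under translations and dilations, purely on the level of the
matrices `M` (moment matrix of affine functions, index `0` = constant `1`), `T` (9 × 19 matrix
`L(u_i q_a)`) and the number `w = L(∑ q_a²)`.
-/

set_option autoImplicit false

namespace Crest.Agent.R237.Inv

open Matrix

variable {n d : ℕ}

/-- lower rows of `M⁻¹ T` -/
noncomputable def linM (M : Matrix (Fin (n+1)) (Fin (n+1)) ℝ) (T : Matrix (Fin (n+1)) (Fin d) ℝ) :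
    Matrix (Fin n) (Fin d) ℝ := (M⁻¹ * T).submatrix Fin.succ id

/-- lower block of `M⁻¹` -/
noncomputable def lowM (M : Matrix (Fin (n+1)) (Fin (n+1)) ℝ) : Matrix (Fin n) (Fin n) ℝ :=
  (M⁻¹).submatrix Fin.succ Fin.succ

/-- `F` as a function of the three ingredients; `Xi` is the quadratic form. -/
noncomputable def Fm (phi : ℝ) (Xi : Matrix (Fin n) (Fin d) ℝ → ℝ)
    (M : Matrix (Fin (n+1)) (Fin (n+1)) ℝ) (T : Matrix (Fin (n+1)) (Fin d) ℝ) (w : ℝ) : ℝ :=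
  phi * (w - (Tᵀ * M⁻¹ * T).trace) + Xi (linM M T) / (lowM M).trace

/-- the matrix of the substitution `u ↦ u + b` on affine functions (coefficient vectors) -/
def Ub (b : Fin n → ℝ) : Matrix (Fin (n+1)) (Fin (n+1)) ℝ :=
  Matrix.of fun i j => Fin.cases (Fin.cases 1 (fun j' => b j') j)
    (fun i' => Fin.cases 0 (fun j' => if i' = j' then 1 else 0) j) i

@[simp] theorem Ub_zero_zero (b : Fin n → ℝ) : Ub b 0 0 = 1 := rfl
@[simp] theorem Ub_zero_succ (b : Fin n → ℝ) (j : Fin n) : Ub b 0 j.succ = b j := rfl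
@[simp] theorem Ub_succ_zero (b : Fin n → ℝ) (i : Fin n) : Ub b i.succ 0 = 0 := rfl
@[simp] theorem Ub_succ_succ (b : Fin n → ℝ) (i j : Fin n) :
    Ub b i.succ j.succ = if i = j then 1 else 0 := rfl

theorem Ub_mul (b c : Fin n → ℝ) : Ub b * Ub c = Ub (b + c) := by
  ext i j
  rw [Matrix.mul_apply, Fin.sum_univ_succ]
  refine Fin.cases ?_ (fun i' => ?_) i
  · refine Fin.cases ?_ (fun j' => ?_) j
    · simp
    · simp [add_comm]
  · refine Fin.cases ?_ (fun j' => ?_) j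
    · simp
    · simp

theorem Ub_zero : Ub (0 : Fin n → ℝ) = 1 := by
  ext i j
  refine Fin.cases ?_ (fun i' => ?_) i
  · refine Fin.cases ?_ (fun j' => ?_) j
    · simp
    · simp [(Fin.succ_ne_zero j').symm]
  · refine Fin.cases ?_ (fun j' => ?_) j
    · simp [Fin.succ_ne_zero i']
    · simp [Matrix.one_apply, Fin.succ_inj]

theorem Ub_mul_neg (b : Fin n → ℝ) : Ub b * Ub (-b) = 1 := by
  rw [Ub_mul, add_neg_cancel, Ub_zero]

theorem Ub_neg_mul (b : Fin n → ℝ) : Ub (-b) * Ub b = 1 := by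
  rw [Ub_mul, neg_add_cancel, Ub_zero]

theorem Ub_inv (b : Fin n → ℝ) : (Ub b)⁻¹ = Ub (-b) :=
  Matrix.inv_eq_right_inv (Ub_mul_neg b)

/-- left multiplication by `Ub` does not change lower rows -/
theorem Ub_mul_low {N : Type} (b : Fin n → ℝ) (X : Matrix (Fin (n+1)) N ℝ) (i : Fin n) (j : N) :
    (Ub b * X) i.succ j = X i.succ j := by
  rw [Matrix.mul_apply, Fin.sum_univ_succ]
  simp

/-- right multiplication by `Ubᵀ` does not change lower columns -/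
theorem mul_Ub_low {N : Type} (b : Fin n → ℝ) (X : Matrix N (Fin (n+1)) ℝ) (i : N) (j : Fin n) :
    (X * (Ub b)ᵀ) i j.succ = X i j.succ := by
  rw [Matrix.mul_apply, Fin.sum_univ_succ]
  simp

/-- the translated data -/
structure IsTrans (b : Fin n → ℝ) (R : Matrix (Fin (n+1)) (Fin d) ℝ)
    (M M' : Matrix (Fin (n+1)) (Fin (n+1)) ℝ) (T T' : Matrix (Fin (n+1)) (Fin d) ℝ)
    (w w' : ℝ) : Prop where
  hM : M' = (Ub b)ᵀ * M * Ub b
  hT : T' = (Ub b)ᵀ * (T + M * R)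
  hw : w' = w + 2 * (Rᵀ * T).trace + (Rᵀ * M * R).trace

section trans

variable {b : Fin n → ℝ} {R : Matrix (Fin (n+1)) (Fin d) ℝ}
  {M M' : Matrix (Fin (n+1)) (Fin (n+1)) ℝ} {T T' : Matrix (Fin (n+1)) (Fin d) ℝ} {w w' : ℝ}

theorem IsTrans.inv (h : IsTrans b R M M' T T' w w') :
    M'⁻¹ = Ub (-b) * M⁻¹ * (Ub (-b))ᵀ := by
  rw [h.hM, Matrix.mul_inv_rev, Matrix.mul_inv_rev, Ub_inv, ← Matrix.transpose_nonsing_inv, Ub_inv,
    ← Matrix.mul_assoc]

theorem IsTrans.posDef (h : IsTrans b R M M' T T' w w') (hM : M.PosDef) : M'.PosDef := by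
  rw [h.hM]
  have hU : IsUnit (Ub b) := ⟨⟨Ub b, Ub (-b), Ub_mul_neg b, Ub_neg_mul b⟩, rfl⟩
  have h2 := (Matrix.IsUnit.posDef_star_left_conjugate_iff (x := M) hU).mpr hM
  have h3 : star (Ub b) = (Ub b)ᵀ := by
    rw [Matrix.star_eq_conjTranspose, Matrix.conjTranspose_eq_transpose_of_trivial]
  rw [h3] at h2
  exact h2

theorem IsTrans.lowM (h : IsTrans b R M M' T T' w w') : lowM M' = lowM M := by
  unfold Inv.lowM
  rw [h.inv]
  ext i j
  simp only [Matrix.submatrix_apply]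
  rw [mul_Ub_low, Ub_mul_low]

theorem IsTrans.inv_mul (h : IsTrans b R M M' T T' w w') (hdet : IsUnit M.det) :
    M'⁻¹ * T' = Ub (-b) * (M⁻¹ * T + R) := by
  have h1 : (Ub (-b))ᵀ * (Ub b)ᵀ = 1 := by
    rw [← Matrix.transpose_mul, Ub_mul_neg, Matrix.transpose_one]
  rw [h.inv, h.hT]
  calc Ub (-b) * M⁻¹ * (Ub (-b))ᵀ * ((Ub b)ᵀ * (T + M * R))
      = Ub (-b) * M⁻¹ * (((Ub (-b))ᵀ * (Ub b)ᵀ) * (T + M * R)) := by
        simp only [Matrix.mul_assoc]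
    _ = Ub (-b) * (M⁻¹ * T + R) := by
        rw [h1, Matrix.one_mul, Matrix.mul_assoc, Matrix.mul_add, ← Matrix.mul_assoc M⁻¹ M R,
          Matrix.nonsing_inv_mul _ hdet, Matrix.one_mul]

theorem IsTrans.linM (h : IsTrans b R M M' T T' w w') (hdet : IsUnit M.det) :
    linM M' T' = linM M T + R.submatrix Fin.succ id := by
  unfold Inv.linM
  rw [h.inv_mul hdet]
  ext i j
  simp only [Matrix.submatrix_apply, Matrix.add_apply, id]
  rw [Ub_mul_low]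
  simp

theorem IsTrans.schur (h : IsTrans b R M M' T T' w w') (hdet : IsUnit M.det) (hsymm : M.IsSymm) :
    w' - (T'ᵀ * M'⁻¹ * T').trace = w - (Tᵀ * M⁻¹ * T).trace := by
  have h1 : T'ᵀ * M'⁻¹ * T' = (T + M * R)ᵀ * (M⁻¹ * T + R) := by
    rw [Matrix.mul_assoc, h.inv_mul hdet, h.hT, Matrix.transpose_mul, Matrix.transpose_transpose]
    calc (T + M * R)ᵀ * Ub b * (Ub (-b) * (M⁻¹ * T + R))
        = (T + M * R)ᵀ * ((Ub b * Ub (-b)) * (M⁻¹ * T + R)) := by simp only [Matrix.mul_assoc]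
      _ = _ := by rw [Ub_mul_neg, Matrix.one_mul]
  have h2 : (T + M * R)ᵀ * (M⁻¹ * T + R) = Tᵀ * M⁻¹ * T + Tᵀ * R + Rᵀ * T + Rᵀ * M * R := by
    rw [Matrix.transpose_add, Matrix.transpose_mul, hsymm.eq, Matrix.add_mul, Matrix.mul_add,
      Matrix.mul_add]
    have h3 : Rᵀ * M * (M⁻¹ * T) = Rᵀ * T := by
      rw [Matrix.mul_assoc, ← Matrix.mul_assoc M M⁻¹ T, Matrix.mul_nonsing_inv _ hdet,
        Matrix.one_mul]
    rw [h3, ← Matrix.mul_assoc Tᵀ M⁻¹ T]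
    abel
  have h4 : (Tᵀ * R).trace = (Rᵀ * T).trace := by
    rw [← Matrix.trace_transpose (Tᵀ * R), Matrix.transpose_mul, Matrix.transpose_transpose]
  rw [h1, h2, h.hw, Matrix.trace_add, Matrix.trace_add, Matrix.trace_add, h4]
  ring

/-- **Translation invariance of `F`.** -/
theorem IsTrans.Fm (h : IsTrans b R M M' T T' w w') (hdet : IsUnit M.det) (hsymm : M.IsSymm)
    (phi : ℝ) (Xi : Matrix (Fin n) (Fin d) ℝ → ℝ)
    (hXi : ∀ X, Xi (X + R.submatrix Fin.succ id) = Xi X) :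
    Fm phi Xi M' T' w' = Fm phi Xi M T w := by
  unfold Inv.Fm
  rw [h.schur hdet hsymm, h.linM hdet, h.lowM, hXi]

end trans

/-! ### Dilations -/

/-- the diagonal matrix `diag(1,s,…,s)` -/
def Ds (n : ℕ) (s : ℝ) : Matrix (Fin (n+1)) (Fin (n+1)) ℝ :=
  Matrix.diagonal (Fin.cases 1 (fun _ => s))

theorem Ds_mul (s t : ℝ) : Ds n s * Ds n t = Ds n (s * t) := by
  unfold Ds
  rw [Matrix.diagonal_mul_diagonal]
  congr 1
  funext i
  refine Fin.cases ?_ (fun i' => ?_) i <;> simp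

theorem Ds_one : Ds n 1 = 1 := by
  unfold Ds
  rw [← Matrix.diagonal_one]
  congr 1
  funext i
  refine Fin.cases ?_ (fun i' => ?_) i <;> simp

theorem Ds_transpose (s : ℝ) : (Ds n s)ᵀ = Ds n s := Matrix.diagonal_transpose _

theorem Ds_inv {s : ℝ} (hs : s ≠ 0) : (Ds n s)⁻¹ = Ds n s⁻¹ := by
  refine Matrix.inv_eq_right_inv ?_
  rw [Ds_mul, mul_inv_cancel₀ hs, Ds_one]

theorem Ds_mul_low {N : Type} (s : ℝ) (X : Matrix (Fin (n+1)) N ℝ) (i : Fin n) (j : N) :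
    (Ds n s * X) i.succ j = s * X i.succ j := by
  unfold Ds
  rw [Matrix.diagonal_mul]
  rfl

theorem mul_Ds_low {N : Type} (s : ℝ) (X : Matrix N (Fin (n+1)) ℝ) (i : N) (j : Fin n) :
    (X * Ds n s) i j.succ = X i j.succ * s := by
  unfold Ds
  rw [Matrix.mul_diagonal]
  rfl

/-- the dilated data -/
structure IsDil (s : ℝ)
    (M M' : Matrix (Fin (n+1)) (Fin (n+1)) ℝ) (T T' : Matrix (Fin (n+1)) (Fin d) ℝ)
    (w w' : ℝ) : Prop where
  hM : M' = Ds n s * M * Ds n s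
  hT : T' = s ^ 2 • (Ds n s * T)
  hw : w' = s ^ 4 * w

section dil

variable {s : ℝ}
  {M M' : Matrix (Fin (n+1)) (Fin (n+1)) ℝ} {T T' : Matrix (Fin (n+1)) (Fin d) ℝ} {w w' : ℝ}

theorem IsDil.inv (h : IsDil s M M' T T' w w') (hs : s ≠ 0) :
    M'⁻¹ = Ds n s⁻¹ * M⁻¹ * Ds n s⁻¹ := by
  rw [h.hM, Matrix.mul_inv_rev, Matrix.mul_inv_rev, Ds_inv hs, ← Matrix.mul_assoc]

theorem IsDil.posDef (h : IsDil s M M' T T' w w') (hs : s ≠ 0) (hM : M.PosDef) : M'.PosDef := by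
  rw [h.hM]
  have h10 : Ds n s * Ds n s⁻¹ = 1 := by rw [Ds_mul, mul_inv_cancel₀ hs, Ds_one]
  have h11 : Ds n s⁻¹ * Ds n s = 1 := by rw [Ds_mul, inv_mul_cancel₀ hs, Ds_one]
  have hU : IsUnit (Ds n s) := ⟨⟨Ds n s, Ds n s⁻¹, h10, h11⟩, rfl⟩
  have h2 := (Matrix.IsUnit.posDef_star_left_conjugate_iff (x := M) hU).mpr hM
  have h3 : star (Ds n s) = Ds n s := by
    rw [Matrix.star_eq_conjTranspose, Matrix.conjTranspose_eq_transpose_of_trivial, Ds_transpose]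
  rw [h3] at h2
  exact h2

theorem IsDil.inv_mul (h : IsDil s M M' T T' w w') (hs : s ≠ 0) :
    M'⁻¹ * T' = s ^ 2 • (Ds n s⁻¹ * (M⁻¹ * T)) := by
  rw [h.inv hs, h.hT, Matrix.mul_smul]
  congr 1
  calc Ds n s⁻¹ * M⁻¹ * Ds n s⁻¹ * (Ds n s * T)
      = Ds n s⁻¹ * (M⁻¹ * ((Ds n s⁻¹ * Ds n s) * T)) := by simp only [Matrix.mul_assoc]
    _ = _ := by rw [Ds_mul, inv_mul_cancel₀ hs, Ds_one, Matrix.one_mul]

theorem IsDil.linM (h : IsDil s M M' T T' w w') (hs : s ≠ 0) :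
    linM M' T' = s • linM M T := by
  unfold Inv.linM
  rw [h.inv_mul hs]
  ext i j
  simp only [Matrix.submatrix_apply, Matrix.smul_apply, id, smul_eq_mul]
  rw [Ds_mul_low]
  field_simp

theorem IsDil.lowM (h : IsDil s M M' T T' w w') (hs : s ≠ 0) :
    (lowM M').trace = (s ^ 2)⁻¹ * (lowM M).trace := by
  unfold Inv.lowM
  rw [h.inv hs, Matrix.trace, Matrix.trace, Finset.mul_sum]
  refine Finset.sum_congr rfl (fun i _ => ?_)
  simp only [Matrix.diag_apply, Matrix.submatrix_apply]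
  rw [mul_Ds_low, Ds_mul_low]
  field_simp

theorem IsDil.schur (h : IsDil s M M' T T' w w') (hs : s ≠ 0) :
    w' - (T'ᵀ * M'⁻¹ * T').trace = s ^ 4 * (w - (Tᵀ * M⁻¹ * T).trace) := by
  have h1 : T'ᵀ * M'⁻¹ * T' = s ^ 4 • (Tᵀ * M⁻¹ * T) := by
    rw [Matrix.mul_assoc, h.inv_mul hs, h.hT, Matrix.transpose_smul, Matrix.transpose_mul,
      Ds_transpose, Matrix.smul_mul, Matrix.mul_smul, smul_smul]
    congr 1
    · ring
    · calc Tᵀ * Ds n s * (Ds n s⁻¹ * (M⁻¹ * T))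
          = Tᵀ * ((Ds n s * Ds n s⁻¹) * (M⁻¹ * T)) := by simp only [Matrix.mul_assoc]
        _ = _ := by rw [Ds_mul, mul_inv_cancel₀ hs, Ds_one, Matrix.one_mul, Matrix.mul_assoc]
  rw [h1, h.hw, Matrix.trace_smul, smul_eq_mul]
  ring

/-- **Homogeneity of `F` under dilations.** -/
theorem IsDil.Fm (h : IsDil s M M' T T' w w') (hs : s ≠ 0)
    (phi : ℝ) (Xi : Matrix (Fin n) (Fin d) ℝ → ℝ)
    (hXi : ∀ (r : ℝ) X, Xi (r • X) = r ^ 2 * Xi X) :
    Fm phi Xi M' T' w' = s ^ 4 * Fm phi Xi M T w := by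
  unfold Inv.Fm
  rw [h.schur hs, h.linM hs, h.lowM hs, hXi]
  have : (s:ℝ) ^ 2 ≠ 0 := pow_ne_zero _ hs
  by_cases h0 : (Inv.lowM M).trace = 0
  · rw [h0]; simp; ring
  · field_simp

end dil

/-! ### Scaling -/


end Crest.Agent.R237.Inv
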