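import Mathlib
import Crest.Agent.R237.HData
import Crest.Agent.R237.Inv
import Crest.Agent.R237.EX

-- ▼ part R237/Res
section

/-! Row 237 (S0367), residues of the scalar model (helper227).
`M` = moment matrix of `P_1` (index 0 = constant 1), `T i a = L(u_i v_a)`.
`lin M T` = lower rows of `M⁻¹ T`. -/

set_option autoImplicit false

open Matrix Finset

namespace Crest.Agent.R237.Res

variable {n d : ℕ}

/-- symmetric 3-tensors -/
def Sym3 (Z : Fin n → Fin n → Fin n → ℝ) : Prop :=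
  ∀ i j k, Z i j k = Z j i k ∧ Z i j k = Z i k j

/-- contraction of a 3-tensor with a matrix in the last two slots -/
noncomputable def ctr (Z : Fin n → Fin n → Fin n → ℝ) (v : Matrix (Fin n) (Fin n) ℝ) : Fin n → ℝ :=
  fun i => ∑ j, ∑ k, Z i j k * v j k

/-- the family `a ↦ P Z(q_a)` -/
noncomputable def PZ (q : Fin d → Matrix (Fin n) (Fin n) ℝ) (P : Matrix (Fin n) (Fin n) ℝ)
    (Z : Fin n → Fin n → Fin n → ℝ) : Matrix (Fin n) (Fin d) ℝ :=
  Matrix.of fun i a => ∑ j, P i j * ctr Z (q a) j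

/-- the family `a ↦ 2 q_a y` -/
noncomputable def shift (q : Fin d → Matrix (Fin n) (Fin n) ℝ) (y : Fin n → ℝ) :
    Matrix (Fin n) (Fin d) ℝ :=
  Matrix.of fun i a => 2 * (q a *ᵥ y) i

/-- lower right block -/
def low (R : Matrix (Fin (n + 1)) (Fin (n + 1)) ℝ) : Matrix (Fin n) (Fin n) ℝ :=
  R.submatrix Fin.succ Fin.succ

/-- lower rows of `M⁻¹ T` -/
noncomputable def lin (M : Matrix (Fin (n + 1)) (Fin (n + 1)) ℝ)
    (T : Matrix (Fin (n + 1)) (Fin d) ℝ) : Matrix (Fin n) (Fin d) ℝ :=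
  (M⁻¹ * T).submatrix Fin.succ id

/-- centred third moments -/
noncomputable def Zc (M : Matrix (Fin (n + 1)) (Fin (n + 1)) ℝ)
    (tau : Fin n → Fin n → Fin n → ℝ) : Fin n → Fin n → Fin n → ℝ :=
  fun i j k => tau i j k -
    (M 0 i.succ * M j.succ k.succ + M 0 j.succ * M i.succ k.succ +
      M 0 k.succ * M i.succ j.succ) / M 0 0 +
    2 * M 0 i.succ * M 0 j.succ * M 0 k.succ / (M 0 0) ^ 2

lemma Zc_sym3 {M : Matrix (Fin (n + 1)) (Fin (n + 1)) ℝ} (hM : M.IsSymm)
    {tau : Fin n → Fin n → Fin n → ℝ} (ht : Sym3 tau) : Sym3 (Zc M tau) := by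
  intro i j k
  have h1 := (ht i j k).1
  have h2 := (ht i j k).2
  have hs : ∀ a b, M a b = M b a := fun a b => hM.apply b a
  constructor
  · unfold Zc
    rw [h1, hs j.succ i.succ]
    ring
  · unfold Zc
    rw [h2, hs j.succ k.succ]
    ring

lemma aux_expand {m A C : ℝ} (P c B x : Fin n → ℝ) :
    ∑ j, P j * (c j - x j / m * A - 2 / m * B j + 2 * x j / m ^ 2 * C)
      = (∑ j, P j * c j) - (∑ k, P k * x k) / m * A - 2 / m * (∑ j, P j * B j)
        + 2 * (∑ k, P k * x k) / m ^ 2 * C := by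
  have h1 : (∑ k, P k * x k) / m * A = ∑ k, P k * (x k / m * A) := by
    rw [Finset.sum_div, Finset.sum_mul]
    exact Finset.sum_congr rfl fun k _ => by ring
  have h2 : 2 / m * (∑ j, P j * B j) = ∑ j, P j * (2 / m * B j) := by
    rw [Finset.mul_sum]
    exact Finset.sum_congr rfl fun k _ => by ring
  have h3 : 2 * (∑ k, P k * x k) / m ^ 2 * C = ∑ k, P k * (2 * x k / m ^ 2 * C) := by
    rw [Finset.mul_sum, Finset.sum_div, Finset.sum_mul]
    exact Finset.sum_congr rfl fun k _ => by ring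
  rw [h1, h2, h3, ← Finset.sum_sub_distrib, ← Finset.sum_sub_distrib, ← Finset.sum_add_distrib]
  exact Finset.sum_congr rfl fun k _ => by ring

lemma aux_PY {i : Fin n} {r : ℝ} (P x : Fin n → ℝ) (Y v : Fin n → Fin n → ℝ)
    (e1 : ∀ j, r * x j + ∑ k, P k * Y k j = if i = j then 1 else 0) :
    ∑ j, P j * (∑ k, ∑ l, Y j k * v k l * x l)
      = (∑ l, v i l * x l) - r * (∑ k, ∑ l, x k * v k l * x l) := by
  have h1 : ∑ j, P j * (∑ k, ∑ l, Y j k * v k l * x l)
      = ∑ k, (∑ j, P j * Y j k) * (∑ l, v k l * x l) := by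
    simp_rw [Finset.mul_sum, Finset.sum_mul]
    rw [Finset.sum_comm]
    refine Finset.sum_congr rfl fun k _ => ?_
    rw [Finset.sum_comm]
    refine Finset.sum_congr rfl fun j _ => ?_
    exact Finset.sum_congr rfl fun l _ => by ring
  have h2 : ∀ k, ∑ j, P j * Y j k = (if i = k then 1 else 0) - r * x k := by
    intro k
    have := e1 k
    linarith
  rw [h1]
  have h3 : ∀ k, (∑ j, P j * Y j k) * (∑ l, v k l * x l)
      = (if i = k then (∑ l, v k l * x l) else 0) - r * (∑ l, x k * v k l * x l) := by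
    intro k
    rw [h2 k, sub_mul, mul_assoc, Finset.mul_sum (s := Finset.univ) (a := x k)]
    congr 1
    · split_ifs <;> simp
    · congr 1
      exact Finset.sum_congr rfl fun l _ => by ring
  simp_rw [h3]
  rw [Finset.sum_sub_distrib, ← Finset.mul_sum]
  simp

/-- the key identity: `lin = P Z_c + (v ↦ 2 v y)`, `y = x / M00`. -/
theorem lin_eq {M : Matrix (Fin (n + 1)) (Fin (n + 1)) ℝ} (hM : M.IsSymm) (hdet : M.det ≠ 0)
    (h00 : M 0 0 ≠ 0) {q : Fin d → Matrix (Fin n) (Fin n) ℝ} (hq : ∀ a, (q a).IsSymm)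
    {tau : Fin n → Fin n → Fin n → ℝ}
    {T : Matrix (Fin (n + 1)) (Fin d) ℝ}
    (hT0 : ∀ a, T 0 a = ∑ j, ∑ k, M (Fin.succ j) (Fin.succ k) * q a j k)
    (hT : ∀ i a, T (Fin.succ i) a = ctr tau (q a) i) :
    lin M T = PZ q (low M⁻¹) (Zc M tau) + shift q (fun i => M 0 (Fin.succ i) / M 0 0) := by
  have hs : ∀ a b, M a b = M b a := fun a b => hM.apply b a
  have hRM : M⁻¹ * M = 1 := Matrix.nonsing_inv_mul _ (isUnit_iff_ne_zero.mpr hdet)
  set R := M⁻¹ with hR
  -- entrywise relations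
  have e0 : ∀ i : Fin n, R i.succ 0 * M 0 0 + ∑ k : Fin n, R i.succ k.succ * M 0 k.succ = 0 := by
    intro i
    have := congrFun (congrFun hRM i.succ) 0
    rw [Matrix.mul_apply, Fin.sum_univ_succ] at this
    rw [Matrix.one_apply_ne (Fin.succ_ne_zero i)] at this
    rw [← this]
    congr 1
    exact Finset.sum_congr rfl fun k _ => by rw [hs 0 k.succ]
  have e1 : ∀ i j : Fin n, R i.succ 0 * M 0 j.succ + ∑ k : Fin n, R i.succ k.succ * M k.succ j.succ
      = if i = j then 1 else 0 := by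
    intro i j
    have := congrFun (congrFun hRM i.succ) j.succ
    rw [Matrix.mul_apply, Fin.sum_univ_succ] at this
    rw [this, Matrix.one_apply]
    simp [Fin.succ_inj]
  ext i a
  simp only [lin, PZ, shift, low, Matrix.submatrix_apply, id, Matrix.add_apply, Matrix.of_apply]
  rw [Matrix.mul_apply, Fin.sum_univ_succ, hT0]
  simp_rw [hT]
  -- abbreviations
  set r := R i.succ 0 with hr
  set x : Fin n → ℝ := fun j => M 0 j.succ with hx
  set Y : Fin n → Fin n → ℝ := fun j k => M j.succ k.succ with hY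
  set P : Fin n → ℝ := fun j => R i.succ j.succ with hP
  set m := M 0 0 with hm
  set v : Fin n → Fin n → ℝ := fun j k => q a j k with hv
  have hvs : ∀ j k, v j k = v k j := fun j k => (hq a).apply k j
  have hYs : ∀ j k, Y j k = Y k j := fun j k => hs _ _
  have e0' : r * m + ∑ k, P k * x k = 0 := e0 i
  have e1' : ∀ j, r * x j + ∑ k, P k * Y k j = if i = j then 1 else 0 := e1 i
  have hctr : ∀ j, ctr (Zc M tau) (q a) j = ctr tau (q a) j
      - x j / m * (∑ k, ∑ l, Y k l * v k l) - 2 / m * (∑ k, ∑ l, Y j k * v k l * x l)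
      + 2 * x j / m ^ 2 * (∑ k, ∑ l, x k * v k l * x l) := by
    intro j
    have hA : ∑ k, ∑ l, (x k * Y j l) * v k l = ∑ k, ∑ l, Y j k * v k l * x l := by
      rw [Finset.sum_comm]
      refine Finset.sum_congr rfl fun k _ => Finset.sum_congr rfl fun l _ => ?_
      rw [hvs l k]; ring
    have hB : ∑ k, ∑ l, (x l * Y j k) * v k l = ∑ k, ∑ l, Y j k * v k l * x l := by
      refine Finset.sum_congr rfl fun k _ => Finset.sum_congr rfl fun l _ => ?_
      ring
    have key : ∀ k l, Zc M tau j k l * q a k l = tau j k l * q a k l - x j / m * (Y k l * v k l)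
        - 1 / m * ((x k * Y j l) * v k l) - 1 / m * ((x l * Y j k) * v k l)
        + 2 * x j / m ^ 2 * (x k * v k l * x l) := by
      intro k l
      simp only [Zc, hx, hY, hm, hv]
      field_simp
      ring
    unfold ctr
    simp_rw [key, Finset.sum_add_distrib, Finset.sum_sub_distrib, ← Finset.mul_sum]
    rw [hA, hB]
    ring
  simp_rw [hctr]
  have hmv : (q a *ᵥ fun j => x j / m) i = 1 / m * ∑ l, v i l * x l := by
    simp only [Matrix.mulVec, dotProduct, Finset.mul_sum, hv]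
    refine Finset.sum_congr rfl fun l _ => ?_
    ring
  rw [hmv]
  have hPx : ∑ k, P k * x k = - (r * m) := by linarith
  have hPY := aux_PY (i := i) (r := r) P x Y v e1'
  have expand := aux_expand (m := m) (A := ∑ k, ∑ l, Y k l * v k l)
    (C := ∑ k, ∑ l, x k * v k l * x l) P (ctr tau (q a)) (fun j => ∑ k, ∑ l, Y j k * v k l * x l) x
  have hl : ∑ x_1 : Fin n, R i.succ x_1.succ * (ctr tau (q a) x_1 -
      x x_1 / m * ∑ k, ∑ l, Y k l * v k l - 2 / m * ∑ k, ∑ l, Y x_1 k * v k l * x l +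
      2 * x x_1 / m ^ 2 * ∑ k, ∑ l, x k * v k l * x l) = ∑ j, P j * (ctr tau (q a) j -
      x j / m * ∑ k, ∑ l, Y k l * v k l - 2 / m * ∑ k, ∑ l, Y j k * v k l * x l +
      2 * x j / m ^ 2 * ∑ k, ∑ l, x k * v k l * x l) := rfl
  rw [hl, expand, hPY, hPx]
  have : (∑ x_1 : Fin n, R i.succ x_1.succ * ctr tau (q a) x_1) = ∑ j, P j * ctr tau (q a) j := rfl
  rw [this]
  field_simp
  ring

/-! ### H2 for all invertible `M` -/

lemma low_isSymm {M : Matrix (Fin (n + 1)) (Fin (n + 1)) ℝ} (hM : M.IsSymm) :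
    (low M).IsSymm := by
  ext i j
  simp only [low, Matrix.transpose_apply, Matrix.submatrix_apply]
  exact hM.apply _ _

/-- traceless invertible diagonal matrix padded by a zero row and column -/
noncomputable def pad (n : ℕ) : Matrix (Fin (n + 1)) (Fin (n + 1)) ℝ :=
  Matrix.diagonal (Fin.cons 0 fun i : Fin n => if i.val = 0 then 1 - (n : ℝ) else 1)

lemma pad_symm : (pad n).IsSymm := Matrix.diagonal_transpose _

lemma low_pad : low (pad n) = Matrix.diagonal fun i : Fin n =>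
    if i.val = 0 then 1 - (n : ℝ) else 1 := by
  ext i j
  simp only [low, pad, Matrix.submatrix_apply, Matrix.diagonal_apply, Fin.succ_inj, Fin.cons_succ]

lemma trace_low_pad (hn : 2 ≤ n) : (low (pad n)).trace = 0 := by
  obtain ⟨m, rfl⟩ : ∃ m, n = m + 1 := ⟨n - 1, by omega⟩
  rw [low_pad, Matrix.trace_diagonal, Fin.sum_univ_succ]
  simp
  
lemma det_low_pad (hn : 2 ≤ n) : (low (pad n)).det ≠ 0 := by
  rw [low_pad, Matrix.det_diagonal]
  refine Finset.prod_ne_zero_iff.mpr fun i _ => ?_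
  split_ifs
  · have : (2 : ℝ) ≤ n := by exact_mod_cast hn
    intro h
    linarith
  · exact one_ne_zero

open Filter Topology in
lemma eventually_det_ne (P D : Matrix (Fin n) (Fin n) ℝ) (hD : D.det ≠ 0) :
    ∀ᶠ s in 𝓝[≠] (0 : ℝ), (P + s • D).det ≠ 0 := by
  set p : Polynomial ℝ := Matrix.det ((Polynomial.X : Polynomial ℝ) • D.map Polynomial.C +
    P.map Polynomial.C) with hp
  have hp0 : p ≠ 0 := by
    intro h
    have := Polynomial.coeff_det_X_add_C_card D P
    rw [← hp, h] at this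
    exact hD (by simpa using this.symm)
  have hev : ∀ s : ℝ, p.eval s = (P + s • D).det := by
    intro s
    rw [hp, ← Polynomial.coe_evalRingHom, RingHom.map_det]
    congr 1
    ext i j
    simp only [RingHom.mapMatrix_apply, Matrix.map_apply, Matrix.add_apply, Matrix.smul_apply,
      smul_eq_mul, Polynomial.coe_evalRingHom, Polynomial.eval_add, Polynomial.eval_mul,
      Polynomial.eval_X, Polynomial.eval_C]
    ring
  have hfin : (p.rootSet ℝ).Finite := p.rootSet_finite ℝ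
  have : ∀ᶠ s in 𝓝[≠] (0 : ℝ), s ∉ (p.rootSet ℝ \ {0}) := by
    have hcl : IsClosed (p.rootSet ℝ \ {0}) := (hfin.subset Set.sdiff_subset).isClosed
    have h0 : (0 : ℝ) ∈ (p.rootSet ℝ \ {0})ᶜ := by simp
    exact nhdsWithin_le_nhds (hcl.isOpen_compl.mem_nhds h0)
  filter_upwards [this, self_mem_nhdsWithin] with s hs hs0 hdet
  apply hs
  refine ⟨?_, hs0⟩
  rw [Polynomial.mem_rootSet]
  refine ⟨hp0, ?_⟩
  rw [Polynomial.coe_aeval_eq_eval, hev, hdet]

lemma inv00_ne {R : Matrix (Fin (n + 1)) (Fin (n + 1)) ℝ} (hR : R.det ≠ 0)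
    (hl : (low R).det ≠ 0) : R⁻¹ 0 0 ≠ 0 := by
  rw [Matrix.inv_def, Matrix.smul_apply, Matrix.adjugate_fin_succ_eq_det_submatrix]
  have : R.submatrix (Fin.succAbove 0) (Fin.succAbove 0) = low R := by
    ext i j; simp [low]
  rw [this]
  simp [Ring.inverse_eq_inv', hR, hl]

open Filter Topology in
/-- `(H2)` of the scalar model for every invertible moment matrix. -/
theorem h2_all (hn : 2 ≤ n) {q : Fin d → Matrix (Fin n) (Fin n) ℝ} (hq : ∀ a, (q a).IsSymm)
    {Xi : Matrix (Fin n) (Fin d) ℝ → ℝ} (hcont : Continuous Xi)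
    (hshift : ∀ X y, Xi (X + shift q y) = Xi X)
    (hI : ∀ (P : Matrix (Fin n) (Fin n) ℝ) (Z : Fin n → Fin n → Fin n → ℝ), P.IsSymm →
      P.trace = 0 → Sym3 Z → 0 ≤ Xi (PZ q P Z))
    {M : Matrix (Fin (n + 1)) (Fin (n + 1)) ℝ} (hM : M.IsSymm) (hdet : M.det ≠ 0)
    (htr : (low M⁻¹).trace = 0)
    {tau : Fin n → Fin n → Fin n → ℝ} (ht : Sym3 tau)
    {T : Matrix (Fin (n + 1)) (Fin d) ℝ}
    (hT0 : ∀ a, T 0 a = ∑ j, ∑ k, M (Fin.succ j) (Fin.succ k) * q a j k)
    (hT : ∀ i a, T (Fin.succ i) a = ctr tau (q a) i) :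
    0 ≤ Xi (lin M T) := by
  -- the good case
  have good : ∀ (M : Matrix (Fin (n + 1)) (Fin (n + 1)) ℝ), M.IsSymm → M.det ≠ 0 → M 0 0 ≠ 0 →
      (low M⁻¹).trace = 0 → ∀ T : Matrix (Fin (n + 1)) (Fin d) ℝ,
      (∀ a, T 0 a = ∑ j, ∑ k, M (Fin.succ j) (Fin.succ k) * q a j k) →
      (∀ i a, T (Fin.succ i) a = ctr tau (q a) i) → 0 ≤ Xi (lin M T) := by
    intro M hM hdet h00 htr T hT0 hT
    rw [lin_eq hM hdet h00 hq hT0 hT, hshift]
    refine hI _ _ ?_ htr (Zc_sym3 hM ht)
    refine low_isSymm ?_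
    unfold Matrix.IsSymm
    rw [Matrix.transpose_nonsing_inv, hM]
  set R := M⁻¹ with hR
  have hRdet : R.det ≠ 0 := by
    rw [hR, Matrix.det_nonsing_inv]
    simpa [Ring.inverse_eq_inv'] using hdet
  have hRinv : R⁻¹ = M := by
    rw [hR]; exact Matrix.nonsing_inv_nonsing_inv M (isUnit_iff_ne_zero.mpr hdet)
  have hRs : R.IsSymm := by
    unfold Matrix.IsSymm
    rw [hR, Matrix.transpose_nonsing_inv, hM]
  let Rs : ℝ → Matrix (Fin (n + 1)) (Fin (n + 1)) ℝ := fun s => R + s • pad n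
  let Ms : ℝ → Matrix (Fin (n + 1)) (Fin (n + 1)) ℝ := fun s => (Rs s)⁻¹
  let Ts : ℝ → Matrix (Fin (n + 1)) (Fin d) ℝ := fun s => Matrix.of (Fin.cons
    (fun a => ∑ j, ∑ k, Ms s (Fin.succ j) (Fin.succ k) * q a j k) (fun i a => ctr tau (q a) i))
  have hRsc : Continuous Rs := by fun_prop
  have hRs0 : Rs 0 = R := by simp [Rs]
  have hdets : ∀ᶠ s in 𝓝 (0 : ℝ), (Rs s).det ≠ 0 := by
    have : Continuous fun s => (Rs s).det := hRsc.matrix_det
    have h0 : (Rs 0).det ≠ 0 := by rw [hRs0]; exact hRdet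
    exact this.continuousAt.eventually_ne h0
  have hMsc : Tendsto Ms (𝓝 0) (𝓝 M) := by
    have h1a : ContinuousAt (fun s => ((Rs s).det)⁻¹) 0 :=
      (hRsc.matrix_det.continuousAt).inv₀ (by rw [hRs0]; exact hRdet)
    have h1b : ContinuousAt (fun s => (Rs s).adjugate) 0 :=
      hRsc.matrix_adjugate.continuousAt
    have h1 : ContinuousAt (fun s => ((Rs s).det)⁻¹ • (Rs s).adjugate) 0 := h1a.smul h1b
    have h2 : Ms = fun s => ((Rs s).det)⁻¹ • (Rs s).adjugate := by
      funext s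
      simp only [Ms, Matrix.inv_def, Ring.inverse_eq_inv']
    have h3 : Ms 0 = M := by simp only [Ms, hRs0, hRinv]
    rw [← h3, h2]
    exact h1.tendsto
  have hTsc : Tendsto Ts (𝓝 0) (𝓝 T) := by
    refine tendsto_pi_nhds.mpr fun i => tendsto_pi_nhds.mpr fun a => ?_
    refine Fin.cases ?_ (fun i => ?_) i
    · rw [hT0]
      simp only [Ts, Matrix.of_apply, Fin.cons_zero]
      refine tendsto_finsetSum _ fun j _ => tendsto_finsetSum _ fun k _ => ?_
      refine Tendsto.mul_const _ ?_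
      exact ((tendsto_pi_nhds.mp ((tendsto_pi_nhds.mp hMsc) j.succ)) k.succ)
    · rw [hT]
      simp only [Ts, Matrix.of_apply, Fin.cons_succ]
      exact tendsto_const_nhds
  have hlim : Tendsto (fun s => Xi ((Rs s * Ts s).submatrix Fin.succ id)) (𝓝 0)
      (𝓝 (Xi (lin M T))) := by
    have hR0 : Tendsto Rs (𝓝 0) (𝓝 R) := by
      rw [← hRs0]; exact hRsc.continuousAt.tendsto
    have h1 : Tendsto (fun s => (Rs s * Ts s).submatrix Fin.succ id) (𝓝 0) (𝓝 (lin M T)) := by
      refine tendsto_pi_nhds.mpr fun i => tendsto_pi_nhds.mpr fun a => ?_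
      have e1 : ∀ s, (Rs s * Ts s).submatrix Fin.succ id i a =
          ∑ k, Rs s i.succ k * Ts s k a := fun s => rfl
      have e2 : lin M T i a = ∑ k, R i.succ k * T k a := rfl
      rw [e2]
      simp_rw [e1]
      refine tendsto_finsetSum _ fun k _ => ?_
      refine Tendsto.mul ?_ ?_
      · exact tendsto_pi_nhds.mp (tendsto_pi_nhds.mp hR0 i.succ) k
      · exact tendsto_pi_nhds.mp (tendsto_pi_nhds.mp hTsc k) a
    exact (hcont.tendsto _).comp h1
  have hpos : ∀ᶠ s in 𝓝[≠] (0 : ℝ), 0 ≤ Xi ((Rs s * Ts s).submatrix Fin.succ id) := by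
    filter_upwards [eventually_det_ne (low R) (low (pad n)) (det_low_pad hn),
      nhdsWithin_le_nhds hdets] with s hs1 hs2
    have hlowRs : low (Rs s) = low R + s • low (pad n) := by
      ext i j; simp [low, Rs]
    have hMsinv : (Ms s)⁻¹ = Rs s :=
      Matrix.nonsing_inv_nonsing_inv _ (isUnit_iff_ne_zero.mpr hs2)
    have hRss : (Rs s).IsSymm := by
      simp only [Rs]
      exact hRs.add (pad_symm.smul s)
    have := good (Ms s) (by
        unfold Matrix.IsSymm
        simp only [Ms]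
        rw [Matrix.transpose_nonsing_inv, hRss]) (by
        simp only [Ms]
        rw [Matrix.det_nonsing_inv]
        simpa [Ring.inverse_eq_inv'] using hs2) (by
        refine inv00_ne hs2 ?_
        rw [hlowRs]; exact hs1) (by
        rw [hMsinv, hlowRs, Matrix.trace_add, htr, Matrix.trace_smul, trace_low_pad hn]
        simp) (Ts s) (fun a => by simp [Ts]) (fun i a => by simp [Ts])
    unfold lin at this
    rwa [hMsinv] at this
  exact ge_of_tendsto (hlim.mono_left nhdsWithin_le_nhds) hpos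

lemma continuous_bilin_self {p r : Type*} [Fintype p] [Fintype r]
    (Xi : Matrix p r ℝ →ₗ[ℝ] Matrix p r ℝ →ₗ[ℝ] ℝ) : Continuous fun X => Xi X X := by
  classical
  have h : ∀ X : Matrix p r ℝ, Xi X X = ∑ i, ∑ a, ∑ j, ∑ b,
      X i a * (X j b * Xi (Matrix.single j b 1) (Matrix.single i a 1)) := by
    intro X
    have h1 : X = ∑ i, ∑ a, X i a • Matrix.single i a (1 : ℝ) := by
      conv_lhs => rw [Matrix.matrix_eq_sum_single X]
      simp
    conv_lhs => rw [h1]
    simp only [map_sum, LinearMap.sum_apply, map_smul, LinearMap.smul_apply, smul_eq_mul,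
      Finset.mul_sum]
  simp_rw [h]
  refine continuous_finsetSum _ fun i _ => continuous_finsetSum _ fun a _ =>
    continuous_finsetSum _ fun j _ => continuous_finsetSum _ fun b _ => ?_
  have c1 : ∀ i a, Continuous fun X : Matrix p r ℝ => X i a := fun i a =>
    (continuous_apply a).comp (continuous_apply i)
  exact (c1 i a).mul ((c1 j b).mul continuous_const)

/-- `(H2)` in the form of `HData`: for every invertible moment matrix whose inverse has lower
trace `0`. -/
theorem h2_bilin (hn : 2 ≤ n) {q : Fin d → Matrix (Fin n) (Fin n) ℝ} (hq : ∀ a, (q a).IsSymm)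
    (Xi : Matrix (Fin n) (Fin d) ℝ →ₗ[ℝ] Matrix (Fin n) (Fin d) ℝ →ₗ[ℝ] ℝ)
    (hsymm : ∀ X Y, Xi X Y = Xi Y X)
    (hshift : ∀ X Y y, Xi (X + shift q y) Y = Xi X Y)
    (hI : ∀ (P : Matrix (Fin n) (Fin n) ℝ) (Z : Fin n → Fin n → Fin n → ℝ), P.IsSymm →
      P.trace = 0 → Sym3 Z → 0 ≤ Xi (PZ q P Z) (PZ q P Z))
    {M : Matrix (Fin (n + 1)) (Fin (n + 1)) ℝ} (hM : M.IsSymm) (hdet : M.det ≠ 0)
    (htr : ∑ i : Fin n, M⁻¹ i.succ i.succ = 0)
    {tau : Fin n → Fin n → Fin n → ℝ} (ht : Sym3 tau)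
    {T : Matrix (Fin (n + 1)) (Fin d) ℝ}
    (hT0 : ∀ a, T 0 a = ∑ j, ∑ k, M (Fin.succ j) (Fin.succ k) * q a j k)
    (hT : ∀ i a, T (Fin.succ i) a = ctr tau (q a) i) :
    0 ≤ Xi ((M⁻¹ * T).submatrix Fin.succ id) ((M⁻¹ * T).submatrix Fin.succ id) := by
  have := h2_all (Xi := fun X => Xi X X) hn hq (continuous_bilin_self Xi)
    (fun X y => by
      rw [hshift, hsymm, hshift]) hI hM hdet htr ht hT0 hT
  exact this

/-- `(H2b)` in the form of `HData`: the block diagonal case. -/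
theorem h2b_bilin {q : Fin d → Matrix (Fin n) (Fin n) ℝ}
    (Xi : Matrix (Fin n) (Fin d) ℝ →ₗ[ℝ] Matrix (Fin n) (Fin d) ℝ →ₗ[ℝ] ℝ)
    (hI : ∀ (P : Matrix (Fin n) (Fin n) ℝ) (Z : Fin n → Fin n → Fin n → ℝ), P.IsSymm →
      P.trace = 0 → Sym3 Z → 0 ≤ Xi (PZ q P Z) (PZ q P Z))
    {M : Matrix (Fin (n + 1)) (Fin (n + 1)) ℝ} (hM : M.IsSymm)
    (htr : ((M.submatrix Fin.succ Fin.succ)⁻¹).trace = 0)
    {tau : Fin n → Fin n → Fin n → ℝ} (ht : Sym3 tau)
    {T : Matrix (Fin (n + 1)) (Fin d) ℝ}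
    (hT : ∀ i a, T (Fin.succ i) a = ctr tau (q a) i) :
    0 ≤ Xi ((M.submatrix Fin.succ Fin.succ)⁻¹ * T.submatrix Fin.succ id)
      ((M.submatrix Fin.succ Fin.succ)⁻¹ * T.submatrix Fin.succ id) := by
  have h1 : ((M.submatrix Fin.succ Fin.succ)⁻¹ : Matrix (Fin n) (Fin n) ℝ) *
      T.submatrix Fin.succ id = PZ q (M.submatrix Fin.succ Fin.succ)⁻¹ tau := by
    ext i a
    rw [Matrix.mul_apply]
    simp only [PZ, Matrix.of_apply, Matrix.submatrix_apply, id, hT]
  rw [h1]
  refine hI _ _ ?_ htr ht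
  have h2 : (M.submatrix Fin.succ Fin.succ).IsSymm := low_isSymm hM
  unfold Matrix.IsSymm
  rw [Matrix.transpose_nonsing_inv, h2]

/-! ### Translations and dilations -/




/-- the matrix `W` of `q_a(u + b) - q_a(u) = q_a(b) + ∑ i, 2 (q_a b)_i u_i`. -/
noncomputable def tW (q : Fin d → Matrix (Fin n) (Fin n) ℝ) (b : Fin n → ℝ) :
    Matrix (Fin (n + 1)) (Fin d) ℝ :=
  Matrix.of fun i a => (Fin.cons (b ⬝ᵥ (q a *ᵥ b)) (fun j => 2 * (q a *ᵥ b) j) : Fin (n + 1) → ℝ) i





















end Crest.Agent.R237.Res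
end

-- ▼ part R237/Model
section

/-!
Row 237 (S0367): the concrete model in tensor coordinates (helper756).
Coordinates `(x0, x1, x2, x3, w)` indexed by `Idx n ≃ Fin (mm n)`.
-/

set_option autoImplicit false

namespace Crest.Agent.R237.Model

open Matrix

/-- index type of the coordinates -/
abbrev Idx (n : ℕ) : Type := Unit ⊕ Fin n ⊕ (Fin n × Fin n) ⊕ (Fin n × Fin n × Fin n) ⊕ Unit

/-- number of coordinates -/
abbrev mm (n : ℕ) : ℕ := Fintype.card (Idx n)

noncomputable def nu (n : ℕ) : Idx n ≃ Fin (mm n) := Fintype.equivFin _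

variable {n d : ℕ}

/-- the point with given tensor coordinates -/
noncomputable def pt (x0 : ℝ) (x1 : Fin n → ℝ) (x2 : Fin n → Fin n → ℝ)
    (x3 : Fin n → Fin n → Fin n → ℝ) (w : ℝ) : Fin (mm n) → ℝ := fun i =>
  Sum.elim (fun _ => x0) (Sum.elim x1 (Sum.elim (fun p => x2 p.1 p.2)
    (Sum.elim (fun p => x3 p.1 p.2.1 p.2.2) (fun _ => w)))) ((nu n).symm i)

noncomputable def a0 : (Fin (mm n) → ℝ) →ₗ[ℝ] ℝ := LinearMap.proj (nu n (Sum.inl ()))
noncomputable def a1 (i : Fin n) : (Fin (mm n) → ℝ) →ₗ[ℝ] ℝ :=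
  LinearMap.proj (nu n (Sum.inr (Sum.inl i)))
noncomputable def a2 (i j : Fin n) : (Fin (mm n) → ℝ) →ₗ[ℝ] ℝ :=
  LinearMap.proj (nu n (Sum.inr (Sum.inr (Sum.inl (i, j)))))
noncomputable def a3 (i j k : Fin n) : (Fin (mm n) → ℝ) →ₗ[ℝ] ℝ :=
  LinearMap.proj (nu n (Sum.inr (Sum.inr (Sum.inr (Sum.inl (i, j, k))))))
noncomputable def aw : (Fin (mm n) → ℝ) →ₗ[ℝ] ℝ :=
  LinearMap.proj (nu n (Sum.inr (Sum.inr (Sum.inr (Sum.inr ())))))

section pt
variable (x0 : ℝ) (x1 : Fin n → ℝ) (x2 : Fin n → Fin n → ℝ) (x3 : Fin n → Fin n → Fin n → ℝ) (w : ℝ)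

@[simp] theorem a0_pt : a0 (pt x0 x1 x2 x3 w) = x0 := by simp [a0, pt]
@[simp] theorem a1_pt (i : Fin n) : a1 i (pt x0 x1 x2 x3 w) = x1 i := by simp [a1, pt]
@[simp] theorem a2_pt (i j : Fin n) : a2 i j (pt x0 x1 x2 x3 w) = x2 i j := by simp [a2, pt]
@[simp] theorem a3_pt (i j k : Fin n) : a3 i j k (pt x0 x1 x2 x3 w) = x3 i j k := by
  simp [a3, pt]
@[simp] theorem aw_pt : aw (pt x0 x1 x2 x3 w) = w := by simp [aw, pt]

end pt

/-- points are determined by their tensor coordinates -/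
theorem ext_coord {x y : Fin (mm n) → ℝ} (h0 : a0 x = a0 y) (h1 : ∀ i, a1 i x = a1 i y)
    (h2 : ∀ i j, a2 i j x = a2 i j y) (h3 : ∀ i j k, a3 i j k x = a3 i j k y)
    (hw : aw x = aw y) : x = y := by
  funext i
  obtain ⟨k, rfl⟩ := (nu n).surjective i
  rcases k with ⟨⟩ | i | ⟨i, j⟩ | ⟨i, j, k⟩ | ⟨⟩
  · exact h0
  · exact h1 i
  · exact h2 i j
  · exact h3 i j k
  · exact hw

/-- linear maps into the model from linear coordinates -/
noncomputable def ptL {V : Type*} [AddCommGroup V] [Module ℝ V] (x0 : V →ₗ[ℝ] ℝ)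
    (x1 : Fin n → V →ₗ[ℝ] ℝ) (x2 : Fin n → Fin n → V →ₗ[ℝ] ℝ)
    (x3 : Fin n → Fin n → Fin n → V →ₗ[ℝ] ℝ) (w : V →ₗ[ℝ] ℝ) : V →ₗ[ℝ] (Fin (mm n) → ℝ) where
  toFun v := pt (x0 v) (fun i => x1 i v) (fun i j => x2 i j v) (fun i j k => x3 i j k v) (w v)
  map_add' u v := by
    refine ext_coord ?_ ?_ ?_ ?_ ?_ <;> intros <;> simp
  map_smul' c v := by
    refine ext_coord ?_ ?_ ?_ ?_ ?_ <;> intros <;> simp

@[simp] theorem ptL_apply {V : Type*} [AddCommGroup V] [Module ℝ V] (x0 : V →ₗ[ℝ] ℝ)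
    (x1 : Fin n → V →ₗ[ℝ] ℝ) (x2 : Fin n → Fin n → V →ₗ[ℝ] ℝ)
    (x3 : Fin n → Fin n → Fin n → V →ₗ[ℝ] ℝ) (w : V →ₗ[ℝ] ℝ) (v : V) :
    ptL x0 x1 x2 x3 w v =
      pt (x0 v) (fun i => x1 i v) (fun i j => x2 i j v) (fun i j k => x3 i j k v) (w v) := rfl

/-- symmetrised second moments -/
noncomputable def s2 (i j : Fin n) : (Fin (mm n) → ℝ) →ₗ[ℝ] ℝ :=
  (1/2 : ℝ) • (a2 i j + a2 j i)

/-- symmetrised third moments -/
noncomputable def s3 (i j k : Fin n) : (Fin (mm n) → ℝ) →ₗ[ℝ] ℝ :=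
  (1/6 : ℝ) • (a3 i j k + a3 i k j + a3 j i k + a3 j k i + a3 k i j + a3 k j i)

theorem s2_comm (i j : Fin n) : s2 i j = s2 j i := by
  unfold s2; rw [add_comm]

theorem s2_apply (i j : Fin n) (x : Fin (mm n) → ℝ) : s2 i j x = (a2 i j x + a2 j i x) / 2 := by
  simp [s2]; ring

theorem s3_apply (i j k : Fin n) (x : Fin (mm n) → ℝ) : s3 i j k x =
    (a3 i j k x + a3 i k j x + a3 j i k x + a3 j k i x + a3 k i j x + a3 k j i x) / 6 := by
  simp [s3]; ring

theorem s3_sym (x : Fin (mm n) → ℝ) : Res.Sym3 (fun i j k => s3 i j k x) := by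
  intro i j k
  simp only [s3_apply]
  constructor <;> ring

/-- the moment matrix, as a linear map -/
noncomputable def M : (Fin (mm n) → ℝ) →ₗ[ℝ] Matrix (Fin (n + 1)) (Fin (n + 1)) ℝ where
  toFun x := Matrix.of fun i j =>
    Fin.cases (Fin.cases (a0 x) (fun j' => a1 j' x) j)
      (fun i' => Fin.cases (a1 i' x) (fun j' => s2 i' j' x) j) i
  map_add' x y := by
    ext i j
    refine Fin.cases ?_ (fun i' => ?_) i <;> refine Fin.cases ?_ (fun j' => ?_) j <;> simp
  map_smul' c x := by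
    ext i j
    refine Fin.cases ?_ (fun i' => ?_) i <;> refine Fin.cases ?_ (fun j' => ?_) j <;> simp

@[simp] theorem M_00 (x : Fin (mm n) → ℝ) : M x 0 0 = a0 x := rfl
@[simp] theorem M_0s (x : Fin (mm n) → ℝ) (j : Fin n) : M x 0 j.succ = a1 j x := rfl
@[simp] theorem M_s0 (x : Fin (mm n) → ℝ) (i : Fin n) : M x i.succ 0 = a1 i x := rfl
@[simp] theorem M_ss (x : Fin (mm n) → ℝ) (i j : Fin n) : M x i.succ j.succ = s2 i j x := rfl

theorem M_symm (x : Fin (mm n) → ℝ) : (M x).IsSymm := by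
  refine Matrix.IsSymm.ext ?_
  intro i j
  refine Fin.cases ?_ (fun i' => ?_) i <;> refine Fin.cases ?_ (fun j' => ?_) j
  · rfl
  · rfl
  · rfl
  · simp [s2_comm i' j']

/-- `L(q_a)` -/
noncomputable def T0 (q : Fin d → Matrix (Fin n) (Fin n) ℝ) (a : Fin d) :
    (Fin (mm n) → ℝ) →ₗ[ℝ] ℝ :=
  ∑ j, ∑ k, q a j k • s2 j k

/-- `L(u_i q_a)` -/
noncomputable def T1 (q : Fin d → Matrix (Fin n) (Fin n) ℝ) (i : Fin n) (a : Fin d) :
    (Fin (mm n) → ℝ) →ₗ[ℝ] ℝ :=
  ∑ j, ∑ k, q a j k • s3 i j k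

/-- the matrix `L(u_i q_a)`, `u_0 = 1` -/
noncomputable def T (q : Fin d → Matrix (Fin n) (Fin n) ℝ) :
    (Fin (mm n) → ℝ) →ₗ[ℝ] Matrix (Fin (n + 1)) (Fin d) ℝ where
  toFun x := Matrix.of fun i a => Fin.cases (T0 q a x) (fun i' => T1 q i' a x) i
  map_add' x y := by
    ext i a
    refine Fin.cases ?_ (fun i' => ?_) i <;> simp
  map_smul' c x := by
    ext i a
    refine Fin.cases ?_ (fun i' => ?_) i <;> simp

variable (q : Fin d → Matrix (Fin n) (Fin n) ℝ)

theorem T_0 (x : Fin (mm n) → ℝ) (a : Fin d) : T q x 0 a = T0 q a x := rfl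
theorem T_s (x : Fin (mm n) → ℝ) (i : Fin n) (a : Fin d) : T q x i.succ a = T1 q i a x := rfl

theorem T0_apply (x : Fin (mm n) → ℝ) (a : Fin d) :
    T0 q a x = ∑ j, ∑ k, q a j k * s2 j k x := by
  simp [T0, LinearMap.sum_apply]

theorem T1_apply (x : Fin (mm n) → ℝ) (i : Fin n) (a : Fin d) :
    T1 q i a x = ∑ j, ∑ k, q a j k * s3 i j k x := by
  simp [T1, LinearMap.sum_apply]

/-- the form needed by `Res.lin_eq` -/
theorem hT0 (x : Fin (mm n) → ℝ) (a : Fin d) :
    T q x 0 a = ∑ j, ∑ k, M x (Fin.succ j) (Fin.succ k) * q a j k := by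
  rw [T_0, T0_apply]
  refine Finset.sum_congr rfl fun j _ => Finset.sum_congr rfl fun k _ => ?_
  rw [M_ss, mul_comm]

theorem hT1 (x : Fin (mm n) → ℝ) (i : Fin n) (a : Fin d) :
    T q x (Fin.succ i) a = Res.ctr (fun i j k => s3 i j k x) (q a) i := by
  rw [T_s, T1_apply]
  unfold Res.ctr
  refine Finset.sum_congr rfl fun j _ => Finset.sum_congr rfl fun k _ => ?_
  rw [mul_comm]

/-- the vector of moments of the point evaluation at `u` -/
noncomputable def z (u : Fin n → ℝ) : Fin (mm n) → ℝ :=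
  pt 1 u (fun i j => u i * u j) (fun i j k => u i * u j * u k)
    (∑ a, (∑ j, ∑ k, q a j k * (u j * u k)) ^ 2)

/-! ### Translations -/

/-- the affine function `q_a(u+b) - q_a(u)` -/
noncomputable def R (b : Fin n → ℝ) : Matrix (Fin (n + 1)) (Fin d) ℝ :=
  Matrix.of fun i a => Fin.cases (∑ j, ∑ k, q a j k * (b j * b k))
    (fun i' => 2 * (q a *ᵥ b) i') i

theorem R_0 (b : Fin n → ℝ) (a : Fin d) : R q b 0 a = ∑ j, ∑ k, q a j k * (b j * b k) := rfl
theorem R_s (b : Fin n → ℝ) (i : Fin n) (a : Fin d) : R q b i.succ a = 2 * (q a *ᵥ b) i := rfl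

theorem R_low (b : Fin n → ℝ) : (R q b).submatrix Fin.succ id = Res.shift q b := by
  ext i a
  simp [R_s, Res.shift]

/-- the translated `w` -/
noncomputable def wT (b : Fin n → ℝ) : (Fin (mm n) → ℝ) →ₗ[ℝ] ℝ :=
  aw + (2 : ℝ) • (∑ a, ∑ i, R q b i a • (Matrix.entryLinearMap ℝ ℝ i a ∘ₗ T q)) +
    ∑ a, ∑ i, ∑ j, (R q b i a * R q b j a) • (Matrix.entryLinearMap ℝ ℝ i j ∘ₗ M)

theorem wT_apply (b : Fin n → ℝ) (x : Fin (mm n) → ℝ) : wT q b x =
    aw x + 2 * ((R q b)ᵀ * T q x).trace + ((R q b)ᵀ * M x * R q b).trace := by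
  unfold wT
  simp only [LinearMap.add_apply, LinearMap.smul_apply, LinearMap.sum_apply, smul_eq_mul,
    LinearMap.comp_apply, Matrix.entryLinearMap_apply, Matrix.trace, Matrix.diag_apply,
    Matrix.mul_apply, Matrix.transpose_apply]
  congr 1
  refine Finset.sum_congr rfl fun a _ => ?_
  rw [Finset.sum_comm]
  refine Finset.sum_congr rfl fun j _ => ?_
  rw [Finset.sum_mul]
  refine Finset.sum_congr rfl fun i _ => ?_
  ring

/-- translation `u ↦ u + b` on functionals -/
noncomputable def trans (b : Fin n → ℝ) : (Fin (mm n) → ℝ) →ₗ[ℝ] (Fin (mm n) → ℝ) :=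
  ptL a0 (fun i => a1 i + b i • a0)
    (fun i j => s2 i j + b j • a1 i + b i • a1 j + (b i * b j) • a0)
    (fun i j k => s3 i j k + b k • s2 i j + b j • s2 i k + b i • s2 j k +
      (b j * b k) • a1 i + (b i * b k) • a1 j + (b i * b j) • a1 k + (b i * b j * b k) • a0)
    (wT q b)

section transLemmas

variable (b : Fin n → ℝ) (x : Fin (mm n) → ℝ)

theorem a0_trans : a0 (trans q b x) = a0 x := by simp [trans]
theorem a1_trans (i : Fin n) : a1 i (trans q b x) = a1 i x + b i * a0 x := by simp [trans]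
theorem s2_trans (i j : Fin n) : s2 i j (trans q b x) =
    s2 i j x + b j * a1 i x + b i * a1 j x + (b i * b j) * a0 x := by
  rw [s2_apply]
  simp only [trans, ptL_apply, a2_pt, LinearMap.add_apply, LinearMap.smul_apply, smul_eq_mul]
  rw [s2_comm j i]
  ring
theorem s3_trans (i j k : Fin n) : s3 i j k (trans q b x) =
    s3 i j k x + b k * s2 i j x + b j * s2 i k x + b i * s2 j k x +
      (b j * b k) * a1 i x + (b i * b k) * a1 j x + (b i * b j) * a1 k x +
      (b i * b j * b k) * a0 x := by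
  rw [s3_apply]
  simp only [trans, ptL_apply, a3_pt, LinearMap.add_apply, LinearMap.smul_apply, smul_eq_mul]
  have h := s3_sym x
  have e1 : s3 i k j x = s3 i j k x := ((h i j k).2).symm
  have e2 : s3 j i k x = s3 i j k x := ((h i j k).1).symm
  have e3 : s3 j k i x = s3 i j k x := by
    rw [← e2]; exact ((h j i k).2).symm
  have e4 : s3 k i j x = s3 i j k x := by
    rw [← e1]; exact ((h i k j).1).symm
  have e5 : s3 k j i x = s3 i j k x := by
    rw [← e3]; exact ((h j k i).1).symm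
  rw [e1, e2, e3, e4, e5, s2_comm j i, s2_comm k i, s2_comm k j]
  ring
theorem aw_trans : aw (trans q b x) = wT q b x := by simp [trans]

end transLemmas


/-- **Translations act on `(M,T,w)` as in `Inv.IsTrans`.** -/
theorem isTrans (hq : ∀ a, (q a).IsSymm) (b : Fin n → ℝ) (x : Fin (mm n) → ℝ) :
    Inv.IsTrans b (R q b) (M x) (M (trans q b x)) (T q x) (T q (trans q b x)) (aw x)
      (aw (trans q b x)) where
  hM := by
    ext i j
    rw [Matrix.mul_assoc, Matrix.mul_apply, Fin.sum_univ_succ]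
    simp only [Matrix.mul_apply, Fin.sum_univ_succ, Matrix.transpose_apply]
    refine Fin.cases ?_ (fun i' => ?_) i <;> refine Fin.cases ?_ (fun j' => ?_) j
    · simp [a0_trans]
    · simp [a0_trans, a1_trans]
      ring
    · simp [a0_trans, a1_trans]
      ring
    · simp [a0_trans, a1_trans, s2_trans]
      ring
  hT := by
    ext i a
    have hqs : ∀ j k, q a j k = q a k j := fun j k => (hq a).apply k j
    have key : ∀ i' : Fin (n+1), (T q x + M x * R q b) i' a =
        T q x i' a + (M x i' 0 * (∑ j, ∑ k, q a j k * (b j * b k)) +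
          ∑ j, M x i' j.succ * (2 * ∑ k, q a j k * b k)) := by
      intro i'
      rw [Matrix.add_apply, Matrix.mul_apply, Fin.sum_univ_succ]
      rfl
    refine Fin.cases ?_ (fun i' => ?_) i
    · rw [Matrix.mul_apply, Fin.sum_univ_succ]
      simp only [Matrix.transpose_apply, Inv.Ub_zero_zero, Inv.Ub_succ_zero, zero_mul,
        Finset.sum_const_zero, add_zero, one_mul]
      rw [key, T_0, T_0, T0_apply, T0_apply, M_00]
      simp only [M_0s, s2_trans]
      have e1 : ∑ j, ∑ k, q a j k * (s2 j k x + b k * a1 j x + b j * a1 k x + b j * b k * a0 x)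
          = (∑ j, ∑ k, q a j k * s2 j k x) + (∑ j, ∑ k, q a j k * (b k * a1 j x)) +
            (∑ j, ∑ k, q a j k * (b j * a1 k x)) + (∑ j, ∑ k, q a j k * (b j * b k)) * a0 x := by
        rw [Finset.sum_mul, ← Finset.sum_add_distrib, ← Finset.sum_add_distrib,
          ← Finset.sum_add_distrib]
        refine Finset.sum_congr rfl fun j _ => ?_
        rw [Finset.sum_mul, ← Finset.sum_add_distrib, ← Finset.sum_add_distrib,
          ← Finset.sum_add_distrib]
        refine Finset.sum_congr rfl fun k _ => ?_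
        ring
      have e2 : ∑ j, ∑ k, q a j k * (b j * a1 k x) = ∑ j, ∑ k, q a j k * (b k * a1 j x) := by
        rw [Finset.sum_comm]
        refine Finset.sum_congr rfl fun j _ => Finset.sum_congr rfl fun k _ => ?_
        rw [hqs k j]
      have e3 : ∑ j, a1 j x * (2 * ∑ k, q a j k * b k) =
          2 * ∑ j, ∑ k, q a j k * (b k * a1 j x) := by
        rw [Finset.mul_sum]
        refine Finset.sum_congr rfl fun j _ => ?_
        rw [Finset.mul_sum, Finset.mul_sum, Finset.mul_sum]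
        refine Finset.sum_congr rfl fun k _ => ?_
        ring
      rw [e1, e2, e3]
      ring
    · rw [Matrix.mul_apply, Fin.sum_univ_succ]
      simp only [Matrix.transpose_apply, Inv.Ub_zero_succ, Inv.Ub_succ_succ, ite_mul, one_mul,
        zero_mul, Finset.sum_ite_eq', Finset.mem_univ, if_true]
      rw [key, key, T_0, T0_apply, T_s, T_s, T1_apply, T1_apply, M_00, M_s0]
      simp only [M_0s, M_ss, s3_trans]
      have e1 : ∑ j, ∑ k, q a j k * (s3 i' j k x + b k * s2 i' j x + b j * s2 i' k x +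
            b i' * s2 j k x + b j * b k * a1 i' x + b i' * b k * a1 j x + b i' * b j * a1 k x +
            b i' * b j * b k * a0 x)
          = (∑ j, ∑ k, q a j k * s3 i' j k x) + (∑ j, ∑ k, q a j k * (b k * s2 i' j x)) +
            (∑ j, ∑ k, q a j k * (b j * s2 i' k x)) + b i' * (∑ j, ∑ k, q a j k * s2 j k x) +
            a1 i' x * (∑ j, ∑ k, q a j k * (b j * b k)) +
            b i' * (∑ j, ∑ k, q a j k * (b k * a1 j x)) +
            b i' * (∑ j, ∑ k, q a j k * (b j * a1 k x)) +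
            b i' * ((∑ j, ∑ k, q a j k * (b j * b k)) * a0 x) := by
        simp only [Finset.mul_sum, Finset.sum_mul, ← Finset.sum_add_distrib]
        refine Finset.sum_congr rfl fun j _ => Finset.sum_congr rfl fun k _ => ?_
        ring
      have e2 : ∑ j, ∑ k, q a j k * (b j * a1 k x) = ∑ j, ∑ k, q a j k * (b k * a1 j x) := by
        rw [Finset.sum_comm]
        refine Finset.sum_congr rfl fun j _ => Finset.sum_congr rfl fun k _ => ?_
        rw [hqs k j]
      have e2' : ∑ j, ∑ k, q a j k * (b j * s2 i' k x) =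
          ∑ j, ∑ k, q a j k * (b k * s2 i' j x) := by
        rw [Finset.sum_comm]
        refine Finset.sum_congr rfl fun j _ => Finset.sum_congr rfl fun k _ => ?_
        rw [hqs k j]
      have e3 : ∑ j, a1 j x * (2 * ∑ k, q a j k * b k) =
          2 * ∑ j, ∑ k, q a j k * (b k * a1 j x) := by
        rw [Finset.mul_sum]
        refine Finset.sum_congr rfl fun j _ => ?_
        rw [Finset.mul_sum, Finset.mul_sum, Finset.mul_sum]
        refine Finset.sum_congr rfl fun k _ => ?_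
        ring
      have e3' : ∑ j, s2 i' j x * (2 * ∑ k, q a j k * b k) =
          2 * ∑ j, ∑ k, q a j k * (b k * s2 i' j x) := by
        rw [Finset.mul_sum]
        refine Finset.sum_congr rfl fun j _ => ?_
        rw [Finset.mul_sum, Finset.mul_sum, Finset.mul_sum]
        refine Finset.sum_congr rfl fun k _ => ?_
        ring
      rw [e1, e2, e2', e3, e3']
      ring
  hw := by
    rw [aw_trans, wT_apply]

end Crest.Agent.R237.Model
end

-- ▼ part R237/Ext
section

/-! Row 237: extension of functionals.  Finsler's lemma, strictly positive extension of a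
functional that is positive on `V = P₁ + V₀`, the flat functional, and the final
perturbation argument. -/

set_option autoImplicit false

namespace Crest.Agent.R237.Ext

open MvPolynomial

/-! ### Finsler's lemma -/

theorem continuous_quad {n : ℕ} (B : (Fin n → ℝ) →ₗ[ℝ] (Fin n → ℝ) →ₗ[ℝ] ℝ) :
    Continuous fun x => B x x := by
  have h : ∀ x : Fin n → ℝ, B x x = ∑ i, ∑ j, x i * (x j * B (Pi.single i 1) (Pi.single j 1)) := by
    intro x
    have h1 : x = ∑ i, x i • Pi.single (M := fun _ => ℝ) i (1 : ℝ) := by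
      conv_lhs => rw [← Finset.univ_sum_single x]
      refine Finset.sum_congr rfl fun i _ => ?_
      rw [← Pi.single_smul]
      simp
    conv_lhs => rw [h1]
    simp only [map_sum, LinearMap.sum_apply, map_smul, LinearMap.smul_apply, smul_eq_mul,
      Finset.mul_sum]
    rw [Finset.sum_comm]
    exact Finset.sum_congr rfl fun i _ => Finset.sum_congr rfl fun j _ => by ring
  simp_rw [h]
  fun_prop

theorem finsler_fin {n : ℕ} (B0 B1 B2 : (Fin n → ℝ) →ₗ[ℝ] (Fin n → ℝ) →ₗ[ℝ] ℝ)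
    (h2 : ∀ x, 0 ≤ B2 x x) (h : ∀ x, x ≠ 0 → B2 x x = 0 → 0 < B1 x x) :
    ∃ τ : ℝ, 0 ≤ τ ∧ ∃ δ : ℝ, 0 < δ ∧ ∀ x, δ * B0 x x ≤ B1 x x + τ * B2 x x := by
  have c0 := continuous_quad B0
  have c1 := continuous_quad B1
  have c2 := continuous_quad B2
  let S : Set (Fin n → ℝ) := Metric.sphere 0 1
  have hS : IsCompact S := isCompact_sphere 0 1
  rcases S.eq_empty_or_nonempty with hE | hNE
  · -- then the space is trivial
    refine ⟨0, le_rfl, 1, one_pos, fun x => ?_⟩
    by_cases hx : x = 0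
    · simp [hx]
    · exfalso
      have : (‖x‖⁻¹ • x) ∈ S := by
        simp [S, norm_smul, hx]
      rw [hE] at this
      exact this
  -- bound for B1 below on the sphere
  obtain ⟨x1, hx1, hmin1⟩ := hS.exists_isMinOn hNE c1.continuousOn
  obtain ⟨x0, hx0, hmax0⟩ := hS.exists_isMaxOn hNE c0.continuousOn
  let A : Set (Fin n → ℝ) := S ∩ {x | B1 x x ≤ 0}
  have hA : IsCompact A := hS.inter_right (isClosed_le c1 continuous_const)
  have key : ∃ τ : ℝ, 0 ≤ τ ∧ ∀ x ∈ S, 0 < B1 x x + τ * B2 x x := by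
    rcases A.eq_empty_or_nonempty with hAE | hANE
    · refine ⟨0, le_rfl, fun x hx => ?_⟩
      by_contra hcon
      have : x ∈ A := ⟨hx, by simpa using hcon⟩
      rw [hAE] at this
      exact this
    · obtain ⟨x2, hx2, hmin2⟩ := hA.exists_isMinOn hANE c2.continuousOn
      have hx2ne : x2 ≠ 0 := by
        intro h0
        have := hx2.1
        simp [S, h0] at this
      have hpos : 0 < B2 x2 x2 := by
        rcases (h2 x2).lt_or_eq with hlt | heq
        · exact hlt
        · exact absurd (h x2 hx2ne heq.symm) (not_lt.2 hx2.2)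
      refine ⟨(|B1 x1 x1| + 1) / B2 x2 x2, by positivity, fun x hx => ?_⟩
      by_cases hxA : B1 x x ≤ 0
      · have hb2 : B2 x2 x2 ≤ B2 x x := hmin2 ⟨hx, hxA⟩
        have hb1 : B1 x1 x1 ≤ B1 x x := hmin1 hx
        have h3 : |B1 x1 x1| + 1 ≤ (|B1 x1 x1| + 1) / B2 x2 x2 * B2 x x := by
          rw [div_mul_eq_mul_div, le_div_iff₀ hpos]
          exact mul_le_mul_of_nonneg_left hb2 (by positivity)
        have h4 := neg_abs_le (B1 x1 x1)
        linarith
      · push Not at hxA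
        have : 0 ≤ (|B1 x1 x1| + 1) / B2 x2 x2 * B2 x x := mul_nonneg (by positivity) (h2 x)
        linarith
  obtain ⟨τ, hτ0, hτ⟩ := key
  have c3 : Continuous fun x => B1 x x + τ * B2 x x := by fun_prop
  obtain ⟨x3, hx3, hmin3⟩ := hS.exists_isMinOn hNE c3.continuousOn
  have hm : 0 < B1 x3 x3 + τ * B2 x3 x3 := hτ x3 hx3
  refine ⟨τ, hτ0, (B1 x3 x3 + τ * B2 x3 x3) / (|B0 x0 x0| + 1), by positivity, fun x => ?_⟩
  by_cases hx : x = 0
  · simp [hx]
  have hnx : 0 < ‖x‖ := norm_pos_iff.2 hx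
  set y : Fin n → ℝ := ‖x‖⁻¹ • x with hy
  have hyS : y ∈ S := by simp [S, hy, norm_smul, hx]
  have hxy : x = ‖x‖ • y := by
    rw [hy, smul_smul, mul_inv_cancel₀ hnx.ne', one_smul]
  have e : ∀ B : (Fin n → ℝ) →ₗ[ℝ] (Fin n → ℝ) →ₗ[ℝ] ℝ, B x x = ‖x‖ ^ 2 * B y y := by
    intro B
    conv_lhs => rw [hxy]
    simp only [map_smul, LinearMap.smul_apply, smul_eq_mul]
    ring
  rw [e B0, e B1, e B2]
  have h5 : B0 y y ≤ |B0 x0 x0| + 1 := by
    have := hmax0 hyS
    have h6 := le_abs_self (B0 x0 x0)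
    simp only [Set.mem_ofPred_eq] at this
    linarith
  have h7 : B1 x3 x3 + τ * B2 x3 x3 ≤ B1 y y + τ * B2 y y := hmin3 hyS
  have h8 : (B1 x3 x3 + τ * B2 x3 x3) / (|B0 x0 x0| + 1) * B0 y y ≤
      B1 x3 x3 + τ * B2 x3 x3 := by
    rw [div_mul_eq_mul_div, div_le_iff₀ (by positivity)]
    exact mul_le_mul_of_nonneg_left h5 hm.le
  have h9 : 0 ≤ ‖x‖ ^ 2 := by positivity
  nlinarith [mul_le_mul_of_nonneg_left (h8.trans h7) h9]

/-- Finsler's lemma on a finite-dimensional space. -/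
theorem finsler {W : Type*} [AddCommGroup W] [Module ℝ W] [FiniteDimensional ℝ W]
    (B0 B1 B2 : W →ₗ[ℝ] W →ₗ[ℝ] ℝ)
    (h2 : ∀ x, 0 ≤ B2 x x) (h : ∀ x, x ≠ 0 → B2 x x = 0 → 0 < B1 x x) :
    ∃ τ : ℝ, 0 ≤ τ ∧ ∃ δ : ℝ, 0 < δ ∧ ∀ x, δ * B0 x x ≤ B1 x x + τ * B2 x x := by
  let e : W ≃ₗ[ℝ] (Fin (Module.finrank ℝ W) → ℝ) := (Module.finBasis ℝ W).equivFun
  let pull : (W →ₗ[ℝ] W →ₗ[ℝ] ℝ) →
      ((Fin (Module.finrank ℝ W) → ℝ) →ₗ[ℝ] (Fin (Module.finrank ℝ W) → ℝ) →ₗ[ℝ] ℝ) :=
    fun B => B.compl₁₂ e.symm.toLinearMap e.symm.toLinearMap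
  obtain ⟨τ, hτ, δ, hδ, hb⟩ := finsler_fin (pull B0) (pull B1) (pull B2)
    (fun x => by simpa [pull] using h2 (e.symm x))
    (fun x hx hx2 => by
      have : e.symm x ≠ 0 := by simpa using hx
      simpa [pull] using h (e.symm x) this (by simpa [pull] using hx2))
  refine ⟨τ, hτ, δ, hδ, fun x => ?_⟩
  have := hb (e x)
  simpa [pull] using this

/-! ### Top coefficients along a direction -/

/-- Restriction of a polynomial to the line `t ↦ t • v`. -/
noncomputable def lineHom {c : ℕ} (v : Fin c → ℝ) :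
    MvPolynomial (Fin c) ℝ →ₐ[ℝ] Polynomial ℝ :=
  aeval fun i => Polynomial.C (v i) * Polynomial.X

/-- The `n`-th coefficient of `t ↦ f (t v)`; for `n` the degree this is "evaluation at infinity". -/
noncomputable def top {c : ℕ} (n : ℕ) (v : Fin c → ℝ) : MvPolynomial (Fin c) ℝ →ₗ[ℝ] ℝ :=
  (Polynomial.lcoeff ℝ n).comp (lineHom v).toLinearMap

theorem lineHom_monomial {c : ℕ} (v : Fin c → ℝ) (m : Fin c →₀ ℕ) (r : ℝ) :
    lineHom v (monomial m r) =
      Polynomial.monomial (Finsupp.degree m) (r * ∏ i, v i ^ m i) := by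
  rw [lineHom, aeval_monomial]
  rw [Finsupp.prod_fintype _ _ (by intro i; simp)]
  simp only [mul_pow, Finset.prod_mul_distrib]
  rw [Finset.prod_pow_eq_pow_sum]
  rw [← Polynomial.C_mul_X_pow_eq_monomial, Finsupp.degree_eq_sum]
  simp [Polynomial.algebraMap_eq, mul_assoc]

theorem natDegree_lineHom_le {c : ℕ} (v : Fin c → ℝ) (f : MvPolynomial (Fin c) ℝ) :
    (lineHom v f).natDegree ≤ f.totalDegree := by
  conv_lhs => rw [f.as_sum]
  rw [map_sum]
  refine Polynomial.natDegree_sum_le_of_forall_le _ _ fun m hm => ?_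
  rw [lineHom_monomial]
  refine (Polynomial.natDegree_monomial_le _).trans ?_
  exact MvPolynomial.le_totalDegree hm

theorem coeff_mul_of_le {p q : Polynomial ℝ} {m n : ℕ} (hp : p.natDegree ≤ m)
    (hq : q.natDegree ≤ n) : (p * q).coeff (m + n) = p.coeff m * q.coeff n := by
  rw [Polynomial.coeff_mul, Finset.sum_eq_single (m, n)]
  · rintro ⟨i, j⟩ hij hne
    have h : i + j = m + n := by simpa using hij
    rcases lt_trichotomy i m with h1 | h1 | h1
    · rw [Polynomial.coeff_eq_zero_of_natDegree_lt (p := q) (by omega), mul_zero]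
    · exact absurd (by rw [h1, show j = n by omega]) hne
    · rw [Polynomial.coeff_eq_zero_of_natDegree_lt (p := p) (by omega), zero_mul]
  · simp

theorem top_mul {c : ℕ} (v : Fin c → ℝ) {f g : MvPolynomial (Fin c) ℝ} {m n : ℕ}
    (hf : f.totalDegree ≤ m) (hg : g.totalDegree ≤ n) :
    top (m + n) v (f * g) = top m v f * top n v g := by
  simp only [top, LinearMap.comp_apply, AlgHom.toLinearMap_apply, map_mul,
    Polynomial.lcoeff_apply]
  exact coeff_mul_of_le ((natDegree_lineHom_le v f).trans hf)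
    ((natDegree_lineHom_le v g).trans hg)

theorem top_eq_zero {c : ℕ} (v : Fin c → ℝ) {f : MvPolynomial (Fin c) ℝ} {n : ℕ}
    (hf : f.totalDegree < n) : top n v f = 0 := by
  simp only [top, LinearMap.comp_apply, AlgHom.toLinearMap_apply, Polynomial.lcoeff_apply]
  exact Polynomial.coeff_eq_zero_of_natDegree_lt ((natDegree_lineHom_le v f).trans_lt hf)

theorem top_homogeneous {c : ℕ} (v : Fin c → ℝ) {f : MvPolynomial (Fin c) ℝ} {n : ℕ}
    (hf : f.IsHomogeneous n) : top n v f = eval v f := by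
  have h : lineHom v f = Polynomial.monomial n (eval v f) := by
    conv_lhs => rw [f.as_sum]
    rw [map_sum]
    have : ∀ m ∈ f.support, lineHom v (monomial m (coeff m f)) =
        Polynomial.monomial n (coeff m f * ∏ i, v i ^ m i) := by
      intro m hm
      rw [lineHom_monomial]
      have : Finsupp.degree m = n := by
        by_contra hne
        exact (mem_support_iff.1 hm) (hf.coeff_eq_zero hne)
      rw [this]
    rw [Finset.sum_congr rfl this, ← map_sum, eval_eq']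
  simp [top, h]

/-! ### The space `V = P₁ + V₀` -/

/-- Polynomials of degree `≤ 2` whose quadratic part vanishes at the given points. -/
noncomputable def VV {c r : ℕ} (v : Fin r → Fin c → ℝ) : Submodule ℝ (MvPolynomial (Fin c) ℝ) where
  carrier := {f | f.totalDegree ≤ 2 ∧ ∀ k, top 2 (v k) f = 0}
  add_mem' := by
    rintro f g ⟨hf, hf'⟩ ⟨hg, hg'⟩
    refine ⟨(totalDegree_add f g).trans (max_le hf hg), fun k => ?_⟩
    rw [map_add, hf', hg', add_zero]
  zero_mem' := by simp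
  smul_mem' := by
    rintro a f ⟨hf, hf'⟩
    refine ⟨(totalDegree_smul_le a f).trans hf, fun k => ?_⟩
    rw [map_smul, hf', smul_zero]

theorem mem_VV {c r : ℕ} {v : Fin r → Fin c → ℝ} {f : MvPolynomial (Fin c) ℝ} :
    f ∈ VV v ↔ f.totalDegree ≤ 2 ∧ ∀ k, top 2 (v k) f = 0 := Iff.rfl

/-- The bilinear form `(f, g) ↦ L (f g)`. -/
noncomputable def mulForm {c : ℕ} (L : MvPolynomial (Fin c) ℝ →ₗ[ℝ] ℝ)
    (W : Submodule ℝ (MvPolynomial (Fin c) ℝ)) : W →ₗ[ℝ] W →ₗ[ℝ] ℝ :=
  LinearMap.mk₂ ℝ (fun f g => L ((f : MvPolynomial (Fin c) ℝ) * g))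
    (by intro a b d; simp [add_mul]) (by intro t a b; simp)
    (by intro a b d; simp [mul_add]) (by intro t a b; simp)

@[simp] theorem mulForm_apply {c : ℕ} (L : MvPolynomial (Fin c) ℝ →ₗ[ℝ] ℝ)
    (W : Submodule ℝ (MvPolynomial (Fin c) ℝ)) (f g : W) :
    mulForm L W f g = L ((f : MvPolynomial (Fin c) ℝ) * g) := rfl

/-- The coefficient scalar product. -/
noncomputable def coefForm {c : ℕ} (s : Finset (Fin c →₀ ℕ))
    (W : Submodule ℝ (MvPolynomial (Fin c) ℝ)) : W →ₗ[ℝ] W →ₗ[ℝ] ℝ :=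
  LinearMap.mk₂ ℝ (fun f g => ∑ m ∈ s, coeff m (f : MvPolynomial (Fin c) ℝ) * coeff m (g : _))
    (by intro a b d; simp [add_mul, Finset.sum_add_distrib])
    (by intro t a b; simp [Finset.mul_sum, mul_assoc])
    (by intro a b d; simp [mul_add, Finset.sum_add_distrib])
    (by intro t a b; simp [Finset.mul_sum, mul_left_comm])

@[simp] theorem coefForm_apply {c : ℕ} (s : Finset (Fin c →₀ ℕ))
    (W : Submodule ℝ (MvPolynomial (Fin c) ℝ)) (f g : W) :
    coefForm s W f g = ∑ m ∈ s, coeff m (f : MvPolynomial (Fin c) ℝ) * coeff m (g : _) := rfl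

theorem ext_strict {c r : ℕ} (v : Fin r → Fin c → ℝ) (L0 : MvPolynomial (Fin c) ℝ →ₗ[ℝ] ℝ)
    (h : ∀ f ∈ VV v, f ≠ 0 → 0 < L0 (f * f)) :
    ∃ L : MvPolynomial (Fin c) ℝ →ₗ[ℝ] ℝ,
      (∀ f : MvPolynomial (Fin c) ℝ, f.totalDegree ≤ 3 → L f = L0 f) ∧
      (∀ f ∈ VV v, ∀ g ∈ VV v, L (f * g) = L0 (f * g)) ∧
      ∃ δ : ℝ, 0 < δ ∧ ∀ f : MvPolynomial (Fin c) ℝ, f.totalDegree ≤ 2 →
        δ * ∑ m ∈ f.support, (coeff m f) ^ 2 ≤ L (f * f) := by
  classical
  let W := restrictTotalDegree (Fin c) ℝ 2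
  let s : Finset (Fin c →₀ ℕ) := (Finsupp.finite_of_degree_le (σ := Fin c) 2).toFinset
  let T : MvPolynomial (Fin c) ℝ →ₗ[ℝ] ℝ := ∑ k, top 4 (v k)
  have hT : ∀ f g : MvPolynomial (Fin c) ℝ, f.totalDegree ≤ 2 → g.totalDegree ≤ 2 →
      T (f * g) = ∑ k, top 2 (v k) f * top 2 (v k) g := by
    intro f g hf hg
    simp only [T, LinearMap.sum_apply]
    exact Finset.sum_congr rfl fun k _ => top_mul (v k) hf hg
  have hW : ∀ f : W, (f : MvPolynomial (Fin c) ℝ).totalDegree ≤ 2 := fun f =>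
    (mem_restrictTotalDegree _ _ _).1 f.2
  obtain ⟨τ, hτ, δ, hδ, hb⟩ := finsler (coefForm s W) (mulForm L0 W) (mulForm T W)
    (fun f => by
      rw [mulForm_apply, hT _ _ (hW f) (hW f)]
      exact Finset.sum_nonneg fun k _ => mul_self_nonneg _)
    (fun f hf hf2 => by
      rw [mulForm_apply, hT _ _ (hW f) (hW f)] at hf2
      rw [mulForm_apply]
      refine h f (mem_VV.2 ⟨hW f, fun k => ?_⟩) (by simpa using hf)
      have := (Finset.sum_eq_zero_iff_of_nonneg (fun k _ => mul_self_nonneg _)).1 hf2 k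
        (Finset.mem_univ k)
      simpa using this)
  refine ⟨L0 + τ • T, ?_, ?_, δ, hδ, ?_⟩
  · intro f hf
    have : T f = 0 := by
      simp only [T, LinearMap.sum_apply]
      exact Finset.sum_eq_zero fun k _ => top_eq_zero _ (by omega)
    simp [this]
  · intro f hf g hg
    have : T (f * g) = 0 := by
      rw [hT f g hf.1 hg.1]
      exact Finset.sum_eq_zero fun k _ => by rw [hf.2 k, zero_mul]
    simp [this]
  · intro f hf
    have := hb ⟨f, (mem_restrictTotalDegree _ _ _).2 hf⟩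
    simp only [mulForm_apply, coefForm_apply] at this
    simp only [LinearMap.add_apply, LinearMap.smul_apply, smul_eq_mul]
    refine le_trans ?_ this
    refine mul_le_mul_of_nonneg_left ?_ hδ.le
    have hsub : f.support ⊆ s := by
      intro m hm
      simp only [s, Set.Finite.mem_toFinset]
      exact (MvPolynomial.le_totalDegree hm).trans hf
    rw [Finset.sum_congr rfl (fun m _ => pow_two (coeff m f))]
    exact Finset.sum_le_sum_of_subset_of_nonneg hsub fun m _ _ => mul_self_nonneg _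

end Crest.Agent.R237.Ext
end

-- ▼ part R237/Flat
section

/-! Row 237: the flat functional built from a covariance `Sig`, a cubic functional `Z` and a
free space of quadratic forms `V0`; and the grid functional. -/

set_option autoImplicit false

namespace Crest.Agent.R237.Ext

open MvPolynomial

/-! ### The quadratic functional with given covariance -/

/-- `Q2 Sig (X i * X j) = Sig i j` for symmetric `Sig`. -/
noncomputable def Q2 {c : ℕ} (Sig : Matrix (Fin c) (Fin c) ℝ) : MvPolynomial (Fin c) ℝ →ₗ[ℝ] ℝ :=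
  ∑ i, ∑ j, (Sig i j / 2) •
    ((lcoeff ℝ (0 : Fin c →₀ ℕ)).comp
      ((pderiv i).toLinearMap.comp (pderiv j).toLinearMap))

theorem Q2_apply {c : ℕ} (Sig : Matrix (Fin c) (Fin c) ℝ) (f : MvPolynomial (Fin c) ℝ) :
    Q2 Sig f = ∑ i, ∑ j, (Sig i j / 2) * coeff 0 (pderiv i (pderiv j f)) := by
  simp only [Q2, LinearMap.sum_apply, LinearMap.smul_apply, LinearMap.comp_apply, smul_eq_mul]
  rfl

theorem pd1 {c : ℕ} (i l : Fin c) :
    pderiv l (X i : MvPolynomial (Fin c) ℝ) = C (if l = i then 1 else 0) := by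
  classical
  rw [pderiv_X, Pi.single_apply]
  by_cases h : i = l
  · simp [h]
  · simp [h, Ne.symm h]

theorem pd2 {c : ℕ} (i j k l : Fin c) :
    coeff 0 (pderiv k (pderiv l (X i * X j : MvPolynomial (Fin c) ℝ))) =
      (if l = i then 1 else 0) * (if k = j then 1 else 0) +
      (if l = j then 1 else 0) * (if k = i then (1 : ℝ) else 0) := by
  have h : pderiv k (pderiv l (X i * X j : MvPolynomial (Fin c) ℝ)) =
      C ((if l = i then 1 else 0) * (if k = j then 1 else 0) +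
      (if l = j then 1 else 0) * (if k = i then (1 : ℝ) else 0)) := by
    rw [pderiv_mul, map_add, pderiv_mul, pderiv_mul, pd1, pd1, pd1, pd1, pderiv_C, pderiv_C,
      zero_mul, mul_zero, zero_add, add_zero, ← C_mul, ← C_mul, ← C_add]
    congr 1
    ring
  rw [h, coeff_C, if_pos rfl]

theorem Q2_X_mul_X {c : ℕ} (Sig : Matrix (Fin c) (Fin c) ℝ) (hS : Sig.IsSymm) (i j : Fin c) :
    Q2 Sig (X i * X j) = Sig i j := by
  classical
  rw [Q2_apply]
  simp only [pd2, mul_add, Finset.sum_add_distrib]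
  have h1 : ∑ x, ∑ y, Sig x y / 2 * ((if y = i then 1 else 0) * (if x = j then (1 : ℝ) else 0)) =
      Sig j i / 2 := by
    rw [Finset.sum_eq_single j, Finset.sum_eq_single i]
    · simp
    · intro y _ hy; simp [hy]
    · simp
    · intro x _ hx; simp [hx]
    · simp
  have h2 : ∑ x, ∑ y, Sig x y / 2 * ((if y = j then 1 else 0) * (if x = i then (1 : ℝ) else 0)) =
      Sig i j / 2 := by
    rw [Finset.sum_eq_single i, Finset.sum_eq_single j]
    · simp
    · intro y _ hy; simp [hy]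
    · simp
    · intro x _ hx; simp [hx]
    · simp
  rw [h1, h2, hS.apply i j]
  ring

/-! ### Gluing functionals along the grading -/

/-- glue functionals in degrees `0, 2, 3, 4` -/
noncomputable def glue {c : ℕ} (Q Z T : MvPolynomial (Fin c) ℝ →ₗ[ℝ] ℝ) :
    MvPolynomial (Fin c) ℝ →ₗ[ℝ] ℝ :=
  lcoeff ℝ (0 : Fin c →₀ ℕ) + Q.comp (homogeneousComponent 2) +
    Z.comp (homogeneousComponent 3) + T.comp (homogeneousComponent 4)

section glue

variable {c : ℕ} (Q Z T : MvPolynomial (Fin c) ℝ →ₗ[ℝ] ℝ)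

theorem glue_apply (f : MvPolynomial (Fin c) ℝ) :
    glue Q Z T f = coeff 0 f + Q (homogeneousComponent 2 f) + Z (homogeneousComponent 3 f) +
      T (homogeneousComponent 4 f) := rfl

theorem hc_of {f : MvPolynomial (Fin c) ℝ} {n : ℕ} (hf : f.IsHomogeneous n) (m : ℕ) :
    homogeneousComponent m f = if m = n then f else 0 :=
  homogeneousComponent_of_mem (m := m) ((mem_homogeneousSubmodule n f).2 hf)

theorem coeff_zero_of {f : MvPolynomial (Fin c) ℝ} {n : ℕ} (hf : f.IsHomogeneous n) (hn : n ≠ 0) :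
    coeff 0 f = 0 := hf.coeff_eq_zero (by simpa using hn.symm)

theorem glue_one : glue Q Z T 1 = 1 := by
  have h := isHomogeneous_one (Fin c) ℝ
  rw [glue_apply, hc_of h, hc_of h, hc_of h]
  simp

theorem glue_deg1 {f : MvPolynomial (Fin c) ℝ} (hf : f.IsHomogeneous 1) : glue Q Z T f = 0 := by
  rw [glue_apply, hc_of hf, hc_of hf, hc_of hf, coeff_zero_of hf one_ne_zero]
  simp

theorem glue_deg2 {f : MvPolynomial (Fin c) ℝ} (hf : f.IsHomogeneous 2) :
    glue Q Z T f = Q f := by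
  rw [glue_apply, hc_of hf, hc_of hf, hc_of hf, coeff_zero_of hf two_ne_zero]
  simp

theorem glue_deg3 {f : MvPolynomial (Fin c) ℝ} (hf : f.IsHomogeneous 3) :
    glue Q Z T f = Z f := by
  rw [glue_apply, hc_of hf, hc_of hf, hc_of hf, coeff_zero_of hf three_ne_zero]
  simp

theorem glue_deg4 {f : MvPolynomial (Fin c) ℝ} (hf : f.IsHomogeneous 4) :
    glue Q Z T f = T f := by
  rw [glue_apply, hc_of hf, hc_of hf, hc_of hf, coeff_zero_of hf four_ne_zero]
  simp

end glue

theorem flat_exists {c d : ℕ} (q : Fin d → MvPolynomial (Fin c) ℝ)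
    (hq : ∀ a, (q a).IsHomogeneous 2) (Sig : Matrix (Fin c) (Fin c) ℝ) (hS : Sig.PosDef)
    (Z : MvPolynomial (Fin c) ℝ →ₗ[ℝ] ℝ)
    (hfree : ∀ W : Matrix (Fin d) (Fin d) ℝ, W.IsSymm →
      ∃ T : MvPolynomial (Fin c) ℝ →ₗ[ℝ] ℝ, ∀ a b, T (q a * q b) = W a b) :
    ∃ L : MvPolynomial (Fin c) ℝ →ₗ[ℝ] ℝ, L 1 = 1 ∧ (∀ i, L (X i) = 0) ∧
      (∀ i j, L (X i * X j) = Sig i j) ∧
      (∀ f : MvPolynomial (Fin c) ℝ, f.IsHomogeneous 3 → L f = Z f) ∧
      (∀ a b, L (q a * q b) =
        L (q a) * L (q b) + ∑ i, ∑ j, Sig⁻¹ i j * (Z (X i * q a) * Z (X j * q b))) ∧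
      (∀ a : ℝ, ∀ b : Fin c → ℝ, ∀ v ∈ Submodule.span ℝ (Set.range q),
        0 ≤ L ((C a + ∑ i, C (b i) * X i + v) * (C a + ∑ i, C (b i) * X i + v))) := by
  classical
  set V0 : Submodule ℝ (MvPolynomial (Fin c) ℝ) := Submodule.span ℝ (Set.range q) with hV0def
  have hV0 : ∀ f ∈ V0, f.IsHomogeneous 2 := by
    intro f hf
    have : V0 ≤ homogeneousSubmodule (Fin c) ℝ 2 := by
      rw [hV0def, Submodule.span_le]
      rintro _ ⟨a, rfl⟩
      exact (mem_homogeneousSubmodule 2 _).2 (hq a)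
    exact (mem_homogeneousSubmodule 2 _).1 (this hf)
  have hsym : Sig.IsSymm := by
    have := hS.isHermitian
    simpa [Matrix.IsHermitian, Matrix.IsSymm] using this
  have hsymi : Sig⁻¹.IsSymm := hsym.inv
  let B : MvPolynomial (Fin c) ℝ →ₗ[ℝ] MvPolynomial (Fin c) ℝ →ₗ[ℝ] ℝ := LinearMap.mk₂ ℝ
    (fun v w => Q2 Sig v * Q2 Sig w +
      ∑ i, ∑ j, Sig⁻¹ i j * (Z (X i * v) * Z (X j * w)))
    (by
      intro v v' w
      simp only [map_add, mul_add, add_mul, Finset.sum_add_distrib]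
      ring)
    (by
      intro t v w
      simp only [map_smul, smul_eq_mul, mul_smul_comm, Finset.mul_sum, mul_add]
      congr 1
      · ring
      · exact Finset.sum_congr rfl fun i _ => Finset.sum_congr rfl fun j _ => by ring)
    (by
      intro v w w'
      simp only [map_add, mul_add, Finset.sum_add_distrib]
      ring)
    (by
      intro t v w
      simp only [map_smul, smul_eq_mul, mul_smul_comm, Finset.mul_sum, mul_add]
      congr 1
      · ring
      · exact Finset.sum_congr rfl fun i _ => Finset.sum_congr rfl fun j _ => by ring)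
  have hB : ∀ v w, B v w = B w v := by
    intro v w
    simp only [B, LinearMap.mk₂_apply]
    congr 1
    · ring
    · rw [Finset.sum_comm]
      refine Finset.sum_congr rfl fun i _ => Finset.sum_congr rfl fun j _ => ?_
      rw [hsymi.apply i j]
      ring
  obtain ⟨T, hT0⟩ := hfree (Matrix.of fun a b => B (q a) (q b)) (by
    ext a b
    simp [hB (q a) (q b)])
  have hT : ∀ v ∈ V0, ∀ w ∈ V0, T (v * w) = B v w := by
    intro v hv w hw
    induction hv using Submodule.span_induction with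
    | mem v hv =>
      obtain ⟨a, rfl⟩ := hv
      induction hw using Submodule.span_induction with
      | mem w hw =>
        obtain ⟨b, rfl⟩ := hw
        exact hT0 a b
      | zero => simp
      | add w w' _ _ h h' => rw [mul_add, map_add, map_add, h, h']
      | smul t w _ h => rw [mul_smul_comm, map_smul, map_smul, h]
    | zero => simp
    | add v v' _ _ h h' => rw [add_mul, map_add, map_add, h, h', LinearMap.add_apply]
    | smul t v _ h => rw [smul_mul_assoc, map_smul, map_smul, h, LinearMap.smul_apply]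
  have hX : ∀ i : Fin c, (X i : MvPolynomial (Fin c) ℝ).IsHomogeneous 1 := fun i =>
    isHomogeneous_X ℝ i
  have e2 : ∀ i j, glue (Q2 Sig) Z T (X i * X j) = Sig i j := by
    intro i j
    rw [glue_deg2 _ _ _ ((hX i).mul (hX j)), Q2_X_mul_X Sig hsym]
  have e3 : ∀ i, ∀ v ∈ V0, glue (Q2 Sig) Z T (X i * v) = Z (X i * v) := by
    intro i v hv
    exact glue_deg3 _ _ _ ((hX i).mul (hV0 v hv))
  have e4 : ∀ v ∈ V0, ∀ w ∈ V0, glue (Q2 Sig) Z T (v * w) =
      glue (Q2 Sig) Z T v * glue (Q2 Sig) Z T w +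
        ∑ i, ∑ j, Sig⁻¹ i j * (Z (X i * v) * Z (X j * w)) := by
    intro v hv w hw
    rw [glue_deg4 _ _ _ ((hV0 v hv).mul (hV0 w hw)), glue_deg2 _ _ _ (hV0 v hv),
      glue_deg2 _ _ _ (hV0 w hw)]
    exact hT v hv w hw
  refine ⟨glue (Q2 Sig) Z T, glue_one _ _ _, fun i => glue_deg1 _ _ _ (hX i), e2,
    fun f hf => glue_deg3 _ _ _ hf,
    fun a b => e4 _ (Submodule.subset_span ⟨a, rfl⟩) _ (Submodule.subset_span ⟨b, rfl⟩), ?_⟩
  intro a b v hv
  set L := glue (Q2 Sig) Z T with hL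
  set z : Fin c → ℝ := fun i => Z (X i * v) with hz
  set w : Fin c → ℝ := b + Sig⁻¹.mulVec z with hw
  -- expansion
  have hexp : L ((C a + ∑ i, C (b i) * X i + v) * (C a + ∑ i, C (b i) * X i + v)) =
      (a + L v) ^ 2 + w ⬝ᵥ Sig.mulVec w := by
    have h1 : (C a + ∑ i, C (b i) * X i + v) * (C a + ∑ i, C (b i) * X i + v) =
        (a ^ 2) • (1 : MvPolynomial (Fin c) ℝ) + (∑ i, (2 * a * b i) • X i) +
        (∑ i, ∑ j, (b i * b j) • (X i * X j)) + (2 * a) • v + (∑ i, (2 * b i) • (X i * v)) +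
        v * v := by
      have hs1 : ∑ i, (2 * a * b i) • (X i : MvPolynomial (Fin c) ℝ) =
          2 * C a * ∑ i, C (b i) * X i := by
        rw [Finset.mul_sum]
        refine Finset.sum_congr rfl fun i _ => ?_
        rw [smul_eq_C_mul, C_mul, C_mul]
        simp only [map_ofNat]
        ring
      have hs2 : ∑ i, ∑ j, (b i * b j) • (X i * X j : MvPolynomial (Fin c) ℝ) =
          (∑ i, C (b i) * X i) * ∑ i, C (b i) * X i := by
        rw [Finset.sum_mul_sum]
        refine Finset.sum_congr rfl fun i _ => Finset.sum_congr rfl fun j _ => ?_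
        rw [smul_eq_C_mul, C_mul]
        ring
      have hs3 : ∑ i, (2 * b i) • (X i * v) = 2 * v * ∑ i, C (b i) * X i := by
        rw [Finset.mul_sum]
        refine Finset.sum_congr rfl fun i _ => ?_
        rw [smul_eq_C_mul, C_mul]
        simp only [map_ofNat]
        ring
      rw [hs1, hs2, hs3, smul_eq_C_mul, smul_eq_C_mul, C_mul, C_pow]
      simp only [map_ofNat]
      ring
    rw [h1]
    simp only [map_add, map_sum, map_smul, smul_eq_mul, e2, e4 v hv v hv]
    have g1 : L 1 = 1 := glue_one _ _ _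
    have g2 : ∀ i, L (X i) = 0 := fun i => glue_deg1 _ _ _ (hX i)
    have g3 : ∀ i, L (X i * v) = z i := fun i => e3 i v hv
    simp only [g1, g2, g3, mul_zero, Finset.sum_const_zero]
    have hdet : IsUnit Sig.det := hS.isUnit.map Matrix.detMonoidHom |> fun h => by simpa using h
    have hw2 : Sig.mulVec w = Sig.mulVec b + z := by
      rw [hw, Matrix.mulVec_add, Matrix.mulVec_mulVec, Matrix.mul_nonsing_inv _ hdet,
        Matrix.one_mulVec]
    have hw3 : w ⬝ᵥ Sig.mulVec w = b ⬝ᵥ Sig.mulVec b + 2 * (b ⬝ᵥ z) +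
        z ⬝ᵥ Sig⁻¹.mulVec z := by
      rw [hw2, hw, add_dotProduct, dotProduct_add, dotProduct_add]
      have h5 : Sig⁻¹.mulVec z ⬝ᵥ Sig.mulVec b = b ⬝ᵥ z := by
        rw [Matrix.dotProduct_mulVec, ← Matrix.mulVec_transpose, hsym.eq, Matrix.mulVec_mulVec,
          Matrix.mul_nonsing_inv _ hdet, Matrix.one_mulVec, dotProduct_comm]
      rw [h5, dotProduct_comm (Sig⁻¹.mulVec z) z]
      ring
    rw [hw3]
    have h6 : b ⬝ᵥ Sig.mulVec b = ∑ i, ∑ j, b i * b j * Sig i j := by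
      simp only [dotProduct, Matrix.mulVec, Finset.mul_sum]
      exact Finset.sum_congr rfl fun i _ => Finset.sum_congr rfl fun j _ => by ring
    have h7 : z ⬝ᵥ Sig⁻¹.mulVec z = ∑ i, ∑ j, Sig⁻¹ i j * (Z (X i * v) * Z (X j * v)) := by
      simp only [dotProduct, Matrix.mulVec, Finset.mul_sum]
      exact Finset.sum_congr rfl fun i _ => Finset.sum_congr rfl fun j _ => by
        simp only [hz]; ring
    have h8 : b ⬝ᵥ z = ∑ i, b i * z i := rfl
    rw [h6, h7, h8, Finset.mul_sum]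
    have h9 : ∑ x, 2 * b x * z x = ∑ i, 2 * (b i * z i) :=
      Finset.sum_congr rfl fun i _ => by ring
    rw [h9]
    ring
  rw [hexp]
  have hnn : 0 ≤ w ⬝ᵥ Sig.mulVec w := by
    have := hS.posSemidef.dotProduct_mulVec_nonneg w
    simpa using this
  positivity

end Crest.Agent.R237.Ext
end

-- ▼ part R237/ExtMain
section

/-! Row 237: the final perturbation argument: a closed set of functionals which contains all
strictly positive functionals on `P₂` contains every functional which is nonnegative on squares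
of `VV v`. -/

set_option autoImplicit false

namespace Crest.Agent.R237.Ext

open MvPolynomial

/-- Average over the grid `{0,1,2}^c`. -/
noncomputable def gridF (c : ℕ) : MvPolynomial (Fin c) ℝ →ₗ[ℝ] ℝ :=
  ((3 : ℝ) ^ c)⁻¹ • ∑ x : Fin c → Fin 3, (aeval fun i => ((x i : ℕ) : ℝ)).toLinearMap

theorem gridF_apply {c : ℕ} (f : MvPolynomial (Fin c) ℝ) :
    gridF c f = ((3 : ℝ) ^ c)⁻¹ * ∑ x : Fin c → Fin 3, eval (fun i => ((x i : ℕ) : ℝ)) f := by
  simp [gridF]

theorem gridF_one {c : ℕ} : gridF c 1 = 1 := by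
  rw [gridF_apply]
  simp

theorem gridF_nonneg {c : ℕ} (f : MvPolynomial (Fin c) ℝ) : 0 ≤ gridF c (f * f) := by
  rw [gridF_apply]
  refine mul_nonneg (by positivity) (Finset.sum_nonneg fun x _ => ?_)
  rw [map_mul]
  exact mul_self_nonneg _

theorem gridF_pos {c : ℕ} (f : MvPolynomial (Fin c) ℝ) (hf : f.totalDegree ≤ 2) (h0 : f ≠ 0) :
    0 < gridF c (f * f) := by
  rcases (gridF_nonneg f).lt_or_eq with h | h
  · exact h
  · exfalso
    apply h0
    rw [gridF_apply] at h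
    have h1 : ∑ x : Fin c → Fin 3, eval (fun i => ((x i : ℕ) : ℝ)) (f * f) = 0 := by
      rcases mul_eq_zero.1 h.symm with h2 | h2
      · exact absurd h2 (by positivity)
      · exact h2
    have h2 := (Finset.sum_eq_zero_iff_of_nonneg (fun x _ => by
      rw [map_mul]; exact mul_self_nonneg _)).1 h1
    classical
    refine eq_zero_of_eval_zero_at_prod_finset f
      (fun _ => Finset.univ.image fun k : Fin 3 => ((k : ℕ) : ℝ)) ?_ ?_
    · intro i
      rw [Finset.card_image_of_injective]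
      · simp only [Finset.card_univ, Fintype.card_fin]
        exact (degreeOf_le_totalDegree f i).trans_lt (by omega)
      · intro a b hab
        have hab' : ((a : ℕ) : ℝ) = ((b : ℕ) : ℝ) := hab
        exact Fin.ext (by exact_mod_cast hab')
    · intro x hx
      simp only [Finset.mem_image, Finset.mem_univ, true_and] at hx
      choose y hy using hx
      have : x = fun i => ((y i : ℕ) : ℝ) := by
        funext i
        exact (hy i).symm
      rw [this]
      have := h2 y (Finset.mem_univ y)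
      rw [map_mul] at this
      exact mul_self_eq_zero.1 this

/-- The polynomials on which strict extensions do not change the functional. -/
noncomputable def Good {c r : ℕ} (v : Fin r → Fin c → ℝ) :
    Submodule ℝ (MvPolynomial (Fin c) ℝ) :=
  restrictTotalDegree (Fin c) ℝ 3 ⊔
    Submodule.span ℝ {p | ∃ f ∈ VV v, ∃ g ∈ VV v, p = f * g}

theorem eq_on_Good {c r : ℕ} {v : Fin r → Fin c → ℝ} {L L0 : MvPolynomial (Fin c) ℝ →ₗ[ℝ] ℝ}
    (h3 : ∀ f : MvPolynomial (Fin c) ℝ, f.totalDegree ≤ 3 → L f = L0 f)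
    (hV : ∀ f ∈ VV v, ∀ g ∈ VV v, L (f * g) = L0 (f * g)) :
    ∀ f ∈ Good v, L f = L0 f := by
  intro f hf
  have : Good v ≤ LinearMap.ker (L - L0) := by
    refine sup_le ?_ (Submodule.span_le.2 ?_)
    · intro g hg
      have := h3 g ((mem_restrictTotalDegree _ _ _).1 hg)
      simp [this]
    · rintro _ ⟨a, ha, b, hb, rfl⟩
      simp [hV a ha b hb]
  have := this hf
  simpa [sub_eq_zero] using this

/-- **Final perturbation argument.** -/
theorem mem_of_nonneg {c r : ℕ} {ι : Type*} [Finite ι] (v : Fin r → Fin c → ℝ)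
    (P : ι → MvPolynomial (Fin c) ℝ) (hP : ∀ i, P i ∈ Good v)
    (K : Set (ι → ℝ)) (hK : IsClosed K)
    (NS : ∀ L : MvPolynomial (Fin c) ℝ →ₗ[ℝ] ℝ, L 1 = 1 →
      (∃ δ : ℝ, 0 < δ ∧ ∀ f : MvPolynomial (Fin c) ℝ, f.totalDegree ≤ 2 →
        δ * ∑ m ∈ f.support, (coeff m f) ^ 2 ≤ L (f * f)) → (fun i => L (P i)) ∈ K)
    (L0 : MvPolynomial (Fin c) ℝ →ₗ[ℝ] ℝ) (h1 : L0 1 = 1)
    (hpos : ∀ f ∈ VV v, 0 ≤ L0 (f * f)) :
    (fun i => L0 (P i)) ∈ K := by
  have key : ∀ t : ℝ, 0 < t → t ≤ 1 →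
      (fun i => (1 - t) * L0 (P i) + t * gridF c (P i)) ∈ K := by
    intro t ht ht1
    let L1 : MvPolynomial (Fin c) ℝ →ₗ[ℝ] ℝ := (1 - t) • L0 + t • gridF c
    obtain ⟨L, hL3, hLV, hLp⟩ := ext_strict v L1 (fun f hf hf0 => by
      have h2 := hpos f hf
      have h3 := gridF_pos f hf.1 hf0
      simp only [L1, LinearMap.add_apply, LinearMap.smul_apply, smul_eq_mul]
      have h4 : 0 ≤ (1 - t) * L0 (f * f) := mul_nonneg (by linarith) h2
      have h5 : 0 < t * gridF c (f * f) := mul_pos ht h3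
      linarith)
    have hLone : L 1 = 1 := by
      rw [hL3 1 (by simp)]
      simp [L1, h1, gridF_one]
    have := NS L hLone hLp
    have he : (fun i => L (P i)) = fun i => (1 - t) * L0 (P i) + t * gridF c (P i) := by
      funext i
      rw [eq_on_Good hL3 hLV (P i) (hP i)]
      simp [L1]
    rwa [he] at this
  -- let `t → 0`
  let φ : ℝ → (ι → ℝ) := fun t i => (1 - t) * L0 (P i) + t * gridF c (P i)
  have hφ : Continuous φ := by
    refine continuous_pi fun i => ?_
    fun_prop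
  have h0 : φ 0 = fun i => L0 (P i) := by
    funext i
    simp [φ]
  rw [← h0]
  have hlim : Filter.Tendsto φ (nhdsWithin 0 (Set.Ioi 0)) (nhds (φ 0)) :=
    hφ.continuousAt.tendsto.mono_left nhdsWithin_le_nhds
  refine hK.mem_of_tendsto hlim ?_
  have hmem : Set.Ioc (0 : ℝ) 1 ∈ nhdsWithin (0 : ℝ) (Set.Ioi 0) :=
    Ioc_mem_nhdsGT one_pos
  filter_upwards [hmem] with t ht
  exact key t ht.1 ht.2

/-! ### Decomposition of `VV v` -/

theorem hc_one {c : ℕ} (f : MvPolynomial (Fin c) ℝ) :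
    homogeneousComponent 1 f = ∑ i, C (coeff (Finsupp.single i 1) f) * X i := by
  classical
  ext m
  rw [coeff_homogeneousComponent, coeff_sum]
  simp only [coeff_C_mul, MvPolynomial.coeff_X]
  by_cases hm : Finsupp.degree m = 1
  · rw [if_pos hm]
    obtain ⟨i, hi⟩ : ∃ i, m = Finsupp.single i 1 := by
      have hne : m ≠ 0 := by
        rintro rfl
        simp at hm
      obtain ⟨i, hi⟩ := Finsupp.ne_iff.1 hne
      have hi' : Finsupp.single i 1 ≤ m := by
        rw [Finsupp.single_le_iff]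
        exact Nat.one_le_iff_ne_zero.2 (by simpa using hi)
      obtain ⟨n, hn⟩ := le_iff_exists_add.1 hi'
      refine ⟨i, ?_⟩
      have hdeg := hm
      rw [hn, map_add, Finsupp.degree_single] at hdeg
      have hn0 : n = 0 := by
        rw [← Finsupp.degree_eq_zero_iff]
        omega
      rw [hn, hn0, add_zero]
    rw [Finset.sum_eq_single i]
    · simp [hi]
    · intro j _ hj
      rw [hi, if_neg, mul_zero]
      intro h
      have := (Finsupp.single_left_injective (one_ne_zero (α := ℕ))) h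
      exact hj this
    · simp
  · rw [if_neg hm]
    symm
    refine Finset.sum_eq_zero fun i _ => ?_
    rw [if_neg, mul_zero]
    rintro rfl
    simp at hm

theorem decomp_deg2 {c : ℕ} (f : MvPolynomial (Fin c) ℝ) (hf : f.totalDegree ≤ 2) :
    f = C (coeff 0 f) + ∑ i, C (coeff (Finsupp.single i 1) f) * X i + homogeneousComponent 2 f := by
  have h : f = ∑ i ∈ Finset.range 3, homogeneousComponent i f := by
    conv_lhs => rw [← sum_homogeneousComponent f]
    refine Finset.sum_subset (Finset.range_mono (by omega)) fun i _ hi => ?_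
    exact homogeneousComponent_eq_zero _ _ (by simpa using hi)
  conv_lhs => rw [h]
  rw [Finset.sum_range_succ, Finset.sum_range_succ, Finset.sum_range_one,
    homogeneousComponent_zero, hc_one]

theorem mem_VV_decomp {c r : ℕ} {v : Fin r → Fin c → ℝ} {f : MvPolynomial (Fin c) ℝ}
    (hf : f ∈ VV v) :
    ∃ (a : ℝ) (b : Fin c → ℝ) (g : MvPolynomial (Fin c) ℝ), g.IsHomogeneous 2 ∧
      (∀ k, eval (v k) g = 0) ∧ f = C a + ∑ i, C (b i) * X i + g := by
  refine ⟨coeff 0 f, fun i => coeff (Finsupp.single i 1) f, homogeneousComponent 2 f,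
    homogeneousComponent_isHomogeneous 2 f, fun k => ?_, decomp_deg2 f hf.1⟩
  have h1 := hf.2 k
  rw [decomp_deg2 f hf.1, map_add, map_add] at h1
  rw [top_homogeneous _ (homogeneousComponent_isHomogeneous 2 f)] at h1
  rw [top_eq_zero (v k) (n := 2) (f := C (coeff 0 f)) (by simp)] at h1
  rw [top_eq_zero (v k) (n := 2)
    (f := ∑ i, C (coeff (Finsupp.single i 1) f) * X i) ?_] at h1
  · simpa using h1
  · rw [← hc_one]
    exact (homogeneousComponent_isHomogeneous 1 f).totalDegree_le.trans_lt (by omega)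

/-- **Flat functional, final form**: `q` spans the quadratic forms vanishing at the points `v`,
and products are free. -/
theorem flat_functional {c d r : ℕ} (v : Fin r → Fin c → ℝ) (q : Fin d → MvPolynomial (Fin c) ℝ)
    (hq : ∀ a, (q a).IsHomogeneous 2)
    (hspan : ∀ g : MvPolynomial (Fin c) ℝ, g.IsHomogeneous 2 → (∀ k, eval (v k) g = 0) →
      g ∈ Submodule.span ℝ (Set.range q))
    (hfree : ∀ W : Matrix (Fin d) (Fin d) ℝ, W.IsSymm →
      ∃ T : MvPolynomial (Fin c) ℝ →ₗ[ℝ] ℝ, ∀ a b, T (q a * q b) = W a b)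
    (Sig : Matrix (Fin c) (Fin c) ℝ) (hS : Sig.PosDef) (Z : MvPolynomial (Fin c) ℝ →ₗ[ℝ] ℝ) :
    ∃ L : MvPolynomial (Fin c) ℝ →ₗ[ℝ] ℝ, L 1 = 1 ∧ (∀ i, L (X i) = 0) ∧
      (∀ i j, L (X i * X j) = Sig i j) ∧
      (∀ f : MvPolynomial (Fin c) ℝ, f.IsHomogeneous 3 → L f = Z f) ∧
      (∀ a b, L (q a * q b) =
        L (q a) * L (q b) + ∑ i, ∑ j, Sig⁻¹ i j * (Z (X i * q a) * Z (X j * q b))) ∧
      (∀ f ∈ VV v, 0 ≤ L (f * f)) := by
  obtain ⟨L, h1, h2, h3, h4, h5, h6⟩ := flat_exists q hq Sig hS Z hfree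
  refine ⟨L, h1, h2, h3, h4, h5, fun f hf => ?_⟩
  obtain ⟨a, b, g, hg, hgv, rfl⟩ := mem_VV_decomp hf
  exact h6 a b g (hspan g hg hgv)

/-- `q a ∈ VV v` when `q a` is a quadratic form vanishing at the points. -/
theorem mem_VV_of {c r : ℕ} {v : Fin r → Fin c → ℝ} {g : MvPolynomial (Fin c) ℝ}
    (hg : g.IsHomogeneous 2) (hv : ∀ k, eval (v k) g = 0) : g ∈ VV v :=
  mem_VV.2 ⟨hg.totalDegree_le, fun k => by rw [top_homogeneous _ hg, hv k]⟩

theorem Good_of_deg {c r : ℕ} {v : Fin r → Fin c → ℝ} {g : MvPolynomial (Fin c) ℝ}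
    (hg : g.totalDegree ≤ 3) : g ∈ Good v :=
  Submodule.mem_sup_left ((mem_restrictTotalDegree _ _ _).2 hg)

theorem Good_of_mul {c r : ℕ} {v : Fin r → Fin c → ℝ} {f g : MvPolynomial (Fin c) ℝ}
    (hf : f ∈ VV v) (hg : g ∈ VV v) : f * g ∈ Good v :=
  Submodule.mem_sup_right (Submodule.subset_span ⟨f, hf, g, hg, rfl⟩)

end Crest.Agent.R237.Ext
end

-- ▼ part R237/AsmPoly
section

/-!
Row 237, assembly part (helper432): the polynomial moment vector `zP`, and the cubic functional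
with given symmetric third moments.
-/

set_option autoImplicit false

namespace Crest.Agent.R237.Asm
open MvPolynomial Matrix

variable {n d : ℕ}

/-! ### cubic functional -/

/-- `Z3 Z (X a * X b * X c) = Z a b c` for a symmetric tensor `Z`. -/
noncomputable def Z3 (Z : Fin n → Fin n → Fin n → ℝ) : MvPolynomial (Fin n) ℝ →ₗ[ℝ] ℝ :=
  ∑ i, ∑ j, ∑ k, (Z i j k / 6) •
    ((lcoeff ℝ (0 : Fin n →₀ ℕ)).comp
      ((pderiv i).toLinearMap.comp ((pderiv j).toLinearMap.comp (pderiv k).toLinearMap)))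

theorem Z3_apply (Z : Fin n → Fin n → Fin n → ℝ) (f : MvPolynomial (Fin n) ℝ) :
    Z3 Z f = ∑ i, ∑ j, ∑ k, (Z i j k / 6) * coeff 0 (pderiv i (pderiv j (pderiv k f))) := by
  simp only [Z3, LinearMap.sum_apply, LinearMap.smul_apply, LinearMap.comp_apply, smul_eq_mul]
  rfl

theorem pd3 (a b c i j k : Fin n) :
    coeff 0 (pderiv i (pderiv j (pderiv k (X a * X b * X c : MvPolynomial (Fin n) ℝ)))) =
      (if k = a then 1 else 0) * ((if j = b then 1 else 0) * (if i = c then 1 else 0)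
        + (if j = c then 1 else 0) * (if i = b then (1 : ℝ) else 0))
      + (if k = b then 1 else 0) * ((if j = a then 1 else 0) * (if i = c then 1 else 0)
        + (if j = c then 1 else 0) * (if i = a then (1 : ℝ) else 0))
      + (if k = c then 1 else 0) * ((if j = a then 1 else 0) * (if i = b then 1 else 0)
        + (if j = b then 1 else 0) * (if i = a then (1 : ℝ) else 0)) := by
  have h1 : pderiv k (X a * X b * X c : MvPolynomial (Fin n) ℝ)
      = C (if k = a then 1 else 0) * (X b * X c) + C (if k = b then 1 else 0) * (X a * X c)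
        + C (if k = c then 1 else 0) * (X a * X b) := by
    rw [pderiv_mul, pderiv_mul, Ext.pd1, Ext.pd1, Ext.pd1]
    ring
  rw [h1]
  simp only [map_add, pderiv_C_mul, coeff_add, coeff_C_mul, Ext.pd2, smul_eq_C_mul]

theorem Z3_XXX (Z : Fin n → Fin n → Fin n → ℝ) (hZ : EX.IsSym3 Z) (a b c : Fin n) :
    Z3 Z (X a * X b * X c) = Z a b c := by
  classical
  rw [Z3_apply]
  simp only [pd3]
  have key : ∀ (p r s : Fin n), ∑ i, ∑ j, ∑ k, Z i j k / 6 *
      ((if k = p then 1 else 0) * ((if j = r then 1 else 0) * (if i = s then (1 : ℝ) else 0)))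
      = Z s r p / 6 := by
    intro p r s
    simp
  have e : ∀ i j k : Fin n, Z i j k / 6 * ((if k = a then 1 else 0) *
        ((if j = b then 1 else 0) * (if i = c then 1 else 0)
        + (if j = c then 1 else 0) * (if i = b then (1 : ℝ) else 0))
      + (if k = b then 1 else 0) * ((if j = a then 1 else 0) * (if i = c then 1 else 0)
        + (if j = c then 1 else 0) * (if i = a then (1 : ℝ) else 0))
      + (if k = c then 1 else 0) * ((if j = a then 1 else 0) * (if i = b then 1 else 0)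
        + (if j = b then 1 else 0) * (if i = a then (1 : ℝ) else 0)))
      = Z i j k / 6 * ((if k = a then 1 else 0) *
          ((if j = b then 1 else 0) * (if i = c then (1 : ℝ) else 0)))
        + Z i j k / 6 * ((if k = a then 1 else 0) *
          ((if j = c then 1 else 0) * (if i = b then (1 : ℝ) else 0)))
        + Z i j k / 6 * ((if k = b then 1 else 0) *
          ((if j = a then 1 else 0) * (if i = c then (1 : ℝ) else 0)))
        + Z i j k / 6 * ((if k = b then 1 else 0) *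
          ((if j = c then 1 else 0) * (if i = a then (1 : ℝ) else 0)))
        + Z i j k / 6 * ((if k = c then 1 else 0) *
          ((if j = a then 1 else 0) * (if i = b then (1 : ℝ) else 0)))
        + Z i j k / 6 * ((if k = c then 1 else 0) *
          ((if j = b then 1 else 0) * (if i = a then (1 : ℝ) else 0))) := by
    intro i j k; ring
  simp only [e, Finset.sum_add_distrib, key]
  have h1 : Z b c a = Z a b c := by rw [(hZ b c a).2, (hZ b a c).1]
  have h2 : Z c b a = Z a b c := by rw [(hZ c b a).1, h1]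
  have h3 : Z c a b = Z a b c := by rw [(hZ c a b).1, (hZ a c b).2]
  have h4 : Z a c b = Z a b c := (hZ a c b).2
  have h5 : Z b a c = Z a b c := (hZ b a c).1
  rw [h1, h2, h3, h4, h5]
  ring

/-! ### quadratic forms as polynomials -/

/-- the quadratic form `uᵀ Q u`. -/
noncomputable def qf (Q : Matrix (Fin n) (Fin n) ℝ) : MvPolynomial (Fin n) ℝ :=
  ∑ j, ∑ k, C (Q j k) * (X j * X k)

theorem qf_homog (Q : Matrix (Fin n) (Fin n) ℝ) : (qf Q).IsHomogeneous 2 := by
  unfold qf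
  refine IsHomogeneous.sum _ _ _ fun j _ => IsHomogeneous.sum _ _ _ fun k _ => ?_
  have h1 : (X j * X k : MvPolynomial (Fin n) ℝ).IsHomogeneous (1 + 1) :=
    (isHomogeneous_X ℝ j).mul (isHomogeneous_X ℝ k)
  have := (isHomogeneous_C (Fin n) (Q j k)).mul h1
  simpa using this

theorem qf_eval (Q : Matrix (Fin n) (Fin n) ℝ) (u : Fin n → ℝ) :
    eval u (qf Q) = ∑ j, ∑ k, Q j k * (u j * u k) := by
  simp [qf]

theorem map_qf (L : MvPolynomial (Fin n) ℝ →ₗ[ℝ] ℝ) (Q : Matrix (Fin n) (Fin n) ℝ) :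
    L (qf Q) = ∑ j, ∑ k, Q j k * L (X j * X k) := by
  simp only [qf, map_sum, ← smul_eq_C_mul, map_smul, smul_eq_mul]

theorem map_X_qf (L : MvPolynomial (Fin n) ℝ →ₗ[ℝ] ℝ) (Q : Matrix (Fin n) (Fin n) ℝ) (i : Fin n) :
    L (X i * qf Q) = ∑ j, ∑ k, Q j k * L (X i * X j * X k) := by
  have : (X i * qf Q : MvPolynomial (Fin n) ℝ) = ∑ j, ∑ k, Q j k • (X i * X j * X k) := by
    simp only [qf, Finset.mul_sum]
    refine Finset.sum_congr rfl fun j _ => Finset.sum_congr rfl fun k _ => ?_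
    rw [smul_eq_C_mul]; ring
  rw [this]
  simp only [map_sum, map_smul, smul_eq_mul]

/-! ### the moment vector -/

variable (q : Fin d → Matrix (Fin n) (Fin n) ℝ)

/-- the polynomials whose values are the coordinates of the model. -/
noncomputable def zP : Fin (Model.mm n) → MvPolynomial (Fin n) ℝ := fun i =>
  Sum.elim (fun _ => 1) (Sum.elim X (Sum.elim (fun p => X p.1 * X p.2)
    (Sum.elim (fun p => X p.1 * X p.2.1 * X p.2.2)
      (fun _ => ∑ a, qf (q a) * qf (q a))))) ((Model.nu n).symm i)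

/-- the point of the model given by a functional -/
theorem map_zP (L : MvPolynomial (Fin n) ℝ →ₗ[ℝ] ℝ) :
    (fun i => L (zP q i)) = Model.pt (L 1) (fun i => L (X i)) (fun i j => L (X i * X j))
      (fun i j k => L (X i * X j * X k)) (∑ a, L (qf (q a) * qf (q a))) := by
  funext i
  unfold zP Model.pt
  rcases (Model.nu n).symm i with ⟨⟩ | i | ⟨i, j⟩ | ⟨i, j, k⟩ | ⟨⟩ <;> simp [map_sum]

theorem eval_zP (u : Fin n → ℝ) : (fun i => eval u (zP q i)) = Model.z q u := by
  funext i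
  unfold zP Model.z Model.pt
  rcases (Model.nu n).symm i with ⟨⟩ | i | ⟨i, j⟩ | ⟨i, j, k⟩ | ⟨⟩ <;> simp [qf_eval, sq]

theorem zP_deg (i : Fin (Model.mm n)) : (zP q i).totalDegree ≤ 4 := by
  unfold zP
  have hX : ∀ i : Fin n, (X i : MvPolynomial (Fin n) ℝ).totalDegree ≤ 1 := fun i => by
    exact (totalDegree_X (R := ℝ) i).le
  rcases (Model.nu n).symm i with ⟨⟩ | i | ⟨i, j⟩ | ⟨i, j, k⟩ | ⟨⟩
  · simp
  · exact (hX i).trans (by norm_num)
  · refine (totalDegree_mul _ _).trans ?_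
    have h1 := hX i; have h2 := hX j
    show (X i : MvPolynomial (Fin n) ℝ).totalDegree + (X j : MvPolynomial (Fin n) ℝ).totalDegree ≤ 4
    omega
  · refine (totalDegree_mul _ _).trans ?_
    have h0 := totalDegree_mul (X i : MvPolynomial (Fin n) ℝ) (X j)
    have h1 := hX i; have h2 := hX j; have h3 := hX k
    show (X i * X j : MvPolynomial (Fin n) ℝ).totalDegree
      + (X k : MvPolynomial (Fin n) ℝ).totalDegree ≤ 4
    omega
  · show (∑ a, qf (q a) * qf (q a)).totalDegree ≤ 4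
    refine (totalDegree_finset_sum _ _).trans ?_
    refine Finset.sup_le fun a _ => ?_
    refine (totalDegree_mul _ _).trans ?_
    have := (qf_homog (q a)).totalDegree_le
    omega

theorem zP_good {r : ℕ} {v : Fin r → Fin n → ℝ} (hv : ∀ a k, eval (v k) (qf (q a)) = 0)
    (i : Fin (Model.mm n)) : zP q i ∈ Ext.Good v := by
  unfold zP
  have hX : ∀ i : Fin n, (X i : MvPolynomial (Fin n) ℝ).totalDegree ≤ 1 := fun i => by
    exact (totalDegree_X (R := ℝ) i).le
  rcases (Model.nu n).symm i with ⟨⟩ | i | ⟨i, j⟩ | ⟨i, j, k⟩ | ⟨⟩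
  · exact Ext.Good_of_deg (by simp)
  · exact Ext.Good_of_deg ((hX i).trans (by norm_num))
  · refine Ext.Good_of_deg ((totalDegree_mul _ _).trans ?_)
    have h1 := hX i; have h2 := hX j
    show (X i : MvPolynomial (Fin n) ℝ).totalDegree + (X j : MvPolynomial (Fin n) ℝ).totalDegree ≤ 3
    omega
  · refine Ext.Good_of_deg ((totalDegree_mul _ _).trans ?_)
    have h0 := totalDegree_mul (X i : MvPolynomial (Fin n) ℝ) (X j)
    have h1 := hX i; have h2 := hX j; have h3 := hX k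
    show (X i * X j : MvPolynomial (Fin n) ℝ).totalDegree
      + (X k : MvPolynomial (Fin n) ℝ).totalDegree ≤ 3
    omega
  · show (∑ a, qf (q a) * qf (q a)) ∈ Ext.Good v
    refine Submodule.sum_mem _ fun a _ => ?_
    exact Ext.Good_of_mul (Ext.mem_VV_of (qf_homog _) (hv a)) (Ext.mem_VV_of (qf_homog _) (hv a))

end Crest.Agent.R237.Asm
end

-- ▼ part R237/AsmLin
section

/-!
Row 237, assembly part (helper432): linear algebra of the centred flat functional.
`ext1 P` is the `(n+1) × (n+1)` matrix `diag(1, P)` with index `0` first.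
-/

set_option autoImplicit false

namespace Crest.Agent.R237.Asm
open Matrix

variable {n d : ℕ}

/-- `diag(1, P)` indexed by `Fin (n+1)`. -/
def ext1 (P : Matrix (Fin n) (Fin n) ℝ) : Matrix (Fin (n + 1)) (Fin (n + 1)) ℝ :=
  fun i j => Fin.cases (Fin.cases 1 (fun _ => 0) j) (fun i' => Fin.cases 0 (fun j' => P i' j') j) i

@[simp] theorem ext1_00 (P : Matrix (Fin n) (Fin n) ℝ) : ext1 P 0 0 = 1 := rfl
@[simp] theorem ext1_0s (P : Matrix (Fin n) (Fin n) ℝ) (j : Fin n) : ext1 P 0 j.succ = 0 := rfl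
@[simp] theorem ext1_s0 (P : Matrix (Fin n) (Fin n) ℝ) (i : Fin n) : ext1 P i.succ 0 = 0 := rfl
@[simp] theorem ext1_ss (P : Matrix (Fin n) (Fin n) ℝ) (i j : Fin n) :
    ext1 P i.succ j.succ = P i j := rfl

theorem ext1_mul (P Q : Matrix (Fin n) (Fin n) ℝ) : ext1 P * ext1 Q = ext1 (P * Q) := by
  ext i j
  rw [Matrix.mul_apply, Fin.sum_univ_succ]
  refine Fin.cases ?_ (fun i' => ?_) i <;> refine Fin.cases ?_ (fun j' => ?_) j <;>
    simp [Matrix.mul_apply]

theorem ext1_one : ext1 (1 : Matrix (Fin n) (Fin n) ℝ) = 1 := by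
  ext i j
  refine Fin.cases ?_ (fun i' => ?_) i <;> refine Fin.cases ?_ (fun j' => ?_) j
  · simp
  · simp [(Fin.succ_ne_zero j').symm]
  · simp [(Fin.succ_ne_zero i')]
  · simp [Matrix.one_apply]

theorem ext1_inv (P : Matrix (Fin n) (Fin n) ℝ) (hP : IsUnit P.det) :
    (ext1 P)⁻¹ = ext1 P⁻¹ := by
  apply Matrix.inv_eq_right_inv
  rw [ext1_mul, Matrix.mul_nonsing_inv _ hP, ext1_one]

theorem ext1_posDef (P : Matrix (Fin n) (Fin n) ℝ) (hP : P.PosDef) : (ext1 P).PosDef := by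
  have hPs : P.IsSymm := by
    have := hP.1
    rwa [IsHermitian, conjTranspose_eq_transpose_of_trivial] at this
  have hPs' : ∀ i j, P j i = P i j := fun i j => by
    have := congrFun (congrFun hPs.eq i) j
    simpa using this
  refine PosDef.of_dotProduct_mulVec_pos ?_ ?_
  · rw [IsHermitian, conjTranspose_eq_transpose_of_trivial]
    ext i j
    rw [Matrix.transpose_apply]
    refine Fin.cases ?_ (fun i' => ?_) i <;> refine Fin.cases ?_ (fun j' => ?_) j <;>
      simp [hPs']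
  · intro x hx
    have h1 : star x ⬝ᵥ ext1 P *ᵥ x = x 0 ^ 2 + (fun i : Fin n => x i.succ) ⬝ᵥ
        P *ᵥ (fun i : Fin n => x i.succ) := by
      simp only [dotProduct, Matrix.mulVec, star_trivial, Fin.sum_univ_succ, ext1_00, ext1_0s,
        ext1_s0, ext1_ss, zero_mul, Finset.sum_const_zero, add_zero, one_mul, zero_add]
      ring
    rw [h1]
    by_cases h0 : x 0 = 0
    · have h2 : (fun i : Fin n => x i.succ) ≠ 0 := by
        intro h
        apply hx
        funext i
        refine Fin.cases h0 (fun i' => ?_) i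
        exact congrFun h i'
      have h3 := hP.dotProduct_mulVec_pos h2
      rw [star_trivial] at h3
      rw [h0]; positivity
    · have h3 := hP.posSemidef.dotProduct_mulVec_nonneg (fun i : Fin n => x i.succ)
      rw [star_trivial] at h3
      positivity


theorem low_ext1_mul (P : Matrix (Fin n) (Fin n) ℝ) (T : Matrix (Fin (n + 1)) (Fin d) ℝ) :
    (ext1 P * T).submatrix Fin.succ id = P * T.submatrix Fin.succ id := by
  ext i a
  simp [Matrix.mul_apply, Fin.sum_univ_succ]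

theorem trace_ext1 (P : Matrix (Fin n) (Fin n) ℝ) (T : Matrix (Fin (n + 1)) (Fin d) ℝ) :
    (Tᵀ * ext1 P * T).trace
      = ∑ a, ((T 0 a) ^ 2 + ∑ i : Fin n, ∑ j : Fin n, P i j * (T i.succ a * T j.succ a)) := by
  rw [Matrix.trace]
  refine Finset.sum_congr rfl fun a _ => ?_
  rw [Matrix.diag_apply, Matrix.mul_apply, Fin.sum_univ_succ]
  have h0 : (Tᵀ * ext1 P) a 0 = T 0 a := by
    simp [Matrix.mul_apply, Fin.sum_univ_succ]
  have h1 : ∀ j : Fin n, (Tᵀ * ext1 P) a j.succ = ∑ i : Fin n, T i.succ a * P i j := by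
    intro j
    simp [Matrix.mul_apply, Fin.sum_univ_succ]
  rw [h0]
  congr 1
  · ring
  · rw [Finset.sum_comm]
    refine Finset.sum_congr rfl fun j _ => ?_
    rw [h1, Finset.sum_mul]
    refine Finset.sum_congr rfl fun i _ => by ring

theorem lowTr_ext1 (P : Matrix (Fin n) (Fin n) ℝ) : lowTr (ext1 P) = P.trace := by
  simp [lowTr, Matrix.trace]

/-- The value of `F` at a centred flat point. -/
theorem F_flat {m : ℕ} (D : HData m n d) (x : Fin m → ℝ) (Sig : Matrix (Fin n) (Fin n) ℝ)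
    (hS : Sig.PosDef) (hM : D.M x = ext1 Sig) (Zt : Matrix (Fin n) (Fin d) ℝ)
    (hTs : ∀ i a, D.T x i.succ a = Zt i a)
    (hw : D.w x = ∑ a, ((D.T x 0 a) ^ 2 + ∑ i, ∑ j, Sig⁻¹ i j * (Zt i a * Zt j a))) :
    (D.M x).PosDef ∧ D.F x = D.Xi (Sig⁻¹ * Zt) (Sig⁻¹ * Zt) / (Sig⁻¹).trace := by
  have hdet : IsUnit Sig.det := (Matrix.isUnit_iff_isUnit_det _).1 hS.isUnit
  refine ⟨by rw [hM]; exact ext1_posDef _ hS, ?_⟩
  have hTs' : (D.T x).submatrix Fin.succ id = Zt := by
    ext i a; exact hTs i a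
  unfold HData.F HData.lin
  rw [hM, ext1_inv _ hdet, low_ext1_mul, hTs', trace_ext1, hw, lowTr_ext1]
  simp only [hTs]
  ring

end Crest.Agent.R237.Asm
end

-- ▼ part R237/AsmFlat
section

/-!
Row 237, assembly part (helper432): the exotic point `x̂`.
-/

set_option autoImplicit false

namespace Crest.Agent.R237.Asm
open MvPolynomial Matrix

variable {n d r : ℕ} (q : Fin d → Matrix (Fin n) (Fin n) ℝ)

theorem M_of_map (L : MvPolynomial (Fin n) ℝ →ₗ[ℝ] ℝ) (h1 : L 1 = 1) (hX : ∀ i, L (X i) = 0)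
    (Sig : Matrix (Fin n) (Fin n) ℝ) (h2 : ∀ i j, L (X i * X j) = Sig i j) :
    Model.M (fun i => L (zP q i)) = ext1 Sig := by
  have hs : ∀ i j, Sig i j = Sig j i := fun i j => by rw [← h2, ← h2, mul_comm]
  rw [map_zP]
  ext i j
  refine Fin.cases ?_ (fun i' => ?_) i <;> refine Fin.cases ?_ (fun j' => ?_) j
  · simp [h1]
  · simp [hX]
  · simp [hX]
  · simp only [Model.M_ss, Model.s2_apply, Model.a2_pt, ext1_ss, h2, hs j' i']
    ring

theorem T0_of_map (L : MvPolynomial (Fin n) ℝ →ₗ[ℝ] ℝ) (a : Fin d) :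
    Model.T q (fun i => L (zP q i)) 0 a = L (qf (q a)) := by
  rw [Model.T_0, Model.T0_apply, map_qf, map_zP]
  refine Finset.sum_congr rfl fun j _ => Finset.sum_congr rfl fun k _ => ?_
  rw [Model.s2_apply, Model.a2_pt, Model.a2_pt, mul_comm (X k) (X j)]
  ring

theorem Ts_of_map (L : MvPolynomial (Fin n) ℝ →ₗ[ℝ] ℝ) (i : Fin n) (a : Fin d) :
    Model.T q (fun i => L (zP q i)) i.succ a = L (X i * qf (q a)) := by
  rw [Model.T_s, Model.T1_apply, map_X_qf, map_zP]
  refine Finset.sum_congr rfl fun j _ => Finset.sum_congr rfl fun k _ => ?_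
  rw [Model.s3_apply]
  simp only [Model.a3_pt]
  have e1 : (X i * X k * X j : MvPolynomial (Fin n) ℝ) = X i * X j * X k := by ring
  have e2 : (X j * X i * X k : MvPolynomial (Fin n) ℝ) = X i * X j * X k := by ring
  have e3 : (X j * X k * X i : MvPolynomial (Fin n) ℝ) = X i * X j * X k := by ring
  have e4 : (X k * X i * X j : MvPolynomial (Fin n) ℝ) = X i * X j * X k := by ring
  have e5 : (X k * X j * X i : MvPolynomial (Fin n) ℝ) = X i * X j * X k := by ring
  rw [e1, e2, e3, e4, e5]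
  ring

theorem w_of_map (L : MvPolynomial (Fin n) ℝ →ₗ[ℝ] ℝ) :
    Model.aw (fun i => L (zP q i)) = ∑ a, L (qf (q a) * qf (q a)) := by
  rw [map_zP, Model.aw_pt]

theorem X_qf_homog (i : Fin n) (a : Fin d) : (X i * qf (q a)).IsHomogeneous 3 := by
  have := (isHomogeneous_X ℝ i).mul (qf_homog (q a))
  simpa using this

/-- The exotic functional and its data. -/
theorem exists_flat (v : Fin r → Fin n → ℝ)
    (hspan : ∀ g : MvPolynomial (Fin n) ℝ, g.IsHomogeneous 2 → (∀ k, eval (v k) g = 0) →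
      g ∈ Submodule.span ℝ (Set.range fun a => qf (q a)))
    (hfree : ∀ W : Matrix (Fin d) (Fin d) ℝ, W.IsSymm →
      ∃ T : MvPolynomial (Fin n) ℝ →ₗ[ℝ] ℝ, ∀ a b, T (qf (q a) * qf (q b)) = W a b)
    (P : Matrix (Fin n) (Fin n) ℝ) (hP : P.PosDef) (Z : Fin n → Fin n → Fin n → ℝ)
    (hZ : EX.IsSym3 Z) :
    ∃ L : MvPolynomial (Fin n) ℝ →ₗ[ℝ] ℝ, L 1 = 1 ∧
      (∀ f ∈ Ext.VV v, 0 ≤ L (f * f)) ∧
      Model.M (fun i => L (zP q i)) = ext1 P⁻¹ ∧
      (∀ i a, Model.T q (fun i => L (zP q i)) (Fin.succ i) a = EX.zeta q Z i a) ∧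
      Model.aw (fun i => L (zP q i)) = ∑ a, ((Model.T q (fun i => L (zP q i)) 0 a) ^ 2
        + ∑ i, ∑ j, P i j * (EX.zeta q Z i a * EX.zeta q Z j a)) := by
  have hdet : IsUnit P.det := (Matrix.isUnit_iff_isUnit_det _).1 hP.isUnit
  obtain ⟨L, h1, hX, h2, h3, h4, h5⟩ := Ext.flat_functional v (fun a => qf (q a))
    (fun a => qf_homog (q a)) hspan hfree P⁻¹ hP.inv (Z3 Z)
  have hz : ∀ i a, Z3 Z (X i * qf (q a)) = EX.zeta q Z i a := by
    intro i a
    rw [map_X_qf]
    simp only [EX.zeta, Matrix.of_apply, Z3_XXX Z hZ]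
  have hTs : ∀ i a, Model.T q (fun i => L (zP q i)) (Fin.succ i) a = EX.zeta q Z i a := by
    intro i a
    rw [Ts_of_map, h3 _ (X_qf_homog q i a), hz]
  refine ⟨L, h1, h5, M_of_map q L h1 hX _ h2, hTs, ?_⟩
  rw [w_of_map]
  refine Finset.sum_congr rfl fun a _ => ?_
  rw [h4, T0_of_map, Matrix.nonsing_inv_nonsing_inv _ hdet]
  simp only [hz]
  ring

end Crest.Agent.R237.Asm
end

-- ▼ part R237/Model2
section

/-!
Row 237 (S0367): the concrete model, part 2 (helper756): dilations, the moment points `z u`,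
the base point `e`, and all facts on `K0` and its closure.
-/

set_option autoImplicit false

namespace Crest.Agent.R237.Model

open Matrix

variable {n d : ℕ} (q : Fin d → Matrix (Fin n) (Fin n) ℝ)

/-! ### Dilations -/

/-- dilation `u ↦ s u` on functionals -/
noncomputable def dil (s : ℝ) : (Fin (mm n) → ℝ) →ₗ[ℝ] (Fin (mm n) → ℝ) :=
  ptL a0 (fun i => s • a1 i) (fun i j => s ^ 2 • a2 i j) (fun i j k => s ^ 3 • a3 i j k)
    (s ^ 4 • aw)

section dilLemmas
variable (s : ℝ) (x : Fin (mm n) → ℝ)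

theorem a0_dil : a0 (dil s x) = a0 x := by simp [dil]
theorem a1_dil (i : Fin n) : a1 i (dil s x) = s * a1 i x := by simp [dil]
theorem s2_dil (i j : Fin n) : s2 i j (dil s x) = s ^ 2 * s2 i j x := by
  simp only [s2_apply, dil, ptL_apply, a2_pt, LinearMap.smul_apply, smul_eq_mul]
  ring
theorem s3_dil (i j k : Fin n) : s3 i j k (dil s x) = s ^ 3 * s3 i j k x := by
  simp only [s3_apply, dil, ptL_apply, a3_pt, LinearMap.smul_apply, smul_eq_mul]
  ring
theorem aw_dil : aw (dil s x) = s ^ 4 * aw x := by simp [dil]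

theorem isDil : Inv.IsDil s (M x) (M (dil s x)) (T q x) (T q (dil s x)) (aw x)
    (aw (dil s x)) where
  hM := by
    unfold Inv.Ds
    ext i j
    rw [Matrix.mul_diagonal, Matrix.diagonal_mul]
    refine Fin.cases ?_ (fun i' => ?_) i <;> refine Fin.cases ?_ (fun j' => ?_) j
    · simp [a0_dil]
    · simp [a1_dil, mul_comm]
    · simp [a1_dil]
    · simp [s2_dil]
      ring
  hT := by
    unfold Inv.Ds
    ext i a
    rw [Matrix.smul_apply, Matrix.diagonal_mul, smul_eq_mul]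
    refine Fin.cases ?_ (fun i' => ?_) i
    · simp only [T_0, T0_apply, s2_dil, Fin.cases_zero, one_mul]
      rw [Finset.mul_sum]
      refine Finset.sum_congr rfl fun j _ => ?_
      rw [Finset.mul_sum]
      refine Finset.sum_congr rfl fun k _ => ?_
      ring
    · simp only [T_s, T1_apply, s3_dil, Fin.cases_succ]
      rw [← mul_assoc, Finset.mul_sum]
      refine Finset.sum_congr rfl fun j _ => ?_
      rw [Finset.mul_sum]
      refine Finset.sum_congr rfl fun k _ => ?_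
      ring
  hw := aw_dil s x

end dilLemmas

/-! ### The moment points -/

/-- value of the quadratic form `q_a` -/
noncomputable def qv (u : Fin n → ℝ) (a : Fin d) : ℝ := ∑ j, ∑ k, q a j k * (u j * u k)

/-- `(1,u)` -/
def uh (u : Fin n → ℝ) : Fin (n + 1) → ℝ := Fin.cons 1 u

@[simp] theorem uh_0 (u : Fin n → ℝ) : uh u 0 = 1 := rfl
@[simp] theorem uh_s (u : Fin n → ℝ) (i : Fin n) : uh u i.succ = u i := rfl

section zLemmas
variable (u : Fin n → ℝ)

theorem a0_z : a0 (z q u) = 1 := by simp [z]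
theorem a1_z (i : Fin n) : a1 i (z q u) = u i := by simp [z]
theorem s2_z (i j : Fin n) : s2 i j (z q u) = u i * u j := by
  simp only [s2_apply, z, a2_pt]; ring
theorem s3_z (i j k : Fin n) : s3 i j k (z q u) = u i * u j * u k := by
  simp only [s3_apply, z, a3_pt]; ring
theorem aw_z : aw (z q u) = ∑ a, (qv q u a) ^ 2 := by simp [z, qv]

theorem M_z (i j : Fin (n+1)) : M (z q u) i j = uh u i * uh u j := by
  refine Fin.cases ?_ (fun i' => ?_) i <;> refine Fin.cases ?_ (fun j' => ?_) j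
  · simp [a0_z]
  · simp [a1_z]
  · simp [a1_z]
  · simp [s2_z]

theorem T_z (i : Fin (n+1)) (a : Fin d) : T q (z q u) i a = uh u i * qv q u a := by
  refine Fin.cases ?_ (fun i' => ?_) i
  · simp only [T_0, T0_apply, s2_z, uh_0, one_mul, qv]
  · simp only [T_s, T1_apply, s3_z, uh_s, qv]
    rw [Finset.mul_sum]
    refine Finset.sum_congr rfl fun j _ => ?_
    rw [Finset.mul_sum]
    refine Finset.sum_congr rfl fun k _ => ?_
    ring

theorem qv_add (hq : ∀ a, (q a).IsSymm) (b : Fin n → ℝ) (a : Fin d) :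
    qv q (u + b) a = qv q u a + ∑ i, uh u i * R q b i a := by
  have hqs : ∀ j k, q a j k = q a k j := fun j k => (hq a).apply k j
  rw [Fin.sum_univ_succ]
  simp only [uh_0, one_mul, uh_s, R_0, R_s, qv, Matrix.mulVec, dotProduct, Pi.add_apply]
  have e1 : ∑ j, ∑ k, q a j k * ((u j + b j) * (u k + b k)) =
      (∑ j, ∑ k, q a j k * (u j * u k)) + (∑ j, ∑ k, q a j k * (b j * b k)) +
      (∑ j, ∑ k, q a j k * (u j * b k)) + (∑ j, ∑ k, q a j k * (b j * u k)) := by
    simp only [← Finset.sum_add_distrib]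
    refine Finset.sum_congr rfl fun j _ => Finset.sum_congr rfl fun k _ => ?_
    ring
  have e2 : ∑ j, ∑ k, q a j k * (b j * u k) = ∑ j, ∑ k, q a j k * (u j * b k) := by
    rw [Finset.sum_comm]
    refine Finset.sum_congr rfl fun j _ => Finset.sum_congr rfl fun k _ => ?_
    rw [hqs k j]; ring
  have e3 : ∑ j, u j * (2 * ∑ k, q a j k * b k) = 2 * ∑ j, ∑ k, q a j k * (u j * b k) := by
    rw [Finset.mul_sum]
    refine Finset.sum_congr rfl fun j _ => ?_
    rw [Finset.mul_sum, Finset.mul_sum, Finset.mul_sum]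
    refine Finset.sum_congr rfl fun k _ => ?_
    ring
  rw [e1, e2, e3]
  ring

theorem trans_z (hq : ∀ a, (q a).IsSymm) (b : Fin n → ℝ) :
    trans q b (z q u) = z q (u + b) := by
  refine ext_coord ?_ ?_ ?_ ?_ ?_
  · rw [a0_trans, a0_z, a0_z]
  · intro i
    rw [a1_trans, a1_z, a0_z, a1_z]
    simp
  · intro i j
    have : a2 i j (trans q b (z q u)) = s2 i j (z q u) + b j * a1 i (z q u) +
        b i * a1 j (z q u) + (b i * b j) * a0 (z q u) := by
      simp [trans]
    rw [this, s2_z, a1_z, a1_z, a0_z]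
    simp only [z, a2_pt, Pi.add_apply]
    ring
  · intro i j k
    have : a3 i j k (trans q b (z q u)) = s3 i j k (z q u) + b k * s2 i j (z q u) +
        b j * s2 i k (z q u) + b i * s2 j k (z q u) + (b j * b k) * a1 i (z q u) +
        (b i * b k) * a1 j (z q u) + (b i * b j) * a1 k (z q u) +
        (b i * b j * b k) * a0 (z q u) := by
      simp [trans]
    rw [this, s3_z, s2_z, s2_z, s2_z, a1_z, a1_z, a1_z, a0_z]
    simp only [z, a3_pt, Pi.add_apply]
    ring
  · rw [aw_trans, wT_apply, aw_z, aw_z]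
    have e1 : ((R q b)ᵀ * T q (z q u)).trace = ∑ a, (∑ i, uh u i * R q b i a) * qv q u a := by
      simp only [Matrix.trace, Matrix.diag_apply, Matrix.mul_apply, Matrix.transpose_apply, T_z]
      refine Finset.sum_congr rfl fun a _ => ?_
      rw [Finset.sum_mul]
      refine Finset.sum_congr rfl fun i _ => ?_
      ring
    have e2 : ((R q b)ᵀ * M (z q u) * R q b).trace = ∑ a, (∑ i, uh u i * R q b i a) ^ 2 := by
      simp only [Matrix.trace, Matrix.diag_apply, Matrix.mul_apply, Matrix.transpose_apply, M_z]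
      refine Finset.sum_congr rfl fun a _ => ?_
      rw [sq, Finset.sum_mul_sum, Finset.sum_comm]
      refine Finset.sum_congr rfl fun j _ => ?_
      rw [Finset.sum_mul]
      refine Finset.sum_congr rfl fun i _ => ?_
      ring
    rw [e1, e2, Finset.mul_sum, ← Finset.sum_add_distrib, ← Finset.sum_add_distrib]
    refine Finset.sum_congr rfl fun a _ => ?_
    rw [qv_add q u hq b a]
    ring

theorem dil_z (s : ℝ) : dil s (z q u) = z q (s • u) := by
  refine ext_coord ?_ ?_ ?_ ?_ ?_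
  · rw [a0_dil, a0_z, a0_z]
  · intro i
    rw [a1_dil, a1_z, a1_z]
    simp
  · intro i j
    simp only [dil, ptL_apply, z, a2_pt, LinearMap.smul_apply, smul_eq_mul, Pi.smul_apply]
    ring
  · intro i j k
    simp only [dil, ptL_apply, z, a3_pt, LinearMap.smul_apply, smul_eq_mul, Pi.smul_apply]
    ring
  · rw [aw_dil, aw_z, aw_z, Finset.mul_sum]
    refine Finset.sum_congr rfl fun a _ => ?_
    have : qv q (s • u) a = s ^ 2 * qv q u a := by
      simp only [qv, Pi.smul_apply, smul_eq_mul]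
      rw [Finset.mul_sum]
      refine Finset.sum_congr rfl fun j _ => ?_
      rw [Finset.mul_sum]
      refine Finset.sum_congr rfl fun k _ => ?_
      ring
    rw [this]
    ring

end zLemmas

/-- the map sending `z (b + s u)` to `z u` -/
noncomputable def gmap (b : Fin n → ℝ) (s : ℝ) : (Fin (mm n) → ℝ) →ₗ[ℝ] (Fin (mm n) → ℝ) :=
  dil s⁻¹ ∘ₗ trans q (-b)

theorem gmap_z (hq : ∀ a, (q a).IsSymm) (b : Fin n → ℝ) (s : ℝ) (hs : s ≠ 0)
    (u : Fin n → ℝ) : gmap q b s (z q (b + s • u)) = z q u := by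
  unfold gmap
  rw [LinearMap.comp_apply, trans_z q _ hq, dil_z]
  congr 1
  funext i
  simp only [Pi.smul_apply, Pi.add_apply, Pi.neg_apply, smul_eq_mul]
  field_simp
  ring

theorem dil_bound (s : ℝ) (hs : 0 < s) (hs1 : s ≤ 1) (x : Fin (mm n) → ℝ) :
    ‖dil s⁻¹ x‖ ≤ (s⁻¹) ^ 4 * ‖x‖ := by
  have h1 : 1 ≤ s⁻¹ := (one_le_inv₀ hs).2 hs1
  have hp : ∀ k : ℕ, k ≤ 4 → (s⁻¹) ^ k ≤ (s⁻¹) ^ 4 := fun k hk => pow_le_pow_right₀ h1 hk
  rw [pi_norm_le_iff_of_nonneg (by positivity)]
  intro i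
  obtain ⟨k, rfl⟩ := (nu n).surjective i
  have hx : ∀ j, ‖x j‖ ≤ ‖x‖ := norm_le_pi_norm x
  have gen : ∀ (k : ℕ) (j : Fin (mm n)), k ≤ 4 → ‖(s⁻¹) ^ k * x j‖ ≤ (s⁻¹) ^ 4 * ‖x‖ := by
    intro k j hk
    rw [norm_mul, Real.norm_of_nonneg (by positivity)]
    exact mul_le_mul (hp k hk) (hx j) (norm_nonneg _) (by positivity)
  rcases k with ⟨⟩ | i | ⟨i, j⟩ | ⟨i, j, k⟩ | ⟨⟩
  · have h := gen 0 (nu n (Sum.inl ())) (by norm_num)
    rw [pow_zero, one_mul] at h
    have e : dil s⁻¹ x (nu n (Sum.inl ())) = x (nu n (Sum.inl ())) := a0_dil s⁻¹ x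
    rw [e]; exact h
  · have h := gen 1 (nu n (Sum.inr (Sum.inl i))) (by norm_num)
    rw [pow_one] at h
    have e : dil s⁻¹ x (nu n (Sum.inr (Sum.inl i))) = s⁻¹ * x (nu n (Sum.inr (Sum.inl i))) :=
      a1_dil s⁻¹ x i
    rw [e]; exact h
  · have h := gen 2 (nu n (Sum.inr (Sum.inr (Sum.inl (i, j))))) (by norm_num)
    have e : a2 i j (dil s⁻¹ x) = (s⁻¹) ^ 2 * a2 i j x := by simp [dil]
    have e' : dil s⁻¹ x (nu n (Sum.inr (Sum.inr (Sum.inl (i, j))))) =
      (s⁻¹) ^ 2 * x (nu n (Sum.inr (Sum.inr (Sum.inl (i, j))))) := e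
    rw [e']; exact h
  · have h := gen 3 (nu n (Sum.inr (Sum.inr (Sum.inr (Sum.inl (i, j, k)))))) (by norm_num)
    have e : a3 i j k (dil s⁻¹ x) = (s⁻¹) ^ 3 * a3 i j k x := by simp [dil]
    have e' : dil s⁻¹ x (nu n (Sum.inr (Sum.inr (Sum.inr (Sum.inl (i, j, k)))))) =
      (s⁻¹) ^ 3 * x (nu n (Sum.inr (Sum.inr (Sum.inr (Sum.inl (i, j, k)))))) := e
    rw [e']; exact h
  · have h := gen 4 (nu n (Sum.inr (Sum.inr (Sum.inr (Sum.inr ()))))) (by norm_num)
    have e : aw (dil s⁻¹ x) = (s⁻¹) ^ 4 * aw x := aw_dil s⁻¹ x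
    have e' : dil s⁻¹ x (nu n (Sum.inr (Sum.inr (Sum.inr (Sum.inr ()))))) =
      (s⁻¹) ^ 4 * x (nu n (Sum.inr (Sum.inr (Sum.inr (Sum.inr ()))))) := e
    rw [e']; exact h

/-- norm bound for `gmap`: `‖g_{b,s} x‖ ≤ C s⁻⁴` with `C = ‖trans (-b) x‖` -/
theorem gmap_bound (b : Fin n → ℝ) (s : ℝ) (hs : 0 < s) (hs1 : s ≤ 1) (x : Fin (mm n) → ℝ) :
    ‖gmap q b s x‖ ≤ (s⁻¹) ^ 4 * ‖trans q (-b) x‖ := dil_bound s hs hs1 _

/-! ### The base point -/

/-- the base point `e` -/
noncomputable def e : Fin (mm n) → ℝ :=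
  pt 1 0 (fun i j => if i = j then 1 else 0) (fun _ _ _ => 0)
    (∑ a : Fin d, (∑ j, q a j j) ^ 2 + 1)

theorem s2_e (i j : Fin n) : s2 i j (e q) = if i = j then 1 else 0 := by
  simp only [s2_apply, e, a2_pt]
  by_cases h : i = j
  · subst h; simp
  · rw [if_neg h, if_neg (Ne.symm h)]; simp

theorem M_e : M (e q) = 1 := by
  ext i j
  refine Fin.cases ?_ (fun i' => ?_) i <;> refine Fin.cases ?_ (fun j' => ?_) j
  · simp [e]
  · rw [M_0s, Matrix.one_apply_ne (Fin.succ_ne_zero j').symm]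
    simp [e]
  · rw [M_s0, Matrix.one_apply_ne (Fin.succ_ne_zero i')]
    simp [e]
  · rw [M_ss, s2_e, Matrix.one_apply]
    simp [Fin.succ_inj]

theorem T_e_succ (i : Fin n) (a : Fin d) : T q (e q) i.succ a = 0 := by
  rw [T_s, T1_apply]
  simp [s3_apply, e]

theorem T_e_zero (a : Fin d) : T q (e q) 0 a = ∑ j, q a j j := by
  rw [T_0, T0_apply]
  refine Finset.sum_congr rfl fun j _ => ?_
  simp [s2_e]

theorem aw_e : aw (e q) = ∑ a : Fin d, (∑ j, q a j j) ^ 2 + 1 := by simp [e]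

theorem w_e : ∑ a, (T q (e q) 0 a) ^ 2 < aw (e q) := by
  rw [aw_e]
  simp only [T_e_zero]
  linarith

end Crest.Agent.R237.Model
end

-- ▼ part R237/Model3
section

/-!
Row 237 (S0367): the concrete model, part 3 (helper756): facts on `K0` and its closure.
`D` is any `HData` whose `M`, `T`, `w` are those of the model.
-/

set_option autoImplicit false

namespace Crest.Agent.R237.Model

open Matrix

variable {n d : ℕ} (q : Fin d → Matrix (Fin n) (Fin n) ℝ)

/-- `D` lives on the model. -/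
structure OnModel (D : HData (mm n) n d) : Prop where
  hM : D.M = M
  hT : D.T = T q
  hw : D.w = aw
  hshift : ∀ X Y y, D.Xi (X + Res.shift q y) Y = D.Xi X Y

section

variable {q} {D : HData (mm n) n d}

theorem F_eq_Fm (x : Fin (mm n) → ℝ) :
    D.F x = Inv.Fm D.phi (fun X => D.Xi X X) (D.M x) (D.T x) (D.w x) := rfl

theorem isUnit_det_of_posDef {N : Type} [Fintype N] [DecidableEq N] {A : Matrix N N ℝ}
    (hA : A.PosDef) : IsUnit A.det := isUnit_iff_ne_zero.mpr hA.det_pos.ne'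

/-- translations preserve `K0` -/
theorem trans_K0 (h : OnModel q D) (hq : ∀ a, (q a).IsSymm) (b : Fin n → ℝ)
    {x : Fin (mm n) → ℝ} (hx : x ∈ D.K0) : trans q b x ∈ D.K0 := by
  have ht := isTrans q hq b x
  obtain ⟨h1, h2⟩ := hx
  rw [F_eq_Fm, h.hM, h.hT, h.hw] at h2
  rw [h.hM] at h1
  refine ⟨?_, ?_⟩
  · rw [h.hM]
    exact ht.posDef h1
  · rw [F_eq_Fm, h.hM, h.hT, h.hw]
    rw [ht.Fm (isUnit_det_of_posDef h1) (M_symm x)]
    · exact h2
    · intro X
      rw [R_low, h.hshift, D.Xi_symm, h.hshift]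

/-- dilations preserve `K0` -/
theorem dil_K0 (h : OnModel q D) {s : ℝ} (hs : s ≠ 0) {x : Fin (mm n) → ℝ} (hx : x ∈ D.K0) :
    dil s x ∈ D.K0 := by
  have ht := isDil q s x
  obtain ⟨h1, h2⟩ := hx
  rw [F_eq_Fm, h.hM, h.hT, h.hw] at h2
  rw [h.hM] at h1
  refine ⟨?_, ?_⟩
  · rw [h.hM]
    exact ht.posDef hs h1
  · rw [F_eq_Fm, h.hM, h.hT, h.hw]
    rw [ht.Fm hs]
    · positivity
    · intro r X
      simp only [map_smul, LinearMap.smul_apply, smul_eq_mul]
      ring

theorem gmap_K0 (h : OnModel q D) (hq : ∀ a, (q a).IsSymm) (b : Fin n → ℝ) {s : ℝ}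
    (hs : s ≠ 0) {x : Fin (mm n) → ℝ} (hx : x ∈ D.K0) : gmap q b s x ∈ D.K0 :=
  dil_K0 h (inv_ne_zero hs) (trans_K0 h hq (-b) hx)

/-- a linear map preserving a set preserves its closure -/
theorem mapsTo_closure {m' : ℕ} (g : (Fin m' → ℝ) →ₗ[ℝ] (Fin m' → ℝ)) {K : Set (Fin m' → ℝ)}
    (hg : ∀ x ∈ K, g x ∈ K) {x : Fin m' → ℝ} (hx : x ∈ closure K) : g x ∈ closure K := by
  have hc : Continuous g := g.continuous_of_finiteDimensional
  exact map_mem_closure hc hx (fun y hy => hg y hy)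

theorem trans_closure (h : OnModel q D) (hq : ∀ a, (q a).IsSymm) (b : Fin n → ℝ)
    {x : Fin (mm n) → ℝ} (hx : x ∈ closure D.K0) : trans q b x ∈ closure D.K0 :=
  mapsTo_closure _ (fun _ hy => trans_K0 h hq b hy) hx

/-- **`hgK` of `NS.ns`.** -/
theorem gmap_closure (h : OnModel q D) (hq : ∀ a, (q a).IsSymm) (b : Fin n → ℝ) {s : ℝ}
    (hs : 0 < s) {x : Fin (mm n) → ℝ} (hx : x ∈ closure D.K0) :
    gmap q b s x ∈ closure D.K0 :=
  mapsTo_closure _ (fun _ hy => gmap_K0 h hq b hs.ne' hy) hx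

/-! ### The moment points are in the closure -/

/-- the matrix `diag(1+ε, ε, …, ε)` -/
theorem M_z0 (ε : ℝ) : M (z q 0 + ε • e q) =
    Matrix.diagonal (Fin.cases (1 + ε) (fun _ => ε)) := by
  ext i j
  rw [map_add, map_smul, M_e, Matrix.add_apply, M_z, Matrix.smul_apply, smul_eq_mul]
  refine Fin.cases ?_ (fun i' => ?_) i <;> refine Fin.cases ?_ (fun j' => ?_) j
  · simp
  · rw [Matrix.one_apply_ne (Fin.succ_ne_zero j').symm,
      Matrix.diagonal_apply_ne _ (Fin.succ_ne_zero j').symm]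
    simp
  · rw [Matrix.one_apply_ne (Fin.succ_ne_zero i'),
      Matrix.diagonal_apply_ne _ (Fin.succ_ne_zero i')]
    simp
  · by_cases hij : i' = j'
    · subst hij; simp
    · have : i'.succ ≠ j'.succ := fun hh => hij (Fin.succ_inj.mp hh)
      rw [Matrix.one_apply_ne this, Matrix.diagonal_apply_ne _ this]
      simp

theorem z0_mem (h : OnModel q D) {ε : ℝ} (hε : 0 < ε) : z q 0 + ε • e q ∈ D.K0 := by
  have hqv : ∀ a, qv q (0 : Fin n → ℝ) a = 0 := by
    intro a; simp [qv]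
  have hT0 : ∀ a, T q (z q 0 + ε • e q) 0 a = ε * T q (e q) 0 a := by
    intro a
    rw [map_add, map_smul, Matrix.add_apply, T_z, hqv, Matrix.smul_apply, smul_eq_mul]
    ring
  have hT1 : ∀ i a, T q (z q 0 + ε • e q) (Fin.succ i) a = 0 := by
    intro i a
    rw [map_add, map_smul, Matrix.add_apply, T_z, hqv, Matrix.smul_apply, T_e_succ]
    simp
  have hw0 : aw (z q 0 + ε • e q) = ε * aw (e q) := by
    rw [map_add, map_smul, aw_z, smul_eq_mul]
    simp [hqv]
  have hMd := M_z0 (q := q) ε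
  have hpd : (M (z q 0 + ε • e q)).PosDef := by
    rw [hMd]
    refine Matrix.PosDef.diagonal ?_
    intro i
    refine Fin.cases ?_ (fun i' => ?_) i
    · show 0 < 1 + ε
      linarith
    · exact hε
  have hinv : (M (z q 0 + ε • e q))⁻¹ =
      Matrix.diagonal (Fin.cases (1 + ε)⁻¹ (fun _ => ε⁻¹)) := by
    refine Matrix.inv_eq_right_inv ?_
    rw [hMd, Matrix.diagonal_mul_diagonal, ← Matrix.diagonal_one]
    congr 1
    funext i
    refine Fin.cases ?_ (fun i' => ?_) i
    · show (1 + ε) * (1 + ε)⁻¹ = 1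
      exact mul_inv_cancel₀ (by linarith)
    · show ε * ε⁻¹ = 1
      exact mul_inv_cancel₀ hε.ne'
  have hlin : Inv.linM (M (z q 0 + ε • e q)) (T q (z q 0 + ε • e q)) = 0 := by
    unfold Inv.linM
    ext i a
    rw [hinv, Matrix.submatrix_apply, Matrix.diagonal_mul]
    simp only [id, Matrix.zero_apply]
    rw [hT1]
    simp
  have htr : ((T q (z q 0 + ε • e q))ᵀ * (M (z q 0 + ε • e q))⁻¹ *
      T q (z q 0 + ε • e q)).trace = ε ^ 2 * (1 + ε)⁻¹ * ∑ a, (T q (e q) 0 a) ^ 2 := by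
    rw [hinv]
    simp only [Matrix.trace, Matrix.diag_apply]
    rw [Finset.mul_sum]
    refine Finset.sum_congr rfl fun a _ => ?_
    rw [Matrix.mul_apply, Fin.sum_univ_succ]
    simp only [hT1, mul_zero, Finset.sum_const_zero, add_zero, Matrix.mul_diagonal,
      Matrix.transpose_apply]
    rw [hT0]
    simp only [Fin.cases_zero]
    ring
  refine ⟨by rw [h.hM]; exact hpd, ?_⟩
  rw [F_eq_Fm, h.hM, h.hT, h.hw]
  unfold Inv.Fm
  rw [hlin, htr, hw0]
  have h0 : (fun X => D.Xi X X) (0 : Matrix (Fin n) (Fin d) ℝ) = 0 := by simp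
  rw [h0, zero_div, add_zero]
  refine mul_pos D.phi_pos ?_
  have hwe := w_e q
  have hS : 0 ≤ ∑ a, (T q (e q) 0 a) ^ 2 := Finset.sum_nonneg fun a _ => sq_nonneg _
  set S := ∑ a, (T q (e q) 0 a) ^ 2 with hSdef
  have h1 : ε ^ 2 * (1 + ε)⁻¹ ≤ ε := by
    rw [← div_eq_mul_inv, div_le_iff₀ (by linarith)]
    nlinarith
  have h2 : ε ^ 2 * (1 + ε)⁻¹ * S ≤ ε * S := mul_le_mul_of_nonneg_right h1 hS
  have h3 : ε * S < ε * aw (e q) := mul_lt_mul_of_pos_left hwe hε
  linarith

theorem z0_closure (h : OnModel q D) : z q 0 ∈ closure D.K0 := by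
  rw [mem_closure_iff_seq_limit]
  refine ⟨fun k => z q 0 + (1 / ((k : ℝ) + 1)) • e q, fun k => z0_mem h (by positivity), ?_⟩
  have h1 : Filter.Tendsto (fun k : ℕ => z q 0 + (1 / ((k : ℝ) + 1)) • e q) Filter.atTop
      (nhds (z q 0 + (0 : ℝ) • e q)) :=
    (tendsto_const_nhds).add ((tendsto_one_div_add_atTop_nhds_zero_nat).smul_const _)
  simpa using h1

/-- **all moment points are in the closure of `K0`** -/
theorem z_closure (h : OnModel q D) (hq : ∀ a, (q a).IsSymm) (u : Fin n → ℝ) :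
    z q u ∈ closure D.K0 := by
  have := trans_closure h hq u (z0_closure h)
  rwa [trans_z q _ hq, zero_add] at this

/-! ### Continuity of `F` and exclusion -/

theorem continuous_Xi : Continuous fun X : Matrix (Fin n) (Fin d) ℝ => D.Xi X X := by
  have h1 : (fun X : Matrix (Fin n) (Fin d) ℝ => D.Xi X X) =
      fun X => ∑ i, ∑ a, X i a * D.Xi (Matrix.single i a 1) X := by
    funext X
    have hX : D.Xi X = ∑ i, ∑ a, X i a • D.Xi (Matrix.single i a 1) := by
      conv_lhs => rw [Matrix.matrix_eq_sum_single X]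
      rw [map_sum]
      refine Finset.sum_congr rfl fun i _ => ?_
      rw [map_sum]
      refine Finset.sum_congr rfl fun a _ => ?_
      have h2 : Matrix.single i a (X i a) = X i a • (Matrix.single i a (1:ℝ)) := by
        rw [Matrix.smul_single, smul_eq_mul, mul_one]
      rw [h2, map_smul]
    rw [hX]
    simp only [LinearMap.sum_apply, LinearMap.smul_apply, smul_eq_mul]
  rw [h1]
  refine continuous_finsetSum _ fun i _ => continuous_finsetSum _ fun a _ => ?_
  refine Continuous.mul ?_ ?_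
  · exact continuous_id.matrix_elem i a
  · exact (D.Xi (Matrix.single i a 1)).continuous_of_finiteDimensional

theorem F_eq_adj (y : Fin (mm n) → ℝ) : D.F y =
    D.phi * (D.w y - ((D.T y)ᵀ * (D.M y).adjugate * D.T y).trace / (D.M y).det) +
    D.Xi (((D.M y).adjugate * D.T y).submatrix Fin.succ id)
      (((D.M y).adjugate * D.T y).submatrix Fin.succ id) /
      ((D.M y).det * lowTr (D.M y).adjugate) := by
  have hinv : (D.M y)⁻¹ = ((D.M y).det)⁻¹ • (D.M y).adjugate := by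
    rw [Matrix.inv_def, Ring.inverse_eq_inv']
  have h1 : ((D.T y)ᵀ * (D.M y)⁻¹ * D.T y).trace =
      ((D.T y)ᵀ * (D.M y).adjugate * D.T y).trace / (D.M y).det := by
    rw [hinv, Matrix.mul_smul, Matrix.smul_mul, Matrix.trace_smul, smul_eq_mul, div_eq_inv_mul]
  have h2 : D.lin y = ((D.M y).det)⁻¹ • (((D.M y).adjugate * D.T y).submatrix Fin.succ id) := by
    unfold HData.lin
    rw [hinv, Matrix.smul_mul]
    rfl
  have h3 : lowTr (D.M y)⁻¹ = ((D.M y).det)⁻¹ * lowTr (D.M y).adjugate := by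
    rw [hinv]
    unfold lowTr
    rw [Finset.mul_sum]
    rfl
  unfold HData.F
  rw [h1, h2, h3]
  simp only [map_smul, LinearMap.smul_apply, smul_eq_mul]
  congr 1
  by_cases hd : (D.M y).det = 0
  · rw [hd]; simp
  · by_cases hl : lowTr (D.M y).adjugate = 0
    · rw [hl]; simp
    · field_simp

theorem continuousAt_F (x : Fin (mm n) → ℝ) (hdet : (D.M x).det ≠ 0)
    (htr : lowTr (D.M x)⁻¹ ≠ 0) : ContinuousAt D.F x := by
  have hM : Continuous fun y => D.M y := D.M.continuous_of_finiteDimensional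
  have hT : Continuous fun y => D.T y := D.T.continuous_of_finiteDimensional
  have hw : Continuous fun y => D.w y := D.w.continuous_of_finiteDimensional
  have hMd : Continuous fun y => (D.M y).det := hM.matrix_det
  have hadj : Continuous fun y => (D.M y).adjugate := hM.matrix_adjugate
  have hlow : Continuous fun y => lowTr (D.M y).adjugate := by
    unfold lowTr
    exact continuous_finsetSum _ fun i _ => hadj.matrix_elem _ _
  have h3 : lowTr (D.M x).adjugate ≠ 0 := by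
    intro h0
    apply htr
    have hinv : (D.M x)⁻¹ = ((D.M x).det)⁻¹ • (D.M x).adjugate := by
      rw [Matrix.inv_def, Ring.inverse_eq_inv']
    have h4 : lowTr (D.M x)⁻¹ = ((D.M x).det)⁻¹ * lowTr (D.M x).adjugate := by
      rw [hinv]
      unfold lowTr
      rw [Finset.mul_sum]
      rfl
    rw [h4, h0, mul_zero]
  have hY : Continuous fun y => ((D.M y).adjugate * D.T y).submatrix Fin.succ (id : Fin d → Fin d) :=
    (hadj.matrix_mul hT).matrix_submatrix _ _
  have hN1 : Continuous fun y => ((D.T y)ᵀ * (D.M y).adjugate * D.T y).trace :=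
    ((hT.matrix_transpose.matrix_mul hadj).matrix_mul hT).matrix_trace
  have hN2 : Continuous fun y => D.Xi (((D.M y).adjugate * D.T y).submatrix Fin.succ id)
      (((D.M y).adjugate * D.T y).submatrix Fin.succ id) := continuous_Xi.comp hY
  have hF : D.F = fun y => D.phi * (D.w y - ((D.T y)ᵀ * (D.M y).adjugate * D.T y).trace /
      (D.M y).det) + D.Xi (((D.M y).adjugate * D.T y).submatrix Fin.succ id)
      (((D.M y).adjugate * D.T y).submatrix Fin.succ id) /
      ((D.M y).det * lowTr (D.M y).adjugate) := funext fun y => F_eq_adj y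
  rw [hF]
  refine ContinuousAt.add ?_ ?_
  · exact continuousAt_const.mul (hw.continuousAt.sub (hN1.continuousAt.div hMd.continuousAt hdet))
  · exact hN2.continuousAt.div (hMd.mul hlow).continuousAt (mul_ne_zero hdet h3)

theorem lowTr_inv_pos {A : Matrix (Fin (n+1)) (Fin (n+1)) ℝ} (hA : A.PosDef) (hn : 0 < n) :
    0 < lowTr A⁻¹ := by
  unfold lowTr
  have h1 : (A⁻¹).PosDef := hA.inv
  have : Nonempty (Fin n) := ⟨⟨0, hn⟩⟩
  refine Finset.sum_pos (fun i _ => ?_) Finset.univ_nonempty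
  exact h1.diag_pos

/-- **Exclusion**: a point with `M` positive definite and `F < 0` is not in the closure. -/
theorem not_mem_closure {x : Fin (mm n) → ℝ} (hpd : (D.M x).PosDef) (hF : D.F x < 0) :
    x ∉ closure D.K0 := by
  intro hx
  have hcont := continuousAt_F (D := D) x hpd.det_pos.ne'
    (lowTr_inv_pos hpd D.n_pos).ne'
  have hev : ∀ᶠ y in nhds x, D.F y < 0 := hcont.eventually (gt_mem_nhds hF)
  rw [mem_closure_iff_frequently] at hx
  obtain ⟨y, hy1, hy2⟩ := (hx.and_eventually hev).exists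
  exact absurd hy1.2 (not_lt.mpr hy2.le)

end

/-! ### Polynomial form of the moment points and the hypotheses of `NS.ns` -/

/-- the polynomial `u^T q_a u` -/
noncomputable def qP (a : Fin d) : MvPolynomial (Fin n) ℝ :=
  ∑ i, ∑ j, MvPolynomial.C (q a i j) * (MvPolynomial.X i * MvPolynomial.X j)

/-- the coordinates of `z u` as polynomials -/
noncomputable def zP : Fin (mm n) → MvPolynomial (Fin n) ℝ := fun i =>
  Sum.elim (fun _ => 1) (Sum.elim (fun i => MvPolynomial.X i)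
    (Sum.elim (fun p => MvPolynomial.X p.1 * MvPolynomial.X p.2)
    (Sum.elim (fun p => MvPolynomial.X p.1 * MvPolynomial.X p.2.1 * MvPolynomial.X p.2.2)
      (fun _ => ∑ a, qP q a ^ 2)))) ((nu n).symm i)

theorem eval_qP (u : Fin n → ℝ) (a : Fin d) : MvPolynomial.eval u (qP q a) = qv q u a := by
  simp [qP, qv]

theorem eval_zP (u : Fin n → ℝ) (i : Fin (mm n)) : MvPolynomial.eval u (zP q i) = z q u i := by
  unfold zP z pt
  rcases h : (nu n).symm i with ⟨⟩ | i | ⟨i, j⟩ | ⟨i, j, k⟩ | ⟨⟩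
  · simp
  · simp
  · simp
  · simp
  · simp [eval_qP, qv]


theorem qP_homog (a : Fin d) : (qP q a).IsHomogeneous 2 := by
  unfold qP
  refine MvPolynomial.IsHomogeneous.sum _ _ _ fun i _ => ?_
  refine MvPolynomial.IsHomogeneous.sum _ _ _ fun j _ => ?_
  exact ((MvPolynomial.isHomogeneous_X ℝ i).mul (MvPolynomial.isHomogeneous_X ℝ j)).C_mul _

theorem zP_deg (i : Fin (mm n)) : (zP q i).totalDegree ≤ 4 := by
  unfold zP
  rcases (nu n).symm i with ⟨⟩ | i | ⟨i, j⟩ | ⟨i, j, k⟩ | ⟨⟩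
  · simp
  · simp only [Sum.elim_inr, Sum.elim_inl]
    exact (MvPolynomial.isHomogeneous_X ℝ i).totalDegree_le.trans (by norm_num)
  · simp only [Sum.elim_inr, Sum.elim_inl]
    exact (((MvPolynomial.isHomogeneous_X ℝ i).mul
      (MvPolynomial.isHomogeneous_X ℝ j)).totalDegree_le).trans (by norm_num)
  · simp only [Sum.elim_inr, Sum.elim_inl]
    exact ((((MvPolynomial.isHomogeneous_X ℝ i).mul
      (MvPolynomial.isHomogeneous_X ℝ j)).mul
      (MvPolynomial.isHomogeneous_X ℝ k)).totalDegree_le).trans (by norm_num)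
  · simp only [Sum.elim_inr]
    have h1 : (∑ a, qP q a ^ 2).IsHomogeneous (2 * 2) :=
      MvPolynomial.IsHomogeneous.sum _ _ _ fun a _ => (qP_homog q a).pow 2
    exact h1.totalDegree_le.trans (by norm_num)


/-- **`hgb` of `NS.ns`** -/
theorem gmap_hgb (b : Fin n → ℝ) (x : Fin (mm n) → ℝ) :
    ∃ C : ℝ, ∀ s, 0 < s → s ≤ 1 → ∀ i, s ^ 4 * |gmap q b s x i| ≤ C := by
  refine ⟨‖trans q (-b) x‖, fun s hs hs1 i => ?_⟩
  have h1 := gmap_bound q b s hs hs1 x
  have h2 : |gmap q b s x i| ≤ ‖gmap q b s x‖ := by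
    rw [← Real.norm_eq_abs]; exact norm_le_pi_norm _ i
  have h3 : s ^ 4 * |gmap q b s x i| ≤ s ^ 4 * ((s⁻¹) ^ 4 * ‖trans q (-b) x‖) :=
    mul_le_mul_of_nonneg_left (h2.trans h1) (by positivity)
  refine h3.trans (le_of_eq ?_)
  rw [← mul_assoc, ← mul_pow, mul_inv_cancel₀ hs.ne', one_pow, one_mul]

end Crest.Agent.R237.Model
end

-- ▼ part R237/Inst

/-! Row 237: construction of `HData` from a scalar model (helper227). -/

set_option autoImplicit false

namespace Crest.Agent.R237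

open Matrix Res

/-- `HData` from linear moment data `(M, T, w)` of a model with third moments `tau`, and a form
`Xi` that is invariant under `shift` and nonnegative on the residues `PZ q P Z`, `tr P = 0`. -/
noncomputable def mkHData {m n d : ℕ} (hn : 2 ≤ n) (q : Fin d → Matrix (Fin n) (Fin n) ℝ)
    (hq : ∀ a, (q a).IsSymm)
    (M : (Fin m → ℝ) →ₗ[ℝ] Matrix (Fin (n + 1)) (Fin (n + 1)) ℝ) (M_symm : ∀ x, (M x).IsSymm)
    (T : (Fin m → ℝ) →ₗ[ℝ] Matrix (Fin (n + 1)) (Fin d) ℝ) (w : (Fin m → ℝ) →ₗ[ℝ] ℝ)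
    (tau : (Fin m → ℝ) → Fin n → Fin n → Fin n → ℝ) (htau : ∀ x, Sym3 (tau x))
    (hT0 : ∀ x a, T x 0 a = ∑ j, ∑ k, M x (Fin.succ j) (Fin.succ k) * q a j k)
    (hT : ∀ x i a, T x (Fin.succ i) a = ctr (tau x) (q a) i)
    (e : Fin m → ℝ) (M_e : M e = 1) (T_e : ∀ (i : Fin n) (a : Fin d), T e i.succ a = 0)
    (w_e : ∑ a, (T e 0 a) ^ 2 < w e)
    (Xi : Matrix (Fin n) (Fin d) ℝ →ₗ[ℝ] Matrix (Fin n) (Fin d) ℝ →ₗ[ℝ] ℝ)
    (Xi_symm : ∀ X Y, Xi X Y = Xi Y X)
    (hshift : ∀ X Y y, Xi (X + shift q y) Y = Xi X Y)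
    (hI : ∀ (P : Matrix (Fin n) (Fin n) ℝ) (Z : Fin n → Fin n → Fin n → ℝ), P.IsSymm →
      P.trace = 0 → Sym3 Z → 0 ≤ Xi (PZ q P Z) (PZ q P Z))
    (phi : ℝ) (phi_pos : 0 < phi) (H1 : ∀ X, Xi X X ≤ phi * ∑ i, ∑ a, (X i a) ^ 2) :
    HData m n d where
  M := M
  M_symm := M_symm
  T := T
  w := w
  e := e
  M_e := M_e
  T_e := T_e
  w_e := w_e
  Xi := Xi
  Xi_symm := Xi_symm
  phi := phi
  phi_pos := phi_pos
  n_pos := by omega
  H1 := H1
  H2 := fun x hdet htr =>
    h2_bilin hn hq Xi Xi_symm hshift hI (M_symm x) hdet htr (htau x) (hT0 x) (hT x)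
  H2b := fun x _ _ htr => h2b_bilin Xi hI (M_symm x) htr (htau x) (hT x)

/-! ### dictionary between `Res` and `EX` -/


theorem ctr_eq_zeta {n d : ℕ} (q : Fin d → Matrix (Fin n) (Fin n) ℝ)
    (Z : Fin n → Fin n → Fin n → ℝ) (i : Fin n) (a : Fin d) :
    ctr Z (q a) i = EX.zeta q Z i a := by
  simp only [ctr, EX.zeta, Matrix.of_apply]
  exact Finset.sum_congr rfl fun j _ => Finset.sum_congr rfl fun k _ => mul_comm _ _

theorem PZ_eq {n d : ℕ} (q : Fin d → Matrix (Fin n) (Fin n) ℝ) (P : Matrix (Fin n) (Fin n) ℝ)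
    (Z : Fin n → Fin n → Fin n → ℝ) : PZ q P Z = P * EX.zeta q Z := by
  ext i a
  rw [Matrix.mul_apply]
  simp only [PZ, Matrix.of_apply, ctr_eq_zeta]

theorem shift_eq {n d : ℕ} (q : Fin d → Matrix (Fin n) (Fin n) ℝ) (y : Fin n → ℝ) :
    shift q y = EX.transl q ((2 : ℝ) • y) := by
  ext i a
  simp only [shift, EX.transl, Matrix.of_apply, Matrix.mulVec, dotProduct, Finset.mul_sum,
    Pi.smul_apply, smul_eq_mul]
  exact Finset.sum_congr rfl fun j _ => by ring

/-- the `Xi` part of `EX.exists_EX` in the form needed by `mkHData`. -/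
theorem xi_convert {n d : ℕ} {q : Fin d → Matrix (Fin n) (Fin n) ℝ}
    {Xi : Matrix (Fin n) (Fin d) ℝ →ₗ[ℝ] Matrix (Fin n) (Fin d) ℝ →ₗ[ℝ] ℝ}
    (h1 : ∀ X Y y, Xi (X + EX.transl q y) Y = Xi X Y)
    (h2 : ∀ P' : Matrix (Fin n) (Fin n) ℝ, P'.IsSymm → P'.trace = 0 →
      ∀ Z', EX.IsSym3 Z' → 0 ≤ Xi (P' * EX.zeta q Z') (P' * EX.zeta q Z')) :
    (∀ X Y y, Xi (X + shift q y) Y = Xi X Y) ∧
    (∀ (P : Matrix (Fin n) (Fin n) ℝ) (Z : Fin n → Fin n → Fin n → ℝ), P.IsSymm →
      P.trace = 0 → Sym3 Z → 0 ≤ Xi (PZ q P Z) (PZ q P Z)) := by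
  refine ⟨fun X Y y => ?_, fun P Z hP ht hZ => ?_⟩
  · rw [shift_eq, h1]
  · rw [PZ_eq]
    exact h2 P hP ht Z hZ

end Crest.Agent.R237
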