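import Crest.Agent.R237.HData
import Crest.Agent.R237.H823Group
import Crest.Agent.R237.HPoly
import Mathlib
import Crest.Prelude.Def_Hyperbolic
import Crest.Agent.R237.Inst_Mg
import Crest.Agent.R237.EX
import Crest.Agent.R237.Free
import Crest.Agent.R237.V0

-- ▼ part R237/H823Spec
section

set_option autoImplicit false
set_option linter.unusedSectionVars false
set_option linter.unusedVariables false

namespace Crest.Agent.R237

open Matrix

/-- Orthogonal diagonalisation of a real symmetric matrix. -/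
theorem exists_diag {N : ℕ} (A : Matrix (Fin N) (Fin N) ℝ) (hA : A.IsSymm) :
    ∃ (V : Matrix (Fin N) (Fin N) ℝ) (lam : Fin N → ℝ), Vᵀ * V = 1 ∧ V * Vᵀ = 1 ∧
      A = V * diagonal lam * Vᵀ := by
  have hH : A.IsHermitian := by
    rw [IsHermitian, conjTranspose_eq_transpose_of_trivial]; exact hA
  refine ⟨hH.eigenvectorUnitary, hH.eigenvalues, ?_, ?_, ?_⟩
  · have := Unitary.coe_star_mul_self hH.eigenvectorUnitary
    rw [← conjTranspose_eq_transpose_of_trivial]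
    exact this
  · have := Unitary.coe_mul_star_self hH.eigenvectorUnitary
    rw [← conjTranspose_eq_transpose_of_trivial]
    exact this
  · have := hH.spectral_theorem
    rw [Unitary.conjStarAlgAut_apply] at this
    rw [← conjTranspose_eq_transpose_of_trivial]
    exact this

namespace HData

variable {m n d : ℕ} (D : HData m n d)

theorem single_eq (i : Fin m) : (fun j => if i = j then (1 : ℝ) else 0) = Pi.single i 1 := by
  ext j
  simp [Pi.single_apply, eq_comm]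

theorem map_expand {P Q : ℕ} (L : (Fin m → ℝ) →ₗ[ℝ] Matrix (Fin P) (Fin Q) ℝ) (x : Fin m → ℝ)
    (r : Fin P) (s : Fin Q) : L x r s = ∑ i, x i * L (Pi.single i 1) r s := by
  conv_lhs => rw [LinearMap.pi_apply_eq_sum_univ L x]
  rw [Matrix.sum_apply]
  apply Finset.sum_congr rfl
  intro i _
  rw [Matrix.smul_apply, smul_eq_mul, single_eq]

section field
variable {K : Type*} [Field K] [Algebra ℝ K]

/-- the point `z e - x`. -/
def pt (z : K) (x : Fin m → ℝ) : Fin m → K :=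
  fun i => z * algebraMap ℝ K (D.e i) - algebraMap ℝ K (x i)

theorem MA_pt (z : K) (x : Fin m → ℝ) :
    D.MA (D.pt z x) = z • (1 : Matrix (Fin (n + 1)) (Fin (n + 1)) K)
      - (D.M x).map (algebraMap ℝ K) := by
  ext r s
  unfold MA pt
  rw [Matrix.sub_apply, Matrix.smul_apply, Matrix.map_apply, map_expand D.M x r s, map_sum]
  have h1 : ((1 : Matrix (Fin (n + 1)) (Fin (n + 1)) K) r s) =
      algebraMap ℝ K (D.M D.e r s) := by
    rw [D.M_e, Matrix.one_apply, Matrix.one_apply]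
    split_ifs <;> simp
  rw [h1, map_expand D.M D.e r s, map_sum, Finset.smul_sum, ← Finset.sum_sub_distrib]
  apply Finset.sum_congr rfl
  intro i _
  rw [map_mul, map_mul, smul_eq_mul]
  ring

theorem TA_pt (z : K) (x : Fin m → ℝ) :
    D.TA (D.pt z x) = z • (D.T D.e).map (algebraMap ℝ K) - (D.T x).map (algebraMap ℝ K) := by
  ext r s
  unfold TA pt
  rw [Matrix.sub_apply, Matrix.smul_apply, Matrix.map_apply, Matrix.map_apply,
    map_expand D.T x r s, map_expand D.T D.e r s, map_sum, map_sum, Finset.smul_sum,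
    ← Finset.sum_sub_distrib]
  apply Finset.sum_congr rfl
  intro i _
  rw [map_mul, map_mul, smul_eq_mul]
  ring

theorem w_expand (x : Fin m → ℝ) : D.w x = ∑ i, x i * D.w (Pi.single i 1) := by
  conv_lhs => rw [LinearMap.pi_apply_eq_sum_univ D.w x]
  apply Finset.sum_congr rfl
  intro i _
  rw [smul_eq_mul, single_eq]

theorem wA_pt (z : K) (x : Fin m → ℝ) :
    D.wA (D.pt z x) = z * algebraMap ℝ K (D.w D.e) - algebraMap ℝ K (D.w x) := by
  unfold wA pt
  rw [D.w_expand x, D.w_expand D.e, map_sum, map_sum, Finset.mul_sum,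
    ← Finset.sum_sub_distrib]
  apply Finset.sum_congr rfl
  intro i _
  rw [map_mul, map_mul]
  ring

theorem Xi_expand (X Y : Matrix (Fin n) (Fin d) ℝ) :
    D.Xi X Y = ∑ i, ∑ a, ∑ j, ∑ b, D.Xi (Matrix.single i a 1) (Matrix.single j b 1)
      * (X i a * Y j b) := by
  conv_lhs => rw [Matrix.matrix_eq_sum_single X, Matrix.matrix_eq_sum_single Y]
  rw [LinearMap.map_sum₂]
  refine Finset.sum_congr rfl fun i _ => ?_
  rw [LinearMap.map_sum₂]
  refine Finset.sum_congr rfl fun a _ => ?_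
  rw [map_sum]
  refine Finset.sum_congr rfl fun j _ => ?_
  rw [map_sum]
  refine Finset.sum_congr rfl fun b _ => ?_
  have h1 : Matrix.single i a (X i a) = (X i a) • Matrix.single i a (1 : ℝ) := by
    rw [Matrix.smul_single, smul_eq_mul, mul_one]
  have h2 : Matrix.single j b (Y j b) = (Y j b) • Matrix.single j b (1 : ℝ) := by
    rw [Matrix.smul_single, smul_eq_mul, mul_one]
  rw [h1, h2, map_smul, map_smul, LinearMap.smul_apply, smul_eq_mul, smul_eq_mul]
  ring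

/-- `XiA` polarised, as a bilinear map. -/
noncomputable def XiB (K : Type*) [Field K] [Algebra ℝ K] :
    Matrix (Fin n) (Fin d) K →ₗ[K] Matrix (Fin n) (Fin d) K →ₗ[K] K :=
  LinearMap.mk₂ K (fun Y Z => ∑ i, ∑ a, ∑ j, ∑ b,
      algebraMap ℝ K (D.Xi (Matrix.single i a 1) (Matrix.single j b 1)) * (Y i a * Z j b))
    (by intro Y Y' Z
        simp only [Matrix.add_apply, add_mul, mul_add, Finset.sum_add_distrib])
    (by intro c Y Z
        simp only [Matrix.smul_apply, smul_eq_mul, Finset.mul_sum]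
        refine Finset.sum_congr rfl fun i _ => Finset.sum_congr rfl fun a _ =>
          Finset.sum_congr rfl fun j _ => Finset.sum_congr rfl fun b _ => ?_
        ring)
    (by intro Y Z Z'
        simp only [Matrix.add_apply, mul_add, Finset.sum_add_distrib])
    (by intro c Y Z
        simp only [Matrix.smul_apply, smul_eq_mul, Finset.mul_sum]
        refine Finset.sum_congr rfl fun i _ => Finset.sum_congr rfl fun a _ =>
          Finset.sum_congr rfl fun j _ => Finset.sum_congr rfl fun b _ => ?_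
        ring)

theorem XiA_eq_XiB (Y : Matrix (Fin n) (Fin d) K) : D.XiA Y = D.XiB K Y Y := rfl

theorem XiB_map (X Y : Matrix (Fin n) (Fin d) ℝ) :
    D.XiB K (X.map (algebraMap ℝ K)) (Y.map (algebraMap ℝ K)) = algebraMap ℝ K (D.Xi X Y) := by
  rw [D.Xi_expand]
  simp only [map_sum, map_mul]
  rfl

/-- `XiA` of a linear combination of real matrices. -/
theorem XiA_comb {I : Type*} [Fintype I] (c : I → K) (X : I → Matrix (Fin n) (Fin d) ℝ) :
    D.XiA (∑ k, c k • (X k).map (algebraMap ℝ K)) =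
      ∑ k, ∑ l, c k * c l * algebraMap ℝ K (D.Xi (X k) (X l)) := by
  rw [XiA_eq_XiB, LinearMap.map_sum₂]
  refine Finset.sum_congr rfl fun k _ => ?_
  rw [map_sum]
  refine Finset.sum_congr rfl fun l _ => ?_
  rw [map_smul, map_smul, LinearMap.smul_apply, XiB_map, smul_eq_mul, smul_eq_mul]
  ring

end field

end HData

end Crest.Agent.R237
end

-- ▼ part R237/HCone
section

/-!
Row 237 (S0367): Theorem H for `HData` from the two key facts K1, K2 of helper823 (helper663).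
-/

set_option autoImplicit false
set_option linter.unusedSectionVars false
set_option linter.unusedVariables false

namespace Crest.Agent.R237

open Matrix Crest.GeometryTopology

namespace HData

variable {m n d : ℕ} (D : HData m n d)

/-- K1: no zeros off the real axis -/
def K1 : Prop := ∀ (x : Fin m → ℝ) (z : ℂ), z.im ≠ 0 →
  D.pA (fun i => z * (D.e i : ℂ) - (x i : ℂ)) ≠ 0

/-- K2: partial fractions of `F` along `e` -/
def K2 : Prop := ∀ x : Fin m → ℝ, ∃ (S : Finset ℝ) (cf : ℝ → ℝ) (b : ℝ), (∀ r ∈ S, cf r ≤ 0) ∧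
  ∀ s : ℝ, (D.M x + s • (1 : Matrix (Fin (n + 1)) (Fin (n + 1)) ℝ)).PosDef →
    (∀ r ∈ S, 0 < s + r) ∧ D.F (x + s • D.e) = D.aa * s - b + ∑ r ∈ S, cf r / (s + r)

variable {D}

theorem isHyperbolic_of (h1 : D.K1) : Hyperbolic.IsHyperbolic D.p D.e := by
  refine ⟨⟨_, D.p_homog⟩, D.eval_e_pos, ?_⟩
  intro x z hz
  by_contra him
  rw [Hyperbolic.lineEvalC, aeval_p] at hz
  exact h1 x z him hz

theorem M_add_smul (x : Fin m → ℝ) (s : ℝ) :
    D.M (x + s • D.e) = D.M x + s • (1 : Matrix (Fin (n + 1)) (Fin (n + 1)) ℝ) := by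
  rw [map_add, map_smul, D.M_e]

theorem F_mono (h2 : D.K2) {x : Fin m → ℝ} {s t : ℝ} (hst : s ≤ t)
    (hs : (D.M (x + s • D.e)).PosDef) :
    D.F (x + s • D.e) + D.aa * (t - s) ≤ D.F (x + t • D.e) := by
  obtain ⟨S, cf, b, hcf, hF⟩ := h2 x
  have ht : (D.M (x + t • D.e)).PosDef := by
    rcases eq_or_lt_of_le hst with h | h
    · rwa [← h]
    · have : x + t • D.e = (x + s • D.e) + (t - s) • D.e := by
        rw [add_assoc, ← add_smul]; congr 2; ring
      rw [this, M_add_smul]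
      exact hs.add (Matrix.PosDef.one.smul (by linarith))
  obtain ⟨hs1, hs2⟩ := hF s (by rw [← M_add_smul]; exact hs)
  obtain ⟨ht1, ht2⟩ := hF t (by rw [← M_add_smul]; exact ht)
  rw [hs2, ht2]
  have : ∑ r ∈ S, cf r / (s + r) ≤ ∑ r ∈ S, cf r / (t + r) := by
    refine Finset.sum_le_sum fun r hr => ?_
    rw [div_le_div_iff₀ (hs1 r hr) (ht1 r hr)]
    nlinarith [hcf r hr, mul_nonneg_of_nonpos_of_nonpos (hcf r hr)
      (show s - t ≤ 0 by linarith)]
  linarith

theorem F_bdd (h2 : D.K2) (x : Fin m → ℝ) : ∃ b : ℝ, ∀ s : ℝ,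
    (D.M (x + s • D.e)).PosDef → D.F (x + s • D.e) ≤ D.aa * s - b := by
  obtain ⟨S, cf, b, hcf, hF⟩ := h2 x
  refine ⟨b, fun s hs => ?_⟩
  obtain ⟨hs1, hs2⟩ := hF s (by rw [← M_add_smul]; exact hs)
  rw [hs2]
  have : ∑ r ∈ S, cf r / (s + r) ≤ 0 :=
    Finset.sum_nonpos fun r hr => div_nonpos_of_nonpos_of_nonneg (hcf r hr) (hs1 r hr).le
  linarith


theorem posSemidef_of_mem_closure {x : Fin m → ℝ} (hx : x ∈ closure D.K0) :
    (D.M x).PosSemidef := by
  refine Matrix.PosSemidef.of_dotProduct_mulVec_nonneg ?_ ?_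
  · rw [Matrix.IsHermitian, conjTranspose_eq_transpose_of_trivial, (D.M_symm x).eq]
  · intro v
    have hc : Continuous fun y : Fin m → ℝ => star v ⬝ᵥ (D.M y *ᵥ v) :=
      continuous_const.dotProduct (D.continuous_M.matrix_mulVec continuous_const)
    have hcl : IsClosed {y : Fin m → ℝ | 0 ≤ star v ⬝ᵥ (D.M y *ᵥ v)} :=
      isClosed_le continuous_const hc
    exact closure_minimal (fun y hy => hy.1.posSemidef.dotProduct_mulVec_nonneg v) hcl hx

theorem mem_K0_of_closure (h2 : D.K2) {x : Fin m → ℝ} (hx : x ∈ closure D.K0) {s : ℝ}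
    (hs : 0 < s) : x + s • D.e ∈ D.K0 := by
  have hpd : (D.M (x + s • D.e)).PosDef := by
    rw [M_add_smul]
    exact Matrix.PosDef.posSemidef_add (posSemidef_of_mem_closure hx)
      (Matrix.PosDef.one.smul hs)
  refine ⟨hpd, ?_⟩
  have hc : ContinuousAt (fun y : Fin m → ℝ => D.F (y + s • D.e)) x :=
    ContinuousAt.comp (g := D.F) (f := fun y : Fin m → ℝ => y + s • D.e)
      (D.continuousAt_F hpd) (by fun_prop)
  by_contra hcon
  push Not at hcon
  have hpos : 0 < D.aa * s := mul_pos D.aa_pos hs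
  have hev : ∀ᶠ y in nhds x, D.F (y + s • D.e) < D.aa * s :=
    hc.eventually (gt_mem_nhds (lt_of_le_of_lt hcon hpos))
  obtain ⟨y, hy1, hy2⟩ := (mem_closure_iff_nhds.mp hx) _ hev
  have h0 : (D.M (y + (0 : ℝ) • D.e)).PosDef := by simpa using hy2.1
  have hF := F_mono h2 hs.le h0
  rw [zero_smul, add_zero, sub_zero] at hF
  have := hy2.2
  have hy1' : D.F (y + s • D.e) < D.aa * s := hy1
  linarith

theorem closure_subset (h2 : D.K2) : closure D.K0 ⊆ Hyperbolic.closedCone D.p D.e := by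
  intro x hx t ht
  by_contra hneg
  push Not at hneg
  have h1 := mem_K0_of_closure h2 hx (s := -t) (by linarith)
  have e1 : (fun i => t * D.e i - x i) = -(x + (-t) • D.e) := by
    funext i; simp; ring
  rw [e1, eval_neg, pA_eq_of_posDef _ _ h1.1] at ht
  have h3 := h1.1.det_pos
  have h4 := lowTr_inv_pos D.n_pos h1.1
  have h5 := h1.2
  have : 0 < (D.M (x + -t • D.e)).det ^ 2 * lowTr (D.M (x + -t • D.e))⁻¹ *
      D.F (x + -t • D.e) := by positivity
  linarith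

theorem of_mem_closedCone (h2 : D.K2) {x : Fin m → ℝ}
    (hx : x ∈ Hyperbolic.closedCone D.p D.e) {s : ℝ} (hs : 0 < s) : x + s • D.e ∈ D.K0 := by
  obtain ⟨G, μ, g1, g2⟩ := Hyp.sim_diag (A := (1 : Matrix (Fin (n + 1)) (Fin (n + 1)) ℝ))
    Matrix.PosDef.one (D.M_symm x)
  have hdiag : ∀ s : ℝ, Gᵀ * D.M (x + s • D.e) * G = diagonal (fun j => s + μ j) := by
    intro s
    rw [M_add_smul, Matrix.mul_add, Matrix.add_mul, Matrix.mul_smul, Matrix.smul_mul, g1, g2]
    ext i j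
    by_cases h : i = j
    · subst h; simp [add_comm]
    · simp [h]
  have hG := Hyp.Dat.det_G_ne g1
  have hA : ∀ s : ℝ, (D.M (x + s • D.e)).PosDef ↔ ∀ j, 0 < s + μ j := by
    intro s
    rw [← Hyp.posDef_congr_iff (G := G) hG, hdiag, Hyp.posDef_diag_iff]
  have hp : ∀ s : ℝ, 0 < s → MvPolynomial.eval (x + s • D.e) D.p ≠ 0 := by
    intro s hs h0
    have e1 : (fun i => (-s) * D.e i - x i) = -(x + s • D.e) := by
      funext i; simp; ring
    have := hx (-s) (by rw [e1, eval_neg, h0])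
    linarith
  have hTpos : ∀ s0 : ℝ, 0 ≤ s0 → (∀ s, s0 < s → (D.M (x + s • D.e)).PosDef) →
      ∀ s, s0 < s → 0 < D.F (x + s • D.e) := by
    intro s0 hs0 hpd s hs
    by_contra hcon
    push Not at hcon
    set R := s + 1 + |D.F (x + s • D.e)| / D.aa with hR
    have haa := D.aa_pos
    have hq : 0 ≤ |D.F (x + s • D.e)| / D.aa := by positivity
    have hRs : s < R := by linarith
    have hTR : 0 < D.F (x + R • D.e) := by
      have := F_mono h2 hRs.le (hpd s hs)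
      have h4 : D.aa * (R - s) = D.aa + |D.F (x + s • D.e)| := by
        rw [hR]; field_simp; ring
      rw [h4] at this
      have := neg_abs_le (D.F (x + s • D.e))
      linarith
    have hc : ContinuousOn (fun r : ℝ => D.F (x + r • D.e)) (Set.Icc s R) := by
      intro r hr
      have h3 : (D.M (x + r • D.e)).PosDef := hpd r (by linarith [hr.1])
      have h4 : ContinuousAt (fun r : ℝ => D.F (x + r • D.e)) r :=
        ContinuousAt.comp (g := D.F) (f := fun r : ℝ => x + r • D.e)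
          (D.continuousAt_F h3) (by fun_prop)
      exact h4.continuousWithinAt
    obtain ⟨r, hr, hr0⟩ := intermediate_value_Icc hRs.le hc
      (show (0:ℝ) ∈ Set.Icc (D.F (x + s • D.e)) (D.F (x + R • D.e)) from ⟨hcon, hTR.le⟩)
    have hpr : (D.M (x + r • D.e)).PosDef := hpd r (by linarith [hr.1])
    apply hp r (by linarith [hr.1])
    have hr0' : D.F (x + r • D.e) = 0 := hr0
    rw [pA_eq_of_posDef _ _ hpr, hr0', mul_zero]
  have hμ : ∀ j, 0 ≤ μ j := by
    by_contra hcon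
    push Not at hcon
    obtain ⟨j1, hj1⟩ := hcon
    obtain ⟨j0, -, hj0⟩ := Finset.exists_min_image Finset.univ μ ⟨j1, Finset.mem_univ _⟩
    have hneg : μ j0 < 0 := lt_of_le_of_lt (hj0 j1 (Finset.mem_univ _)) hj1
    set s0 := - μ j0 with hs0
    have hs0pos : 0 < s0 := by linarith
    have hpd : ∀ s, s0 < s → (D.M (x + s • D.e)).PosDef := fun s hs =>
      (hA s).mpr fun j => by have := hj0 j (Finset.mem_univ _); linarith
    have hT := hTpos s0 hs0pos.le hpd
    obtain ⟨b, hb⟩ := F_bdd h2 x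
    have hdet0 : (D.M (x + s0 • D.e)).det = 0 := by
      have h5 := congrArg Matrix.det (hdiag s0)
      rw [det_mul, det_mul, det_transpose, det_diagonal,
        Finset.prod_eq_zero (Finset.mem_univ j0) (by rw [hs0]; ring)] at h5
      rcases mul_eq_zero.mp h5 with h6 | h6
      · rcases mul_eq_zero.mp h6 with h7 | h7
        · exact absurd h7 hG
        · exact h7
      · exact absurd h6 hG
    have hline : Continuous fun s : ℝ => x + s • D.e := by fun_prop
    have hpcont : Continuous fun s : ℝ => MvPolynomial.eval (x + s • D.e) D.p :=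
      (MvPolynomial.continuous_eval _).comp hline
    have hp0 : MvPolynomial.eval (x + s0 • D.e) D.p = 0 := by
      have htend : Filter.Tendsto (fun s : ℝ => MvPolynomial.eval (x + s • D.e) D.p)
          (nhdsWithin s0 (Set.Ioi s0)) (nhds (MvPolynomial.eval (x + s0 • D.e) D.p)) :=
        (hpcont.tendsto s0).mono_left nhdsWithin_le_nhds
      have htend2 : Filter.Tendsto (fun s : ℝ => MvPolynomial.eval (x + s • D.e) D.p)
          (nhdsWithin s0 (Set.Ioi s0)) (nhds 0) := by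
        have hup : Filter.Tendsto (fun s : ℝ => (D.M (x + s • D.e)).det *
            lowTr (D.M (x + s • D.e)).adjugate * (D.aa * s - b))
            (nhdsWithin s0 (Set.Ioi s0)) (nhds 0) := by
          have hMc : Continuous fun s : ℝ => D.M (x + s • D.e) := D.continuous_M.comp hline
          have hc : Continuous fun s : ℝ => (D.M (x + s • D.e)).det *
            lowTr (D.M (x + s • D.e)).adjugate * (D.aa * s - b) := by
            have h1 : Continuous fun s : ℝ => (D.M (x + s • D.e)).det := hMc.matrix_det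
            have h2 : Continuous fun s : ℝ => lowTr (D.M (x + s • D.e)).adjugate := by
              unfold lowTr
              exact continuous_finsetSum _ fun i _ => (hMc.matrix_adjugate).matrix_elem _ _
            fun_prop
          have := (hc.tendsto s0).mono_left (nhdsWithin_le_nhds (s := Set.Ioi s0))
          rwa [hdet0, zero_mul, zero_mul] at this
        refine tendsto_of_tendsto_of_tendsto_of_le_of_le' tendsto_const_nhds hup ?_ ?_
        · filter_upwards [self_mem_nhdsWithin] with s hs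
          have hpds := hpd s hs
          rw [pA_eq_of_posDef _ _ hpds]
          have h3 := hpds.det_pos
          have h4 := lowTr_inv_pos D.n_pos hpds
          have h5 := hT s hs
          positivity
        · filter_upwards [self_mem_nhdsWithin] with s hs
          have hpds := hpd s hs
          rw [pA_eq_of_posDef _ _ hpds, adj_eq hpds.det_pos.ne', lowTr_smul]
          have h3 := hpds.det_pos
          have h4 := lowTr_inv_pos D.n_pos hpds
          have h5 := hb s hpds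
          calc (D.M (x + s • D.e)).det ^ 2 * lowTr (D.M (x + s • D.e))⁻¹ * D.F (x + s • D.e)
              ≤ (D.M (x + s • D.e)).det ^ 2 * lowTr (D.M (x + s • D.e))⁻¹ * (D.aa * s - b) :=
                mul_le_mul_of_nonneg_left h5 (by positivity)
            _ = _ := by ring
      exact tendsto_nhds_unique htend htend2
    exact hp s0 hs0pos hp0
  have hpd : ∀ s : ℝ, 0 < s → (D.M (x + s • D.e)).PosDef := fun s hs =>
    (hA s).mpr fun j => by have := hμ j; linarith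
  exact ⟨hpd s hs, hTpos 0 le_rfl hpd s hs⟩

theorem closedCone_eq_of (h2 : D.K2) : Hyperbolic.closedCone D.p D.e = closure D.K0 := by
  apply Set.Subset.antisymm
  · intro x hx
    have hc : Filter.Tendsto (fun s : ℝ => x + s • D.e) (nhdsWithin 0 (Set.Ioi 0)) (nhds x) := by
      have : Continuous fun s : ℝ => x + s • D.e := by fun_prop
      have := (this.tendsto 0).mono_left (nhdsWithin_le_nhds (s := Set.Ioi 0))
      simpa using this
    refine mem_closure_of_tendsto hc ?_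
    filter_upwards [self_mem_nhdsWithin] with s hs
    exact of_mem_closedCone h2 hx hs
  · exact closure_subset h2

/-- **Theorem H** from K1, K2 -/
theorem theoremH (h1 : D.K1) (h2 : D.K2) :
    Hyperbolic.IsHyperbolic D.p D.e ∧ Hyperbolic.closedCone D.p D.e = closure D.K0 :=
  ⟨isHyperbolic_of h1, closedCone_eq_of h2⟩

end HData

end Crest.Agent.R237
end

-- ▼ part R237/H823Key
section

set_option autoImplicit false
set_option linter.unusedSectionVars false
set_option linter.unusedVariables false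

namespace Crest.Agent.R237

open Matrix

namespace HData

variable {m n d : ℕ} (D : HData m n d)

section field
variable {K : Type*} [Field K] [Algebra ℝ K]
variable (x : Fin m → ℝ) (V : Matrix (Fin (n + 1)) (Fin (n + 1)) ℝ) (lam : Fin (n + 1) → ℝ)

local notation "ι" => algebraMap ℝ K

/-- the resolvent. -/
def Rz (K : Type*) [Field K] [Algebra ℝ K] (V : Matrix (Fin (n + 1)) (Fin (n + 1)) ℝ)
    (lam : Fin (n + 1) → ℝ) (z : K) : Matrix (Fin (n + 1)) (Fin (n + 1)) K :=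
  V.map (algebraMap ℝ K) * diagonal (fun k => (z - algebraMap ℝ K (lam k))⁻¹) *
    (V.map (algebraMap ℝ K))ᵀ

/-- `τ = A T_e - T_x`. -/
def tau : Matrix (Fin (n + 1)) (Fin d) ℝ := D.M x * D.T D.e - D.T x

def Zk : Matrix (Fin (n + 1)) (Fin d) ℝ := Vᵀ * D.tau x

def Xk (k : Fin (n + 1)) : Matrix (Fin n) (Fin d) ℝ := fun i a => V i.succ k * D.Zk x V k a

def wk (V : Matrix (Fin (n + 1)) (Fin (n + 1)) ℝ) (k : Fin (n + 1)) : ℝ :=
  ∑ i : Fin n, (V i.succ k) ^ 2

def phk (k : Fin (n + 1)) : ℝ := D.phi * ∑ a, (D.Zk x V k a) ^ 2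

theorem map_mul_V (hV1 : Vᵀ * V = 1) :
    (V.map (algebraMap ℝ K))ᵀ * V.map (algebraMap ℝ K) = 1 := by
  rw [← Matrix.transpose_map, ← Matrix.map_mul, hV1]
  ext i j
  rw [Matrix.map_apply, Matrix.one_apply, Matrix.one_apply]
  split_ifs <;> simp

theorem map_mul_V' (hV2 : V * Vᵀ = 1) :
    V.map (algebraMap ℝ K) * (V.map (algebraMap ℝ K))ᵀ = 1 := by
  rw [← Matrix.transpose_map, ← Matrix.map_mul, hV2]
  ext i j
  rw [Matrix.map_apply, Matrix.one_apply, Matrix.one_apply]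
  split_ifs <;> simp

theorem MA_diag (hV2 : V * Vᵀ = 1) (hA : D.M x = V * diagonal lam * Vᵀ) (z : K) :
    D.MA (D.pt z x) = V.map (algebraMap ℝ K) *
      diagonal (fun k => z - algebraMap ℝ K (lam k)) * (V.map (algebraMap ℝ K))ᵀ := by
  rw [MA_pt, hA, Matrix.map_mul, Matrix.map_mul, Matrix.transpose_map]
  have h1 : (diagonal lam).map (algebraMap ℝ K) = diagonal (fun k => algebraMap ℝ K (lam k)) := by
    rw [Matrix.diagonal_map (map_zero _)]
  have h2 : diagonal (fun k => z - algebraMap ℝ K (lam k)) =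
      z • (1 : Matrix (Fin (n + 1)) (Fin (n + 1)) K) - diagonal (fun k => algebraMap ℝ K (lam k)) := by
    rw [← Matrix.diagonal_one, ← Matrix.diagonal_smul, Matrix.diagonal_sub]
    congr 1
    ext k
    simp
  rw [h1, h2, Matrix.mul_sub, Matrix.sub_mul, Matrix.mul_smul, Matrix.mul_one, Matrix.smul_mul,
    map_mul_V' V hV2]

theorem MA_mul_Rz (hV1 : Vᵀ * V = 1) (hV2 : V * Vᵀ = 1) (hA : D.M x = V * diagonal lam * Vᵀ)
    (z : K) (hz : ∀ k, z ≠ algebraMap ℝ K (lam k)) :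
    D.MA (D.pt z x) * Rz K V lam z = 1 := by
  rw [MA_diag D x V lam hV2 hA]
  unfold Rz
  have h1 : diagonal (fun k => z - algebraMap ℝ K (lam k)) *
      diagonal (fun k => (z - algebraMap ℝ K (lam k))⁻¹) = 1 := by
    rw [Matrix.diagonal_mul_diagonal, ← Matrix.diagonal_one]
    congr 1
    ext k
    exact mul_inv_cancel₀ (sub_ne_zero.2 (hz k))
  calc _ = V.map (algebraMap ℝ K) * (diagonal (fun k => z - algebraMap ℝ K (lam k)) *
        (((V.map (algebraMap ℝ K))ᵀ * V.map (algebraMap ℝ K)) *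
          diagonal (fun k => (z - algebraMap ℝ K (lam k))⁻¹))) * (V.map (algebraMap ℝ K))ᵀ := by
        simp only [Matrix.mul_assoc]
    _ = 1 := by
        rw [map_mul_V V hV1, Matrix.one_mul, h1, Matrix.mul_one, map_mul_V' V hV2]

theorem inv_MA (hV1 : Vᵀ * V = 1) (hV2 : V * Vᵀ = 1) (hA : D.M x = V * diagonal lam * Vᵀ)
    (z : K) (hz : ∀ k, z ≠ algebraMap ℝ K (lam k)) :
    (D.MA (D.pt z x))⁻¹ = Rz K V lam z :=
  Matrix.inv_eq_right_inv (MA_mul_Rz D x V lam hV1 hV2 hA z hz)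

theorem det_MA_ne (hV1 : Vᵀ * V = 1) (hV2 : V * Vᵀ = 1) (hA : D.M x = V * diagonal lam * Vᵀ)
    (z : K) (hz : ∀ k, z ≠ algebraMap ℝ K (lam k)) : (D.MA (D.pt z x)).det ≠ 0 := by
  have h := MA_mul_Rz D x V lam hV1 hV2 hA z hz
  intro h0
  have h1 := congrArg Matrix.det h
  rw [Matrix.det_mul, h0, zero_mul, Matrix.det_one] at h1
  exact zero_ne_one h1

theorem Rz_transpose (z : K) : (Rz K V lam z)ᵀ = Rz K V lam z := by
  unfold Rz
  rw [Matrix.transpose_mul, Matrix.transpose_mul, Matrix.transpose_transpose,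
    Matrix.diagonal_transpose, Matrix.mul_assoc]

theorem lowTr_Rz (z : K) :
    lowTr (Rz K V lam z) = ∑ k, algebraMap ℝ K (wk V k) / (z - algebraMap ℝ K (lam k)) := by
  unfold lowTr Rz wk
  have h : ∀ i : Fin (n + 1), (V.map (algebraMap ℝ K) *
      diagonal (fun k => (z - algebraMap ℝ K (lam k))⁻¹) * (V.map (algebraMap ℝ K))ᵀ) i i =
      ∑ k, algebraMap ℝ K (V i k) * (z - algebraMap ℝ K (lam k))⁻¹ * algebraMap ℝ K (V i k) := by
    intro i
    rw [Matrix.mul_apply]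
    simp only [Matrix.mul_diagonal, Matrix.map_apply, Matrix.transpose_apply]
  simp only [h]
  rw [Finset.sum_comm]
  refine Finset.sum_congr rfl fun k _ => ?_
  rw [map_sum, Finset.sum_div]
  refine Finset.sum_congr rfl fun i _ => ?_
  rw [map_pow, div_eq_mul_inv]
  ring

theorem TA_split (z : K) :
    D.TA (D.pt z x) = D.MA (D.pt z x) * (D.T D.e).map (algebraMap ℝ K)
      + (D.tau x).map (algebraMap ℝ K) := by
  rw [TA_pt, MA_pt, Matrix.sub_mul, Matrix.smul_mul, Matrix.one_mul]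
  unfold tau
  rw [← Matrix.map_mul, Matrix.map_sub _ (fun a b => map_sub _ a b)]
  abel

theorem Rz_TA (hV1 : Vᵀ * V = 1) (hV2 : V * Vᵀ = 1) (hA : D.M x = V * diagonal lam * Vᵀ)
    (z : K) (hz : ∀ k, z ≠ algebraMap ℝ K (lam k)) :
    Rz K V lam z * D.TA (D.pt z x) = (D.T D.e).map (algebraMap ℝ K)
      + Rz K V lam z * (D.tau x).map (algebraMap ℝ K) := by
  have h := MA_mul_Rz D x V lam hV1 hV2 hA z hz
  have h' : Rz K V lam z * D.MA (D.pt z x) = 1 := mul_eq_one_comm.1 h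
  rw [TA_split, Matrix.mul_add, ← Matrix.mul_assoc, h', Matrix.one_mul]

theorem Rz_tau (z : K) :
    Rz K V lam z * (D.tau x).map (algebraMap ℝ K) = V.map (algebraMap ℝ K) *
      (diagonal (fun k => (z - algebraMap ℝ K (lam k))⁻¹) *
        (D.Zk x V).map (algebraMap ℝ K)) := by
  unfold Rz Zk
  rw [Matrix.map_mul, Matrix.transpose_map]
  simp only [Matrix.mul_assoc]

theorem low_Rz_tau (z : K) :
    (Rz K V lam z * (D.tau x).map (algebraMap ℝ K)).submatrix Fin.succ id =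
      ∑ k, (z - algebraMap ℝ K (lam k))⁻¹ • (D.Xk x V k).map (algebraMap ℝ K) := by
  rw [Rz_tau]
  ext i a
  rw [Matrix.submatrix_apply, Matrix.sum_apply, Matrix.mul_apply]
  refine Finset.sum_congr rfl fun k _ => ?_
  rw [Matrix.diagonal_mul, Matrix.smul_apply, Matrix.map_apply, Matrix.map_apply,
    Matrix.map_apply, Xk, map_mul, smul_eq_mul]
  simp only [id]
  ring

theorem tr_tau (z : K) :
    (((D.tau x).map (algebraMap ℝ K))ᵀ * (Rz K V lam z * (D.tau x).map (algebraMap ℝ K))).trace =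
      ∑ k, algebraMap ℝ K (∑ a, (D.Zk x V k a) ^ 2) / (z - algebraMap ℝ K (lam k)) := by
  have h1 : ((D.tau x).map (algebraMap ℝ K))ᵀ * (Rz K V lam z * (D.tau x).map (algebraMap ℝ K)) =
      ((D.Zk x V).map (algebraMap ℝ K))ᵀ * (diagonal (fun k => (z - algebraMap ℝ K (lam k))⁻¹) *
        (D.Zk x V).map (algebraMap ℝ K)) := by
    rw [Rz_tau, ← Matrix.mul_assoc]
    congr 1
    unfold Zk
    rw [Matrix.map_mul, Matrix.transpose_mul, Matrix.transpose_map, Matrix.transpose_transpose]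
  rw [h1, Matrix.trace]
  simp only [Matrix.diag_apply, Matrix.mul_apply (M := ((D.Zk x V).map (algebraMap ℝ K))ᵀ),
    Matrix.diagonal_mul, Matrix.transpose_apply, Matrix.map_apply]
  rw [Finset.sum_comm]
  refine Finset.sum_congr rfl fun k _ => ?_
  rw [map_sum, Finset.sum_div]
  refine Finset.sum_congr rfl fun a _ => ?_
  rw [map_pow, div_eq_mul_inv]
  ring

/-- the real constant `b`. -/
def bb : ℝ := D.phi * (- D.w x + ((D.T x)ᵀ * D.T D.e).trace - ((D.T D.e)ᵀ * D.tau x).trace)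

theorem tr_Te : ((D.T D.e)ᵀ * D.T D.e).trace = ∑ a, (D.T D.e 0 a) ^ 2 := by
  simp only [Matrix.trace, Matrix.diag, Matrix.mul_apply, transpose_apply]
  refine Finset.sum_congr rfl fun a _ => ?_
  rw [Fin.sum_univ_succ]
  simp [D.T_e, sq]

theorem tr_map {P Q : ℕ} (B C : Matrix (Fin P) (Fin Q) ℝ) :
    ((B.map (algebraMap ℝ K))ᵀ * C.map (algebraMap ℝ K)).trace =
      algebraMap ℝ K ((Bᵀ * C).trace) := by
  rw [← Matrix.transpose_map, ← Matrix.map_mul, Matrix.trace, Matrix.trace, map_sum]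
  rfl

theorem tr_TA (hV1 : Vᵀ * V = 1) (hV2 : V * Vᵀ = 1) (hA : D.M x = V * diagonal lam * Vᵀ)
    (z : K) (hz : ∀ k, z ≠ algebraMap ℝ K (lam k)) :
    ((D.TA (D.pt z x))ᵀ * Rz K V lam z * D.TA (D.pt z x)).trace =
      z * algebraMap ℝ K (∑ a, (D.T D.e 0 a) ^ 2) - algebraMap ℝ K (((D.T x)ᵀ * D.T D.e).trace)
      + algebraMap ℝ K (((D.T D.e)ᵀ * D.tau x).trace)
      + ∑ k, algebraMap ℝ K (∑ a, (D.Zk x V k a) ^ 2) / (z - algebraMap ℝ K (lam k)) := by
  have h1 : ((D.TA (D.pt z x))ᵀ * Rz K V lam z * D.TA (D.pt z x)) =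
      (D.TA (D.pt z x))ᵀ * (D.T D.e).map (algebraMap ℝ K) +
      (Rz K V lam z * D.TA (D.pt z x))ᵀ * (D.tau x).map (algebraMap ℝ K) := by
    rw [Matrix.mul_assoc, Rz_TA D x V lam hV1 hV2 hA z hz, Matrix.mul_add]
    congr 1
    rw [← Rz_TA D x V lam hV1 hV2 hA z hz, Matrix.transpose_mul, Rz_transpose, Matrix.mul_assoc]
  rw [h1, Rz_TA D x V lam hV1 hV2 hA z hz, Matrix.transpose_add, Matrix.add_mul, Matrix.trace_add,
    Matrix.trace_add, tr_map, TA_pt, Matrix.transpose_sub, Matrix.transpose_smul, Matrix.sub_mul,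
    Matrix.smul_mul, Matrix.trace_sub, Matrix.trace_smul, tr_map, tr_map, tr_Te]
  have h2 : ((Rz K V lam z * (D.tau x).map (algebraMap ℝ K))ᵀ *
      (D.tau x).map (algebraMap ℝ K)).trace = 
      ∑ k, algebraMap ℝ K (∑ a, (D.Zk x V k a) ^ 2) / (z - algebraMap ℝ K (lam k)) := by
    rw [← tr_tau, ← Matrix.trace_transpose, Matrix.transpose_mul, Matrix.transpose_transpose]
  rw [h2, smul_eq_mul]
  ring

theorem low_Rz_TA (hV1 : Vᵀ * V = 1) (hV2 : V * Vᵀ = 1) (hA : D.M x = V * diagonal lam * Vᵀ)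
    (z : K) (hz : ∀ k, z ≠ algebraMap ℝ K (lam k)) :
    (Rz K V lam z * D.TA (D.pt z x)).submatrix Fin.succ id =
      ∑ k, (z - algebraMap ℝ K (lam k))⁻¹ • (D.Xk x V k).map (algebraMap ℝ K) := by
  rw [Rz_TA D x V lam hV1 hV2 hA z hz, ← low_Rz_tau]
  ext i a
  simp [D.T_e]

/-- the rational function at `z e - x` -/
theorem FA_eq (hV1 : Vᵀ * V = 1) (hV2 : V * Vᵀ = 1) (hA : D.M x = V * diagonal lam * Vᵀ)
    (z : K) (hz : ∀ k, z ≠ algebraMap ℝ K (lam k)) :
    algebraMap ℝ K D.phi * (D.wA (D.pt z x) -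
        ((D.TA (D.pt z x))ᵀ * (D.MA (D.pt z x))⁻¹ * D.TA (D.pt z x)).trace) +
      D.XiA (((D.MA (D.pt z x))⁻¹ * D.TA (D.pt z x)).submatrix Fin.succ id) /
        lowTr (D.MA (D.pt z x))⁻¹ =
    algebraMap ℝ K D.aa * z + algebraMap ℝ K (D.bb x) +
      ((∑ k, ∑ l, algebraMap ℝ K (D.Xi (D.Xk x V k) (D.Xk x V l)) /
          ((z - algebraMap ℝ K (lam k)) * (z - algebraMap ℝ K (lam l)))) /
        (∑ k, algebraMap ℝ K (wk V k) / (z - algebraMap ℝ K (lam k)))
      - ∑ k, algebraMap ℝ K (D.phk x V k) / (z - algebraMap ℝ K (lam k))) := by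
  rw [inv_MA D x V lam hV1 hV2 hA z hz, lowTr_Rz, tr_TA D x V lam hV1 hV2 hA z hz, wA_pt,
    low_Rz_TA D x V lam hV1 hV2 hA z hz, XiA_comb]
  have h1 : ∀ k l, (z - algebraMap ℝ K (lam k))⁻¹ * (z - algebraMap ℝ K (lam l))⁻¹ *
      algebraMap ℝ K (D.Xi (D.Xk x V k) (D.Xk x V l)) =
      algebraMap ℝ K (D.Xi (D.Xk x V k) (D.Xk x V l)) /
          ((z - algebraMap ℝ K (lam k)) * (z - algebraMap ℝ K (lam l))) := by
    intro k l
    rw [div_eq_mul_inv, mul_inv]; ring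
  simp only [h1]
  have h2 : ∑ k, algebraMap ℝ K (D.phk x V k) / (z - algebraMap ℝ K (lam k)) =
      algebraMap ℝ K D.phi *
        ∑ k, algebraMap ℝ K (∑ a, (D.Zk x V k a) ^ 2) / (z - algebraMap ℝ K (lam k)) := by
    rw [Finset.mul_sum]
    refine Finset.sum_congr rfl fun k _ => ?_
    rw [phk, map_mul]; ring
  rw [h2]
  unfold aa bb
  simp only [map_mul, map_sub, map_add, map_neg]
  ring

end field

end HData

end Crest.Agent.R237
end

-- ▼ part R237/H823Final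
section

set_option autoImplicit false
set_option linter.unusedSectionVars false
set_option linter.unusedVariables false

namespace Crest.Agent.R237

open Matrix

namespace HData

variable {m n d : ℕ} (D : HData m n d)
variable (x : Fin m → ℝ) (V : Matrix (Fin (n + 1)) (Fin (n + 1)) ℝ) (lam : Fin (n + 1) → ℝ)

theorem wk_nonneg (k : Fin (n + 1)) : 0 ≤ wk V k := Finset.sum_nonneg fun i _ => sq_nonneg _

theorem V_eq_zero {k : Fin (n + 1)} (h : wk V k = 0) (i : Fin n) : V i.succ k = 0 := by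
  have h1 := (Finset.sum_eq_zero_iff_of_nonneg (fun i _ => sq_nonneg (V i.succ k))).1 h i
    (Finset.mem_univ i)
  exact pow_eq_zero_iff (two_ne_zero) |>.1 h1

theorem row_orth (hV2 : V * Vᵀ = 1) (r s : Fin (n + 1)) :
    ∑ k, V r k * V s k = (1 : Matrix (Fin (n + 1)) (Fin (n + 1)) ℝ) r s := by
  rw [← hV2, Matrix.mul_apply]
  rfl

theorem exists_wk_pos (hn : 0 < n) (hV2 : V * Vᵀ = 1) : ∃ k, 0 < wk V k := by
  by_contra hcon
  push Not at hcon
  have h0 : ∀ k, wk V k = 0 := fun k => le_antisymm (hcon k) (wk_nonneg V k)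
  let i : Fin n := ⟨0, hn⟩
  have h1 := row_orth V hV2 i.succ i.succ
  rw [Matrix.one_apply_eq] at h1
  have h2 : ∑ k, V i.succ k * V i.succ k = 0 := by
    apply Finset.sum_eq_zero
    intro k _
    rw [V_eq_zero V (h0 k) i]; ring
  rw [h2] at h1
  exact zero_ne_one h1

theorem phk_nonneg (k : Fin (n + 1)) : 0 ≤ D.phk x V k :=
  mul_nonneg D.phi_pos.le (Finset.sum_nonneg fun a _ => sq_nonneg _)

theorem Xk_eq_zero {k : Fin (n + 1)} (h : wk V k = 0) : D.Xk x V k = 0 := by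
  ext i a
  rw [Xk, V_eq_zero V h i, zero_mul]
  rfl

theorem Xi_le (s : Finset (Fin (n + 1))) :
    D.Xi (∑ k ∈ s, D.Xk x V k) (∑ k ∈ s, D.Xk x V k) ≤
      (∑ k ∈ s, wk V k) * (∑ k ∈ s, D.phk x V k) := by
  refine (D.H1 _).trans ?_
  have h1 : ∀ i a, ((∑ k ∈ s, D.Xk x V k) i a) ^ 2 ≤
      (∑ k ∈ s, (V i.succ k) ^ 2) * (∑ k ∈ s, (D.Zk x V k a) ^ 2) := by
    intro i a
    rw [Matrix.sum_apply]
    exact Finset.sum_mul_sq_le_sq_mul_sq s (fun k => V i.succ k) (fun k => D.Zk x V k a)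
  have h2 : ∑ i, ∑ a, ((∑ k ∈ s, D.Xk x V k) i a) ^ 2 ≤
      (∑ k ∈ s, wk V k) * (∑ k ∈ s, ∑ a, (D.Zk x V k a) ^ 2) := by
    calc ∑ i, ∑ a, ((∑ k ∈ s, D.Xk x V k) i a) ^ 2
        ≤ ∑ i : Fin n, ∑ a, (∑ k ∈ s, (V i.succ k) ^ 2) * (∑ k ∈ s, (D.Zk x V k a) ^ 2) :=
          Finset.sum_le_sum fun i _ => Finset.sum_le_sum fun a _ => h1 i a
      _ = (∑ i : Fin n, ∑ k ∈ s, (V i.succ k) ^ 2) * (∑ a, ∑ k ∈ s, (D.Zk x V k a) ^ 2) := by
          rw [Finset.sum_mul_sum]
      _ = _ := by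
          congr 1
          · rw [Finset.sum_comm]; rfl
          · rw [Finset.sum_comm]
  calc D.phi * ∑ i, ∑ a, ((∑ k ∈ s, D.Xk x V k) i a) ^ 2
      ≤ D.phi * ((∑ k ∈ s, wk V k) * (∑ k ∈ s, ∑ a, (D.Zk x V k a) ^ 2)) :=
        mul_le_mul_of_nonneg_left h2 D.phi_pos.le
    _ = _ := by
        unfold phk
        rw [← Finset.mul_sum]
        ring

/-- case A of the residue positivity. -/
theorem beta_A (hV1 : Vᵀ * V = 1) (hV2 : V * Vᵀ = 1) (hA : D.M x = V * diagonal lam * Vᵀ)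
    (t : ℝ) (ht : ∀ k, t ≠ lam k) (hN : ∑ k, wk V k * (t - lam k)⁻¹ = 0) :
    0 ≤ D.Xi (∑ k, (t - lam k)⁻¹ • D.Xk x V k) (∑ k, (t - lam k)⁻¹ • D.Xk x V k) := by
  have ht' : ∀ k, t ≠ algebraMap ℝ ℝ (lam k) := ht
  have h1 := det_MA_ne D x V lam hV1 hV2 hA t ht'
  have h2 := inv_MA D x V lam hV1 hV2 hA t ht'
  have h3 := lowTr_Rz (K := ℝ) V lam t
  have h4 := low_Rz_TA D x V lam hV1 hV2 hA t ht'
  rw [MA_real] at h1 h2
  rw [TA_real, ← h2] at h4
  have h5 : lowTr (D.M (D.pt t x))⁻¹ = 0 := by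
    rw [h2, h3, ← hN]
    refine Finset.sum_congr rfl fun k _ => ?_
    rw [div_eq_mul_inv]; rfl
  have h6 := D.H2 (D.pt t x) h1 h5
  have h7 : ∑ k, (t - algebraMap ℝ ℝ (lam k))⁻¹ • (D.Xk x V k).map (algebraMap ℝ ℝ) =
      ∑ k, (t - lam k)⁻¹ • D.Xk x V k := by
    refine Finset.sum_congr rfl fun k _ => ?_
    congr 1
  rw [h4, h7] at h6
  exact h6

/-- case B of the residue positivity. -/
theorem beta_B (hV1 : Vᵀ * V = 1) (hV2 : V * Vᵀ = 1) (hA : D.M x = V * diagonal lam * Vᵀ)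
    (t : ℝ) (k0 : Fin (n + 1)) (hk0 : t = lam k0) (ht : ∀ k, t = lam k → wk V k = 0)
    (hN : ∑ k, wk V k * (t - lam k)⁻¹ = 0) :
    0 ≤ D.Xi (∑ k, (t - lam k)⁻¹ • D.Xk x V k) (∑ k, (t - lam k)⁻¹ • D.Xk x V k) := by
  -- y = t e - x
  have hMy : D.M (D.pt t x) = V * diagonal (fun k => t - lam k) * Vᵀ := by
    have h := MA_diag D x V lam hV2 hA t
    rw [MA_real] at h
    exact h
  have hMyV : D.M (D.pt t x) * V = V * diagonal (fun k => t - lam k) := by
    rw [hMy, Matrix.mul_assoc, hV1, Matrix.mul_one]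
  have hMsymm := D.M_symm (D.pt t x)
  have hv0 : V 0 k0 ≠ 0 := by
    intro h0
    have h1 : (Vᵀ * V) k0 k0 = 1 := by rw [hV1, Matrix.one_apply_eq]
    rw [Matrix.mul_apply, Fin.sum_univ_succ] at h1
    simp only [Matrix.transpose_apply, h0, V_eq_zero V (ht k0 hk0)] at h1
    simp at h1
  have hcol : ∀ r, D.M (D.pt t x) r 0 = 0 := by
    intro r
    have h1 : (D.M (D.pt t x) * V) r k0 = 0 := by
      rw [hMyV, Matrix.mul_diagonal, hk0, sub_self, mul_zero]
    rw [Matrix.mul_apply, Fin.sum_univ_succ] at h1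
    simp only [V_eq_zero V (ht k0 hk0), mul_zero, Finset.sum_const_zero, add_zero] at h1
    rcases mul_eq_zero.1 h1 with h2 | h2
    · exact h2
    · exact absurd h2 hv0
  have hrow : ∀ r, D.M (D.pt t x) 0 r = 0 := by
    intro r
    have := hMsymm.apply r 0
    rw [this]; exact hcol r
  -- products vanish
  have hprod : ∀ (i : Fin n) k, V i.succ k * V 0 k = 0 := by
    intro i k
    have h1 : (D.M (D.pt t x) * V) 0 k = V 0 k * (t - lam k) := by
      rw [hMyV, Matrix.mul_diagonal]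
    rw [Matrix.mul_apply] at h1
    simp only [hrow, zero_mul, Finset.sum_const_zero] at h1
    rcases mul_eq_zero.1 h1.symm with h2 | h2
    · rw [h2, mul_zero]
    · rw [V_eq_zero V (ht k (sub_eq_zero.1 h2)) i, zero_mul]
  set B : Matrix (Fin n) (Fin n) ℝ := fun i j => ∑ k, V i.succ k * (t - lam k)⁻¹ * V j.succ k with hB
  set L : Matrix (Fin n) (Fin n) ℝ := (D.M (D.pt t x)).submatrix Fin.succ Fin.succ with hL
  have hLapp : ∀ i j, L i j = ∑ k, V i.succ k * (t - lam k) * V j.succ k := by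
    intro i j
    rw [hL, Matrix.submatrix_apply, hMy, Matrix.mul_apply]
    simp only [Matrix.mul_diagonal, Matrix.transpose_apply]
  have hLB : L * B = 1 := by
    ext i j
    rw [Matrix.mul_apply]
    have h1 : ∀ l : Fin n, L i l * B l j =
        ∑ k, ∑ k', V i.succ k * (t - lam k) * (V l.succ k * V l.succ k') *
          ((t - lam k')⁻¹ * V j.succ k') := by
      intro l
      rw [hLapp, hB, Finset.sum_mul_sum]
      refine Finset.sum_congr rfl fun k _ => Finset.sum_congr rfl fun k' _ => by ring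
    simp only [h1]
    rw [Finset.sum_comm]
    have h2 : ∀ k, ∑ l : Fin n, ∑ k', V i.succ k * (t - lam k) * (V l.succ k * V l.succ k') *
          ((t - lam k')⁻¹ * V j.succ k') = V i.succ k * V j.succ k := by
      intro k
      rw [Finset.sum_comm]
      have h3 : ∀ k', ∑ l : Fin n, V i.succ k * (t - lam k) * (V l.succ k * V l.succ k') *
          ((t - lam k')⁻¹ * V j.succ k') =
          V i.succ k * (t - lam k) * ((1 : Matrix (Fin (n + 1)) (Fin (n + 1)) ℝ) k k') *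
          ((t - lam k')⁻¹ * V j.succ k') := by
        intro k'
        rw [← Finset.sum_mul, ← Finset.mul_sum]
        have h4 : (1 : Matrix (Fin (n + 1)) (Fin (n + 1)) ℝ) k k' =
            V 0 k * V 0 k' + ∑ l : Fin n, V l.succ k * V l.succ k' := by
          rw [← hV1, Matrix.mul_apply, Fin.sum_univ_succ]
          rfl
        rw [h4]
        have h5 := hprod i k
        have h6 : V i.succ k * (t - lam k) * (V 0 k * V 0 k' +
            ∑ l : Fin n, V l.succ k * V l.succ k') = V i.succ k * (t - lam k) *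
            (∑ l : Fin n, V l.succ k * V l.succ k') + (V i.succ k * V 0 k) * (t - lam k) * V 0 k' := by
          ring
        rw [h6, h5]
        ring
      simp only [h3]
      rw [Finset.sum_eq_single k]
      · rw [Matrix.one_apply_eq]
        by_cases hk : t = lam k
        · rw [V_eq_zero V (ht k hk) i]; ring
        · have : t - lam k ≠ 0 := sub_ne_zero.2 hk
          field_simp
      · intro k' _ hk'
        rw [Matrix.one_apply_ne hk'.symm]; ring
      · simp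
    simp only [h2]
    rw [row_orth V hV2, Matrix.one_apply, Matrix.one_apply]
    simp [Fin.succ_inj]
  have hLdet : L.det ≠ 0 := by
    intro h0
    have h1 := congrArg Matrix.det hLB
    rw [Matrix.det_mul, h0, zero_mul, Matrix.det_one] at h1
    exact zero_ne_one h1
  have hLinv : L⁻¹ = B := Matrix.inv_eq_right_inv hLB
  have htrB : L⁻¹.trace = 0 := by
    rw [hLinv, ← hN]
    show ∑ i, B i i = _
    simp only [hB, wk]
    rw [Finset.sum_comm]
    refine Finset.sum_congr rfl fun k _ => ?_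
    rw [Finset.sum_mul]
    refine Finset.sum_congr rfl fun i _ => by ring
  have hlin : L⁻¹ * (D.T (D.pt t x)).submatrix Fin.succ id =
      ∑ k, (t - lam k)⁻¹ • D.Xk x V k := by
    rw [hLinv]
    ext i a
    rw [Matrix.mul_apply, Matrix.sum_apply]
    have hTlow : ∀ j : Fin n, (D.T (D.pt t x)) j.succ a = D.tau x j.succ a := by
      intro j
      have h1 := D.TA_split x (K := ℝ) t
      rw [TA_real, MA_real] at h1
      rw [h1, Matrix.add_apply, Matrix.mul_apply, Fin.sum_univ_succ, hcol j.succ]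
      simp [D.T_e]
    simp only [Matrix.submatrix_apply, id, hTlow, hB, Matrix.smul_apply, smul_eq_mul, Xk, Zk,
      Matrix.mul_apply, Matrix.transpose_apply]
    have h2 : ∀ k, (t - lam k)⁻¹ * (V i.succ k * ∑ r, V r k * D.tau x r a) =
        ∑ j : Fin n, V i.succ k * (t - lam k)⁻¹ * V j.succ k * D.tau x j.succ a := by
      intro k
      rw [Fin.sum_univ_succ, mul_add, mul_add]
      have h3 : (t - lam k)⁻¹ * (V i.succ k * (V 0 k * D.tau x 0 a)) = 0 := by
        have := hprod i k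
        calc _ = (t - lam k)⁻¹ * ((V i.succ k * V 0 k) * D.tau x 0 a) := by ring
          _ = 0 := by rw [this]; ring
      rw [h3, zero_add, Finset.mul_sum, Finset.mul_sum]
      refine Finset.sum_congr rfl fun j _ => by ring
    simp only [h2]
    rw [Finset.sum_comm]
    refine Finset.sum_congr rfl fun j _ => ?_
    rw [Finset.sum_mul]
  have h := D.H2b (D.pt t x) (fun i => hrow _) hLdet htrB
  rw [hlin] at h
  exact h

/-- the partial fraction theorem. -/
theorem partial_frac (hV1 : Vᵀ * V = 1) (hV2 : V * Vᵀ = 1)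
    (hA : D.M x = V * diagonal lam * Vᵀ) :
    ∃ (S : Finset ℝ) (cf : ℝ → ℝ), (∀ r ∈ S, cf r ≤ 0) ∧ (∀ r ∈ S, ∃ k, lam k ≤ r) ∧
      ∀ z : ℂ, (∀ k, z ≠ lam k) → ∑ k, (wk V k : ℂ) / (z - lam k) ≠ 0 →
        (∑ k, ∑ l, (D.Xi (D.Xk x V k) (D.Xk x V l) : ℂ) / ((z - lam k) * (z - lam l)))
            / (∑ k, (wk V k : ℂ) / (z - lam k))
          - ∑ k, (D.phk x V k : ℂ) / (z - lam k) = ∑ r ∈ S, (cf r : ℂ) / (z - r) := by
  apply core_grouped D.Xi lam (wk V) (D.phk x V) (D.Xk x V) (wk_nonneg V)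
    (exists_wk_pos V D.n_pos hV2) (D.phk_nonneg x V) (fun k h => D.Xk_eq_zero x V h)
    (D.Xi_le x V)
  intro t ht hN
  by_cases h : ∀ k, t ≠ lam k
  · exact D.beta_A x V lam hV1 hV2 hA t h hN
  · push Not at h
    obtain ⟨k0, hk0⟩ := h
    exact D.beta_B x V lam hV1 hV2 hA t k0 hk0 ht hN

theorem k1 : D.K1 := by
  intro x z hz
  obtain ⟨V, lam, hV1, hV2, hA⟩ := exists_diag (D.M x) (D.M_symm x)
  obtain ⟨S, cf, hcf, -, hform⟩ := D.partial_frac x V lam hV1 hV2 hA
  have hzl : ∀ k, z ≠ algebraMap ℝ ℂ (lam k) := by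
    intro k h
    apply hz
    rw [h]; simp
  have hN : ∑ k, (wk V k : ℂ) / (z - lam k) ≠ 0 := by
    intro h
    exact hz (im_zero_of_sum_eq_zero lam (wk V) (wk_nonneg V)
      (exists_wk_pos V D.n_pos hV2) z h)
  have hdet := det_MA_ne D x V lam hV1 hV2 hA z hzl
  have hinv := inv_MA D x V lam hV1 hV2 hA z hzl
  have hlow := lowTr_Rz (K := ℂ) V lam z
  have hlow' : lowTr (D.MA (D.pt z x))⁻¹ ≠ 0 := by
    rw [hinv, hlow]; exact hN
  have hpt : (fun i => z * (D.e i : ℂ) - (x i : ℂ)) = D.pt z x := rfl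
  rw [hpt, D.pA_eq_field (D.pt z x) hdet hlow', FA_eq D x V lam hV1 hV2 hA z hzl]
  apply mul_ne_zero (mul_ne_zero (pow_ne_zero 2 hdet) hlow')
  have hf := hform z hzl hN
  have hre : algebraMap ℝ ℂ D.aa * z + algebraMap ℝ ℂ (D.bb x) +
      ((∑ k, ∑ l, algebraMap ℝ ℂ (D.Xi (D.Xk x V k) (D.Xk x V l)) /
          ((z - algebraMap ℝ ℂ (lam k)) * (z - algebraMap ℝ ℂ (lam l)))) /
        (∑ k, algebraMap ℝ ℂ (wk V k) / (z - algebraMap ℝ ℂ (lam k)))
      - ∑ k, algebraMap ℝ ℂ (D.phk x V k) / (z - algebraMap ℝ ℂ (lam k))) =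
      (D.aa : ℂ) * z + (D.bb x : ℂ) + ∑ r ∈ S, (cf r : ℂ) / (z - r) := by
    rw [← hf]; rfl
  rw [hre]
  intro h0
  have him := congrArg Complex.im h0
  rw [Complex.add_im, Complex.add_im, Complex.im_sum] at him
  have h1 : ∀ r ∈ S, ((cf r : ℂ) / (z - r)).im = - z.im * (cf r / Complex.normSq (z - r)) := by
    intro r _
    rw [Complex.div_im]
    simp
    ring
  rw [Finset.sum_congr rfl h1, ← Finset.mul_sum] at him
  have h2 : ((D.aa : ℂ) * z).im = D.aa * z.im := by simp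
  rw [h2] at him
  simp only [Complex.ofReal_im, add_zero, Complex.zero_im] at him
  have h3 : ∑ r ∈ S, cf r / Complex.normSq (z - r) ≤ 0 :=
    Finset.sum_nonpos fun r hr => div_nonpos_of_nonpos_of_nonneg (hcf r hr)
      (Complex.normSq_nonneg _)
  have h4 : z.im * (D.aa - ∑ r ∈ S, cf r / Complex.normSq (z - r)) = 0 := by
    linear_combination him
  rcases mul_eq_zero.1 h4 with h5 | h5
  · exact hz h5
  · have := D.aa_pos
    linarith

theorem F_neg (y : Fin m → ℝ) : D.F (-y) = - D.F y := by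
  have h1 : (D.M (-y))⁻¹ = - (D.M y)⁻¹ := by
    rw [map_neg]
    by_cases h : IsUnit (D.M y).det
    · apply Matrix.inv_eq_right_inv
      rw [neg_mul_neg, Matrix.mul_nonsing_inv _ h]
    · have h' : ¬ IsUnit (-(D.M y)).det := by
        rw [Matrix.det_neg]
        intro hu
        exact h (isUnit_of_mul_isUnit_right hu)
      rw [Matrix.nonsing_inv_apply_not_isUnit _ h, Matrix.nonsing_inv_apply_not_isUnit _ h',
        neg_zero]
  have h2 : D.lin (-y) = D.lin y := by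
    unfold lin
    rw [h1, map_neg, Matrix.neg_mul, Matrix.mul_neg, neg_neg]
  have h3 : lowTr (D.M (-y))⁻¹ = - lowTr (D.M y)⁻¹ := by
    rw [h1]; unfold lowTr; simp
  unfold F
  rw [h2, h3, h1, map_neg, map_neg]
  have h4 : ((-D.T y)ᵀ * -(D.M y)⁻¹ * -D.T y).trace = - ((D.T y)ᵀ * (D.M y)⁻¹ * D.T y).trace := by
    simp only [Matrix.transpose_neg, Matrix.neg_mul, Matrix.mul_neg, neg_neg, Matrix.trace_neg]
  rw [h4, div_neg]
  ring

theorem k2 : D.K2 := by
  intro x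
  obtain ⟨V, lam, hV1, hV2, hA⟩ := exists_diag (D.M x) (D.M_symm x)
  obtain ⟨S, cf, hcf, hS, hform⟩ := D.partial_frac x V lam hV1 hV2 hA
  refine ⟨S, cf, D.bb x, hcf, ?_⟩
  intro s hs
  have hpos : ∀ k, 0 < lam k + s := by
    intro k
    have h1 : Vᵀ * (D.M x + s • (1 : Matrix (Fin (n + 1)) (Fin (n + 1)) ℝ)) * V =
        diagonal (fun k => lam k + s) := by
      rw [hA, Matrix.mul_add, Matrix.add_mul]
      have h2 : Vᵀ * (V * diagonal lam * Vᵀ) * V = diagonal lam := by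
        calc _ = (Vᵀ * V) * diagonal lam * (Vᵀ * V) := by simp only [Matrix.mul_assoc]
          _ = _ := by rw [hV1]; simp
      have h3 : Vᵀ * (s • (1 : Matrix (Fin (n + 1)) (Fin (n + 1)) ℝ)) * V = diagonal (fun _ => s) := by
        rw [Matrix.mul_smul, Matrix.mul_one, Matrix.smul_mul, hV1]
        rw [← Matrix.diagonal_one, ← Matrix.diagonal_smul]
        congr 1; ext; simp
      rw [h2, h3, Matrix.diagonal_add]
    have h4 := hs.dotProduct_mulVec_pos (x := fun r => V r k) (by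
      intro h0
      have h5 : (Vᵀ * V) k k = 1 := by rw [hV1, Matrix.one_apply_eq]
      rw [Matrix.mul_apply] at h5
      have h6 : ∀ r, V r k = 0 := fun r => congrFun h0 r
      simp [h6] at h5)
    have h7 : (Vᵀ * (D.M x + s • (1 : Matrix (Fin (n + 1)) (Fin (n + 1)) ℝ)) * V) k k =
        lam k + s := by rw [h1, Matrix.diagonal_apply_eq]
    have h8 : (Vᵀ * (D.M x + s • (1 : Matrix (Fin (n + 1)) (Fin (n + 1)) ℝ)) * V) k k =
        star (fun r => V r k) ⬝ᵥ ((D.M x + s • (1 : Matrix (Fin (n + 1)) (Fin (n + 1)) ℝ)) *ᵥ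
          (fun r => V r k)) := by
      rw [Matrix.mul_assoc, Matrix.mul_apply]
      rfl
    rw [← h7, h8]
    exact h4
  have hSpos : ∀ r ∈ S, 0 < s + r := by
    intro r hr
    obtain ⟨k, hk⟩ := hS r hr
    have := hpos k
    linarith
  refine ⟨hSpos, ?_⟩
  have htl : ∀ k, -s ≠ algebraMap ℝ ℝ (lam k) := by
    intro k h
    have h1 : -s = lam k := h
    have := hpos k
    linarith
  have hzl : ∀ k, ((-s : ℝ) : ℂ) ≠ lam k := by
    intro k h
    exact htl k (Complex.ofReal_injective h)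
  have hNr : ∑ k, wk V k / (-s - lam k) < 0 := by
    obtain ⟨k0, hk0⟩ := exists_wk_pos V D.n_pos hV2
    have h1 : ∑ k, wk V k / (-s - lam k) = - ∑ k, wk V k / (lam k + s) := by
      rw [← Finset.sum_neg_distrib]
      refine Finset.sum_congr rfl fun k _ => ?_
      rw [← div_neg]; congr 1; ring
    rw [h1, neg_lt_zero]
    apply Finset.sum_pos'
    · intro k _; exact div_nonneg (wk_nonneg V k) (hpos k).le
    · exact ⟨k0, Finset.mem_univ _, div_pos hk0 (hpos k0)⟩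
  have hNc : ∑ k, (wk V k : ℂ) / (((-s : ℝ) : ℂ) - lam k) ≠ 0 := by
    intro h
    apply hNr.ne
    exact_mod_cast h
  have hf := hform ((-s : ℝ) : ℂ) hzl hNc
  have hfr : (∑ k, ∑ l, (D.Xi (D.Xk x V k) (D.Xk x V l)) / ((-s - lam k) * (-s - lam l)))
            / (∑ k, (wk V k) / (-s - lam k))
          - ∑ k, (D.phk x V k) / (-s - lam k) = ∑ r ∈ S, (cf r) / (-s - r) := by
    exact_mod_cast hf
  have hF := FA_eq (K := ℝ) D x V lam hV1 hV2 hA (-s) htl
  rw [MA_real, TA_real, wA_real, XiA_real] at hF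
  have hy : x + s • D.e = - D.pt (-s) x := by
    ext i
    simp only [Pi.add_apply, Pi.smul_apply, Pi.neg_apply, pt, smul_eq_mul, Algebra.algebraMap_self,
      RingHom.id_apply]
    ring
  rw [hy, F_neg]
  have hFF : D.F (D.pt (-s) x) = D.aa * (-s) + D.bb x + ∑ r ∈ S, (cf r) / (-s - r) := by
    rw [← hfr]
    exact hF
  rw [hFF]
  have h9 : ∑ r ∈ S, cf r / (s + r) = - ∑ r ∈ S, cf r / (-s - r) := by
    rw [← Finset.sum_neg_distrib]
    refine Finset.sum_congr rfl fun r _ => ?_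
    rw [← div_neg]; congr 1; ring
  rw [h9]
  ring

/-- **THEOREM H.** -/
theorem hyp : GeometryTopology.Hyperbolic.IsHyperbolic D.p D.e ∧
    GeometryTopology.Hyperbolic.closedCone D.p D.e = closure D.K0 :=
  theoremH D.k1 D.k2

end HData

end Crest.Agent.R237
end

-- ▼ part R237/Sigma
section

/-!
Generic jets: a ring homomorphism `σ : ℝ →+* ℝ[x₁..x_c]/(x)^J`, the identity modulo `(x)`,
fixing a given countable set of reals and moving a generic point `b` to `b + x`.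
-/

set_option autoImplicit false

namespace Crest.Agent.R237.Sigma

open MvPolynomial

/-- The ideal of polynomials without constant term. -/
noncomputable abbrev mI (c : ℕ) : Ideal (MvPolynomial (Fin c) ℝ) :=
  idealOfVars (Fin c) ℝ

theorem mem_mI {c : ℕ} (p : MvPolynomial (Fin c) ℝ) : p ∈ mI c ↔ constantCoeff p = 0 := by
  have h := mem_pow_idealOfVars_iff' (σ := Fin c) (R := ℝ) 1 p
  rw [pow_one] at h
  rw [h]
  constructor
  · intro h
    exact h 0 (by simp)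
  · intro h x hx
    have : x = 0 := by
      have : Finsupp.degree x = 0 := by omega
      exact (Finsupp.degree_eq_zero_iff x).mp this
    rw [this]; exact h

/-- Truncated polynomial ring. -/
abbrev Jet (c J : ℕ) : Type := MvPolynomial (Fin c) ℝ ⧸ (mI c) ^ J

/-- The residue map. -/
noncomputable def res (c J : ℕ) (hJ : 0 < J) : Jet c J →+* ℝ :=
  Ideal.Quotient.lift ((mI c) ^ J) (constantCoeff (R := ℝ) (σ := Fin c)) (by
    intro a ha
    have : a ∈ mI c := Ideal.pow_le_self hJ.ne' ha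
    exact (mem_mI a).mp this)

theorem res_mk (c J : ℕ) (hJ : 0 < J) (p : MvPolynomial (Fin c) ℝ) :
    res c J hJ (Ideal.Quotient.mk _ p) = constantCoeff p := by
  unfold res
  exact Ideal.Quotient.lift_mk _ _ _

theorem res_surj (c J : ℕ) (hJ : 0 < J) : Function.Surjective (res c J hJ) := by
  intro a
  exact ⟨Ideal.Quotient.mk _ (C a), by simp [res_mk]⟩

theorem res_ker_nilp (c J : ℕ) (hJ : 0 < J) : IsNilpotent (RingHom.ker (res c J hJ)) := by
  refine ⟨J, ?_⟩
  have h1 : RingHom.ker (res c J hJ) = (mI c).map (Ideal.Quotient.mk ((mI c) ^ J)) := by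
    apply le_antisymm
    · intro a ha
      obtain ⟨p, rfl⟩ := Ideal.Quotient.mk_surjective a
      rw [RingHom.mem_ker, res_mk] at ha
      exact Ideal.mem_map_of_mem _ ((mem_mI p).mpr ha)
    · rw [Ideal.map_le_iff_le_comap]
      intro p hp
      rw [Ideal.mem_comap, RingHom.mem_ker, res_mk]
      exact (mem_mI p).mp hp
  rw [h1, ← Ideal.map_pow, Ideal.zero_eq_bot, Ideal.map_quotient_self]

/-- There are arbitrarily many reals algebraically independent over a countable field. -/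
theorem exists_algInd (K : Subfield ℝ) (hK : Countable K) (c : ℕ) :
    ∃ b : Fin c → ℝ, AlgebraicIndependent K b := by
  obtain ⟨s, hs⟩ := exists_isTranscendenceBasis K ℝ
  have hinf : s.Infinite := by
    intro hfin
    have hc : Countable s := hfin.countable.to_subtype
    by_cases hne : Nonempty s
    · have h := hs.lift_cardinalMk_eq_max_lift
      simp only [Cardinal.lift_id, Cardinal.mk_real] at h
      have h2 : Cardinal.mk K ⊔ Cardinal.mk s ⊔ Cardinal.aleph0 ≤ Cardinal.aleph0 := by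
        simp only [sup_le_iff, le_refl, and_true]
        exact ⟨Cardinal.mk_le_aleph0_iff.mpr hK, Cardinal.mk_le_aleph0_iff.mpr hc⟩
      rw [← h] at h2
      exact absurd h2 (not_le.mpr Cardinal.aleph0_lt_continuum)
    · have he : IsEmpty s := not_nonempty_iff.mp hne
      have halg : Algebra.IsAlgebraic K ℝ := by
        have := hs.isEmpty_iff_isAlgebraic.mp he
        exact this
      have h3 := Algebra.IsAlgebraic.cardinalMk_le_max K ℝ
      have h4 : Cardinal.mk K ⊔ Cardinal.aleph0 ≤ Cardinal.aleph0 := by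
        simp only [sup_le_iff, le_refl, and_true]
        exact Cardinal.mk_le_aleph0_iff.mpr hK
      have h5 := h3.trans h4
      rw [Cardinal.mk_real] at h5
      exact absurd h5 (not_le.mpr Cardinal.aleph0_lt_continuum)
  have := hinf.to_subtype
  obtain ⟨f⟩ : Nonempty (ℕ ↪ s) := ⟨Infinite.natEmbedding s⟩
  refine ⟨fun i => (f i : ℝ), ?_⟩
  exact hs.1.comp (fun i : Fin c => f i) (fun i j h => Fin.ext (f.injective h))

section
variable (K : Subfield ℝ) {c : ℕ} (b : Fin c → ℝ)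

open scoped IntermediateField.algebraAdjoinAdjoin in
theorem smooth_real (_hb : AlgebraicIndependent K b) :
    Algebra.FormallySmooth (Algebra.adjoin K (Set.range b)) ℝ := by
  have h1 : Algebra.FormallySmooth (Algebra.adjoin K (Set.range b))
      (IntermediateField.adjoin K (Set.range b)) :=
    .of_isLocalization (nonZeroDivisors _)
  obtain ⟨t, ht⟩ := exists_isTranscendenceBasis (IntermediateField.adjoin K (Set.range b)) ℝ
  have h2 : Algebra.IsAlgebraic (IntermediateField.adjoin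
      (IntermediateField.adjoin K (Set.range b)) (Set.range ((↑) : t → ℝ))) ℝ :=
    ht.isAlgebraic_field
  have h3 : Algebra.FormallySmooth (IntermediateField.adjoin K (Set.range b)) ℝ :=
    Algebra.FormallySmooth.of_algebraicIndependent_of_isSeparable ht.1
  exact Algebra.FormallySmooth.comp _ (IntermediateField.adjoin K (Set.range b)) _

end

/-- The generic jet homomorphism. -/
theorem exists_sigma (S : Set ℝ) (hS : S.Countable) (c J : ℕ) (hJ : 0 < J) :
    ∃ (b : Fin c → ℝ) (σ : ℝ →+* Jet c J),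
      (∀ a, res c J hJ (σ a) = a) ∧
      (∀ a ∈ S, σ a = Ideal.Quotient.mk _ (C a)) ∧
      (∀ i, σ (b i) = Ideal.Quotient.mk _ (C (b i) + X i)) := by
  let K : Subfield ℝ := Subfield.closure S
  have hK : Countable K := by
    have := hS.to_subtype
    have h := Subfield.cardinalMk_closure_le_max S
    exact Cardinal.mk_le_aleph0_iff.mp (h.trans (max_le (Cardinal.mk_le_aleph0_iff.mpr this) le_rfl))
  obtain ⟨b, hb⟩ := exists_algInd K hK c
  let P := Algebra.adjoin K (Set.range b)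
  -- the structure map of the truncated ring
  let algKO : Algebra K (Jet c J) :=
    ((Ideal.Quotient.mk ((mI c) ^ J)).comp ((C : ℝ →+* MvPolynomial (Fin c) ℝ).comp
      (algebraMap K ℝ))).toAlgebra
  let φ : MvPolynomial (Fin c) K →ₐ[K] Jet c J :=
    MvPolynomial.aeval (fun i => Ideal.Quotient.mk ((mI c) ^ J) (C (b i) + X i))
  let ψ : P →+* Jet c J := (φ : MvPolynomial (Fin c) K →+* Jet c J).comp
    (hb.aevalEquiv.symm : P →+* MvPolynomial (Fin c) K)
  let algPO : Algebra P (Jet c J) := ψ.toAlgebra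
  have hsm : Algebra.FormallySmooth P ℝ := smooth_real K b hb
  have hψ : ∀ p : P, res c J hJ (ψ p) = (p : ℝ) := by
    intro p
    obtain ⟨q, rfl⟩ := hb.aevalEquiv.surjective p
    have e1 : ψ (hb.aevalEquiv q) = φ q := by
      simp [ψ]
    have e2 : ((hb.aevalEquiv q : P) : ℝ) = aeval b q := hb.algebraMap_aevalEquiv q
    rw [e1, e2]
    have e3 : (res c J hJ).comp (φ : MvPolynomial (Fin c) K →+* Jet c J) =
        (aeval b : MvPolynomial (Fin c) K →ₐ[K] ℝ) := by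
      apply MvPolynomial.ringHom_ext
      · intro r
        have : φ (C r) = Ideal.Quotient.mk ((mI c) ^ J) (C (r : ℝ)) := by
          rw [MvPolynomial.algHom_C]; rfl
        simp [this, res_mk]
        rfl
      · intro i
        simp [φ, res_mk]
    exact congrArg (fun f => f q) e3
  let g : Jet c J →ₐ[P] ℝ := { res c J hJ with commutes' := fun p => hψ p }
  have hg : Function.Surjective g := res_surj c J hJ
  have hgn : IsNilpotent (RingHom.ker (g : Jet c J →+* ℝ)) := res_ker_nilp c J hJ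
  let τ : ℝ →ₐ[P] Jet c J :=
    Algebra.FormallySmooth.liftOfSurjective (AlgHom.id P ℝ) g hg hgn
  have hτ : ∀ a, g (τ a) = a := fun a =>
    Algebra.FormallySmooth.liftOfSurjective_apply (AlgHom.id P ℝ) g hg hgn a
  refine ⟨b, (τ : ℝ →+* Jet c J), fun a => hτ a, ?_, ?_⟩
  · intro a ha
    have haK : a ∈ K := Subfield.subset_closure ha
    let p : P := algebraMap K P ⟨a, haK⟩
    have e1 : algebraMap P ℝ p = a := rfl
    have e2 : τ (algebraMap P ℝ p) = algebraMap P (Jet c J) p := τ.commutes p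
    rw [e1] at e2
    have e3 : algebraMap P (Jet c J) p = φ (hb.aevalEquiv.symm p) := rfl
    have e4 : hb.aevalEquiv.symm p = C ⟨a, haK⟩ := by
      exact hb.aevalEquiv.symm.commutes _
    rw [e3, e4, MvPolynomial.algHom_C] at e2
    exact e2
  · intro i
    let p : P := hb.aevalEquiv (X i)
    have e1 : algebraMap P ℝ p = b i := by
      rw [hb.algebraMap_aevalEquiv]; simp
    have e2 : τ (algebraMap P ℝ p) = algebraMap P (Jet c J) p := τ.commutes p
    rw [e1] at e2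
    have e3 : algebraMap P (Jet c J) p = φ (hb.aevalEquiv.symm p) := rfl
    rw [e3, AlgEquiv.symm_apply_apply] at e2
    simpa [φ] using e2

end Crest.Agent.R237.Sigma
end

-- ▼ part R237/Jets
section

/-!
Scaled truncated functionals on jets of order four and the basic lower bound.
-/

set_option autoImplicit false

namespace Crest.Agent.R237.Jets

open MvPolynomial Crest.Agent.R237.Sigma

variable {c : ℕ}

/-- `S_ε(p) = ∑_{i<5} ε^i L(p_i)`. -/
noncomputable def Sc (L : MvPolynomial (Fin c) ℝ →ₗ[ℝ] ℝ) (ε : ℝ) :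
    MvPolynomial (Fin c) ℝ →ₗ[ℝ] ℝ :=
  ∑ i ∈ Finset.range 5, (ε ^ i) • (L ∘ₗ homogeneousComponent i)

theorem Sc_apply (L : MvPolynomial (Fin c) ℝ →ₗ[ℝ] ℝ) (ε : ℝ) (p : MvPolynomial (Fin c) ℝ) :
    Sc L ε p = ∑ i ∈ Finset.range 5, ε ^ i * L (homogeneousComponent i p) := by
  simp [Sc, LinearMap.sum_apply]

theorem hc_of_mem_pow {n i : ℕ} (hi : i < n) {p : MvPolynomial (Fin c) ℝ}
    (hp : p ∈ (mI c) ^ n) : homogeneousComponent i p = 0 := by
  rw [mem_pow_idealOfVars_iff] at hp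
  apply homogeneousComponent_eq_zero'
  intro d hd h
  have := hp d hd
  omega

theorem Sc_of_mem_pow (L : MvPolynomial (Fin c) ℝ →ₗ[ℝ] ℝ) (ε : ℝ)
    {p : MvPolynomial (Fin c) ℝ} (hp : p ∈ (mI c) ^ 5) : Sc L ε p = 0 := by
  rw [Sc_apply]
  apply Finset.sum_eq_zero
  intro i hi
  rw [hc_of_mem_pow (Finset.mem_range.mp hi) hp]
  simp

/-- A representative of a jet. -/
noncomputable def rep (a : Jet c 5) : MvPolynomial (Fin c) ℝ :=
  (Ideal.Quotient.mk_surjective a).choose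

theorem mk_rep (a : Jet c 5) : Ideal.Quotient.mk _ (rep a) = a :=
  (Ideal.Quotient.mk_surjective a).choose_spec

/-- The functional on jets. -/
noncomputable def ell (L : MvPolynomial (Fin c) ℝ →ₗ[ℝ] ℝ) (ε : ℝ) (a : Jet c 5) : ℝ :=
  Sc L ε (rep a)

theorem ell_mk (L : MvPolynomial (Fin c) ℝ →ₗ[ℝ] ℝ) (ε : ℝ) (p : MvPolynomial (Fin c) ℝ) :
    ell L ε (Ideal.Quotient.mk _ p) = Sc L ε p := by
  unfold ell
  have h : rep (Ideal.Quotient.mk ((mI c) ^ 5) p) - p ∈ (mI c) ^ 5 := by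
    rw [← Ideal.Quotient.eq]
    exact mk_rep _
  have h2 := Sc_of_mem_pow L ε h
  rw [map_sub] at h2
  linarith

theorem ell_add (L : MvPolynomial (Fin c) ℝ →ₗ[ℝ] ℝ) (ε : ℝ) (a b : Jet c 5) :
    ell L ε (a + b) = ell L ε a + ell L ε b := by
  obtain ⟨p, rfl⟩ := Ideal.Quotient.mk_surjective a
  obtain ⟨q, rfl⟩ := Ideal.Quotient.mk_surjective b
  rw [← map_add, ell_mk, ell_mk, ell_mk, map_add]

theorem ell_zero (L : MvPolynomial (Fin c) ℝ →ₗ[ℝ] ℝ) (ε : ℝ) :
    ell L ε (0 : Jet c 5) = 0 := by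
  have h := ell_add L ε 0 0
  rw [add_zero] at h
  linarith

theorem ell_sum {ι : Type*} (L : MvPolynomial (Fin c) ℝ →ₗ[ℝ] ℝ) (ε : ℝ)
    (s : Finset ι) (f : ι → Jet c 5) :
    ell L ε (∑ i ∈ s, f i) = ∑ i ∈ s, ell L ε (f i) := by
  classical
  induction s using Finset.induction_on with
  | empty => simp [ell_zero]
  | insert a s ha ih => rw [Finset.sum_insert ha, Finset.sum_insert ha, ell_add, ih]

theorem ell_mul_mk (L : MvPolynomial (Fin c) ℝ →ₗ[ℝ] ℝ) (ε r : ℝ) (a : Jet c 5) :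
    ell L ε (Ideal.Quotient.mk _ (C r) * a) = r * ell L ε a := by
  obtain ⟨p, rfl⟩ := Ideal.Quotient.mk_surjective a
  rw [← map_mul, ell_mk, ell_mk, ← smul_eq_C_mul, map_smul, smul_eq_mul]

/-- Homogeneous pieces. -/
theorem Sc_homog (L : MvPolynomial (Fin c) ℝ →ₗ[ℝ] ℝ) (ε : ℝ) {p : MvPolynomial (Fin c) ℝ}
    {n : ℕ} (hp : p.IsHomogeneous n) : Sc L ε p = if n < 5 then ε ^ n * L p else 0 := by
  rw [Sc_apply]
  have h : ∀ i ∈ Finset.range 5, ε ^ i * L (homogeneousComponent i p) =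
      if i = n then ε ^ n * L p else 0 := by
    intro i _
    rw [homogeneousComponent_of_mem (m := i) (n := n) hp]
    split_ifs with h
    · rw [h]
    · simp
  rw [Finset.sum_congr rfl h, Finset.sum_ite_eq']
  simp

theorem Sc_one (L : MvPolynomial (Fin c) ℝ →ₗ[ℝ] ℝ) (ε : ℝ) : Sc L ε 1 = L 1 := by
  rw [Sc_homog L ε (isHomogeneous_one (Fin c) ℝ)]
  simp

theorem aeval_scale {p : MvPolynomial (Fin c) ℝ} {n : ℕ} (hp : p.IsHomogeneous n) (ε : ℝ) :
    aeval (fun i => C ε * X i) p = C (ε ^ n) * p := by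
  conv_rhs => rw [p.as_sum]
  conv_lhs => rw [p.as_sum]
  rw [map_sum, Finset.mul_sum]
  apply Finset.sum_congr rfl
  intro d hd
  have hdeg : d.degree = n := by
    have := hp (mem_support_iff.mp hd)
    rw [Finsupp.degree_eq_weight_one]
    exact this
  rw [aeval_monomial, monomial_eq]
  simp only [mul_pow, algebraMap_eq]
  rw [Finsupp.prod_mul]
  have : (d.prod fun (_ : Fin c) k => (C ε : MvPolynomial (Fin c) ℝ) ^ k) = C (ε ^ n) := by
    rw [Finsupp.prod, Finset.prod_pow_eq_pow_sum, ← map_pow]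
    rw [← hdeg]
    rfl
  rw [this]
  ring

/-- Scaling of polynomials of degree at most four. -/
theorem Sc_eq_scale (L : MvPolynomial (Fin c) ℝ →ₗ[ℝ] ℝ) (ε : ℝ) (p : MvPolynomial (Fin c) ℝ)
    (hp : p.totalDegree ≤ 4) :
    Sc L ε p = L (aeval (fun i => C ε * X i) p) := by
  have h1 : p = ∑ i ∈ Finset.range 5, homogeneousComponent i p := by
    have h2 := sum_homogeneousComponent p
    conv_lhs => rw [← h2]
    apply Finset.sum_subset
    · intro i hi
      rw [Finset.mem_range] at hi ⊢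
      omega
    · intro i _ hi
      apply homogeneousComponent_eq_zero
      rw [Finset.mem_range] at hi
      omega
  have h3 : aeval (fun i => C ε * X i) p =
      ∑ i ∈ Finset.range 5, C (ε ^ i) * homogeneousComponent i p := by
    conv_lhs => rw [h1]
    rw [map_sum]
    apply Finset.sum_congr rfl
    intro i _
    have h4 := homogeneousComponent_isHomogeneous i p
    exact aeval_scale h4 ε
  rw [h3, Sc_apply, map_sum]
  apply Finset.sum_congr rfl
  intro i _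
  rw [← smul_eq_C_mul, map_smul, smul_eq_mul]

/-- Truncation in degrees at most four. -/
noncomputable def tr4 (p : MvPolynomial (Fin c) ℝ) : MvPolynomial (Fin c) ℝ :=
  ∑ i ∈ Finset.range 5, homogeneousComponent i p

theorem sub_tr4_mem (p : MvPolynomial (Fin c) ℝ) : p - tr4 p ∈ (mI c) ^ 5 := by
  rw [mem_pow_idealOfVars_iff']
  intro x hx
  unfold tr4
  rw [coeff_sub, coeff_sum]
  simp only [coeff_homogeneousComponent]
  rw [Finset.sum_ite_eq]
  simp [hx]

theorem Sc_sq_tr4 (L : MvPolynomial (Fin c) ℝ →ₗ[ℝ] ℝ) (ε : ℝ) (p : MvPolynomial (Fin c) ℝ) :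
    Sc L ε (p * p) = Sc L ε (tr4 p * tr4 p) := by
  have h : p * p - tr4 p * tr4 p ∈ (mI c) ^ 5 := by
    have : p * p - tr4 p * tr4 p = (p + tr4 p) * (p - tr4 p) := by ring
    rw [this]
    exact Ideal.mul_mem_left _ _ (sub_tr4_mem p)
  have h2 := Sc_of_mem_pow L ε h
  rw [map_sub] at h2
  linarith

/-- Coefficient functionals are controlled by a strictly positive form. -/
theorem control (L : MvPolynomial (Fin c) ℝ →ₗ[ℝ] ℝ)
    (hL : ∀ h : MvPolynomial (Fin c) ℝ, h.totalDegree ≤ 2 → h ≠ 0 → 0 < L (h * h))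
    (f : MvPolynomial (Fin c) ℝ →ₗ[ℝ] ℝ) :
    ∃ C : ℝ, 0 ≤ C ∧ ∀ h : MvPolynomial (Fin c) ℝ, h.totalDegree ≤ 2 →
      f h ^ 2 ≤ C * L (h * h) := by
  let E := restrictTotalDegree (Fin c) ℝ 2
  let B : E →ₗ[ℝ] (E →ₗ[ℝ] ℝ) := LinearMap.mk₂ ℝ (fun x y => L ((x : MvPolynomial (Fin c) ℝ) * y))
    (by intro x y z; simp [add_mul])
    (by intro r x y; simp)
    (by intro x y z; simp [mul_add])
    (by intro r x y; simp)
  have hB : ∀ x y : E, B x y = L ((x : MvPolynomial (Fin c) ℝ) * y) := fun x y => rfl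
  have hpos : ∀ x : E, x ≠ 0 → 0 < B x x := by
    intro x hx
    rw [hB]
    apply hL _ ((mem_restrictTotalDegree _ _ _).mp x.2)
    intro h
    exact hx (Subtype.ext h)
  have hinj : Function.Injective B := by
    rw [injective_iff_map_eq_zero]
    intro x hx
    by_contra hne
    have := hpos x hne
    rw [hx] at this
    simp at this
  have hsurj : Function.Surjective B := by
    have hfr : Module.finrank ℝ E = Module.finrank ℝ (E →ₗ[ℝ] ℝ) :=
      (Subspace.dual_finrank_eq (K := ℝ) (V := E)).symm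
    exact (LinearMap.injective_iff_surjective_of_finrank_eq_finrank hfr).mp hinj
  obtain ⟨v, hv⟩ := hsurj (f ∘ₗ E.subtype)
  have hnn : ∀ x : E, 0 ≤ B x x := by
    intro x
    by_cases hx : x = 0
    · rw [hx]; simp
    · exact (hpos x hx).le
  refine ⟨B v v, hnn v, ?_⟩
  intro h hh
  let x : E := ⟨h, (mem_restrictTotalDegree _ _ _).mpr hh⟩
  have e1 : f h = B v x := by
    rw [hv]; rfl
  have hsymm : B x v = B v x := by rw [hB, hB, mul_comm]
  have h2 : ∀ t : ℝ, 0 ≤ B x x * (t * t) + (2 * B v x) * t + B v v := by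
    intro t
    have := hnn (t • x + v)
    simp only [map_add, map_smul, LinearMap.add_apply, LinearMap.smul_apply, smul_eq_mul] at this
    rw [hsymm] at this
    nlinarith [this]
  have h3 := discrim_le_zero h2
  unfold discrim at h3
  rw [e1]
  have e2 : L (h * h) = B x x := rfl
  rw [e2]
  nlinarith [h3]

theorem hc_one_eq (p : MvPolynomial (Fin c) ℝ) :
    homogeneousComponent 1 p = ∑ j, C (coeff (Finsupp.single j 1) p) * X j := by
  ext d
  rw [coeff_homogeneousComponent, coeff_sum]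
  simp only [coeff_C_mul, coeff_X]
  split_ifs with h
  · obtain ⟨j, hj⟩ : ∃ j, d = Finsupp.single j 1 := by
      have := Finsupp.range_single_one (σ := Fin c)
      have h2 : d ∈ {d : Fin c →₀ ℕ | d.degree = 1} := h
      rw [← this] at h2
      obtain ⟨j, hj⟩ := h2
      exact ⟨j, hj.symm⟩
    subst hj
    rw [Finset.sum_eq_single j]
    · simp
    · intro i _ hij
      rw [if_neg]
      · simp
      · intro he
        have := congrArg (fun f => f i) he
        simp [hij.symm] at this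
    · simp
  · symm
    apply Finset.sum_eq_zero
    intro j _
    rw [if_neg]
    · simp
    · intro he
      apply h
      rw [← he]
      simp

/-- The error seminorm. -/
noncomputable def Un (L : MvPolynomial (Fin c) ℝ →ₗ[ℝ] ℝ) (p : MvPolynomial (Fin c) ℝ) : ℝ :=
  |L (homogeneousComponent 3 p)| + |L (homogeneousComponent 4 p)| +
    ∑ j, |L (X j * homogeneousComponent 3 p)|

theorem Un_nonneg (L : MvPolynomial (Fin c) ℝ →ₗ[ℝ] ℝ) (p : MvPolynomial (Fin c) ℝ) :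
    0 ≤ Un L p := by
  unfold Un
  positivity

set_option maxHeartbeats 4000000 in
theorem Sc_sq_lower (L : MvPolynomial (Fin c) ℝ →ₗ[ℝ] ℝ)
    (hL : ∀ h : MvPolynomial (Fin c) ℝ, h.totalDegree ≤ 2 → h ≠ 0 → 0 < L (h * h)) :
    ∃ C : ℝ, 0 ≤ C ∧ ∀ ε : ℝ, 0 < ε → ε ≤ 1 → ∀ p : MvPolynomial (Fin c) ℝ,
      -(C * ε ^ 6 * Un L p ^ 2) ≤ Sc L ε (p * p) := by
  -- constants
  have hc0 := control L hL (lcoeff ℝ 0)
  have hc1 : ∀ j : Fin c, ∃ C : ℝ, 0 ≤ C ∧ ∀ h : MvPolynomial (Fin c) ℝ, h.totalDegree ≤ 2 →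
      (coeff (Finsupp.single j 1) h) ^ 2 ≤ C * L (h * h) :=
    fun j => control L hL (lcoeff ℝ (Finsupp.single j 1))
  obtain ⟨C0, hC0, hc0⟩ := hc0
  choose C1 hC1 hc1 using hc1
  let D : ℝ := C0 + ∑ j, C1 j
  have hD0 : C0 ≤ D := by
    have : 0 ≤ ∑ j, C1 j := Finset.sum_nonneg fun j _ => hC1 j
    simp only [D]; linarith
  have hD1 : ∀ j, C1 j ≤ D := by
    intro j
    have := Finset.single_le_sum (f := C1) (fun i _ => hC1 i) (Finset.mem_univ j)
    simp only [D]; linarith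
  have hDn : 0 ≤ D := hC0.trans hD0
  have hLn : ∀ h : MvPolynomial (Fin c) ℝ, h.totalDegree ≤ 2 → 0 ≤ L (h * h) := by
    intro h hh
    by_cases h0 : h = 0
    · rw [h0]; simp
    · exact (hL h hh h0).le
  refine ⟨D, hDn, ?_⟩
  intro ε hε hε1 p
  set p0 := homogeneousComponent 0 p with hp0
  set p1 := homogeneousComponent 1 p with hp1
  set p2 := homogeneousComponent 2 p with hp2
  set p3 := homogeneousComponent 3 p with hp3
  set p4 := homogeneousComponent 4 p with hp4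
  have H0 : p0.IsHomogeneous 0 := homogeneousComponent_isHomogeneous 0 p
  have H1 : p1.IsHomogeneous 1 := homogeneousComponent_isHomogeneous 1 p
  have H2 : p2.IsHomogeneous 2 := homogeneousComponent_isHomogeneous 2 p
  have H3 : p3.IsHomogeneous 3 := homogeneousComponent_isHomogeneous 3 p
  have H4 : p4.IsHomogeneous 4 := homogeneousComponent_isHomogeneous 4 p
  have ht : tr4 p = p0 + p1 + p2 + p3 + p4 := by
    simp only [tr4, Finset.sum_range_succ, Finset.sum_range_zero]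
    simp only [hp0, hp1, hp2, hp3, hp4]
    ring
  set α : ℝ := coeff 0 p with hα
  have e0 : p0 = C α := by rw [hp0, homogeneousComponent_zero]
  have e1 : p1 = ∑ j, C (coeff (Finsupp.single j 1) p) * X j := hc_one_eq p
  -- expansion
  have hex : Sc L ε (p * p) = L (p0 * p0) + 2 * ε * L (p0 * p1) +
      ε ^ 2 * (L (p1 * p1) + 2 * L (p0 * p2)) +
      ε ^ 3 * (2 * L (p0 * p3) + 2 * L (p1 * p2)) +
      ε ^ 4 * (2 * L (p0 * p4) + 2 * L (p1 * p3) + L (p2 * p2)) := by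
    rw [Sc_sq_tr4, ht]
    have : (p0 + p1 + p2 + p3 + p4) * (p0 + p1 + p2 + p3 + p4) =
      p0 * p0 + 2 • (p0 * p1) + p1 * p1 + 2 • (p0 * p2) + 2 • (p0 * p3) + 2 • (p1 * p2) +
      2 • (p0 * p4) + 2 • (p1 * p3) + p2 * p2 + 2 • (p1 * p4) + 2 • (p2 * p3) +
      2 • (p2 * p4) + p3 * p3 + 2 • (p3 * p4) + p4 * p4 := by ring
    rw [this]
    simp only [map_add, map_nsmul]
    rw [Sc_homog L ε (H0.mul H0), Sc_homog L ε (H0.mul H1), Sc_homog L ε (H1.mul H1),
      Sc_homog L ε (H0.mul H2), Sc_homog L ε (H0.mul H3), Sc_homog L ε (H1.mul H2),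
      Sc_homog L ε (H0.mul H4), Sc_homog L ε (H1.mul H3), Sc_homog L ε (H2.mul H2),
      Sc_homog L ε (H1.mul H4), Sc_homog L ε (H2.mul H3), Sc_homog L ε (H2.mul H4),
      Sc_homog L ε (H3.mul H3), Sc_homog L ε (H3.mul H4), Sc_homog L ε (H4.mul H4)]
    norm_num
    ring
  -- the square
  set h : MvPolynomial (Fin c) ℝ := p0 + ε • p1 + ε ^ 2 • p2 with hh
  have hhd : h.totalDegree ≤ 2 := by
    have a0 : p0.totalDegree ≤ 2 := H0.totalDegree_le.trans (by norm_num)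
    have a1 : (ε • p1).totalDegree ≤ 2 :=
      (totalDegree_smul_le _ _).trans (H1.totalDegree_le.trans (by norm_num))
    have a2 : (ε ^ 2 • p2).totalDegree ≤ 2 :=
      (totalDegree_smul_le _ _).trans H2.totalDegree_le
    exact (totalDegree_add _ _).trans (max_le ((totalDegree_add _ _).trans (max_le a0 a1)) a2)
  have hhh : L (h * h) = L (p0 * p0) + 2 * ε * L (p0 * p1) +
      ε ^ 2 * (L (p1 * p1) + 2 * L (p0 * p2)) +
      ε ^ 3 * (2 * L (p1 * p2)) + ε ^ 4 * L (p2 * p2) := by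
    have : h * h = p0 * p0 + (2 * ε) • (p0 * p1) + (ε ^ 2) • (p1 * p1) +
        (2 * ε ^ 2) • (p0 * p2) + (2 * ε ^ 3) • (p1 * p2) + (ε ^ 4) • (p2 * p2) := by
      rw [hh]
      simp only [smul_eq_C_mul, map_mul, map_pow, map_ofNat]
      ring
    rw [this]
    simp only [map_add, map_smul, smul_eq_mul]
    ring
  have hdiff : Sc L ε (p * p) = L (h * h) + 2 * ε ^ 3 * L (p0 * p3) +
      2 * ε ^ 4 * L (p0 * p4) + 2 * ε ^ 4 * L (p1 * p3) := by
    rw [hex, hhh]; ring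
  -- coefficients of h
  have k0 : coeff 0 h = α := by
    have b1 : coeff 0 p1 = 0 := by
      rw [hp1, coeff_homogeneousComponent]; simp
    have b2 : coeff 0 p2 = 0 := by
      rw [hp2, coeff_homogeneousComponent]; simp
    rw [hh, coeff_add, coeff_add, coeff_smul, coeff_smul, b1, b2, e0]
    simp
  have k1 : ∀ j, coeff (Finsupp.single j 1) h = ε * coeff (Finsupp.single j 1) p := by
    intro j
    have b0 : coeff (Finsupp.single j 1) p0 = 0 := by
      rw [hp0, coeff_homogeneousComponent]; simp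
    have b1 : coeff (Finsupp.single j 1) p1 = coeff (Finsupp.single j 1) p := by
      rw [hp1, coeff_homogeneousComponent]; simp
    have b2 : coeff (Finsupp.single j 1) p2 = 0 := by
      rw [hp2, coeff_homogeneousComponent]; simp
    rw [hh, coeff_add, coeff_add, coeff_smul, coeff_smul, b0, b1, b2]
    simp
  set T : ℝ := L (h * h) with hT
  have hTn : 0 ≤ T := hLn h hhd
  set s : ℝ := Real.sqrt (D * T) with hs
  have hsn : 0 ≤ s := Real.sqrt_nonneg _
  have hs2 : s ^ 2 = D * T := Real.sq_sqrt (mul_nonneg hDn hTn)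
  have m0 : |α| ≤ s := by
    apply Real.abs_le_sqrt
    have := hc0 h hhd
    have e : lcoeff ℝ 0 h = α := k0
    rw [e] at this
    exact this.trans (mul_le_mul_of_nonneg_right hD0 hTn)
  have m1 : ∀ j, |ε * coeff (Finsupp.single j 1) p| ≤ s := by
    intro j
    apply Real.abs_le_sqrt
    have := hc1 j h hhd
    rw [k1 j] at this
    exact this.trans (mul_le_mul_of_nonneg_right (hD1 j) hTn)
  -- the three cross terms
  have c1 : L (p0 * p3) = α * L p3 := by
    rw [e0, ← smul_eq_C_mul, map_smul, smul_eq_mul]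
  have c2 : L (p0 * p4) = α * L p4 := by
    rw [e0, ← smul_eq_C_mul, map_smul, smul_eq_mul]
  have c3 : L (p1 * p3) = ∑ j, coeff (Finsupp.single j 1) p * L (X j * p3) := by
    rw [e1, Finset.sum_mul, map_sum]
    apply Finset.sum_congr rfl
    intro j _
    rw [mul_assoc, ← smul_eq_C_mul, map_smul, smul_eq_mul]
  have d1 : |α * L p3| ≤ s * |L p3| := by
    rw [abs_mul]; exact mul_le_mul_of_nonneg_right m0 (abs_nonneg _)
  have d2 : |ε * (α * L p4)| ≤ s * |L p4| := by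
    rw [abs_mul, abs_mul, abs_of_pos hε]
    have := mul_le_mul_of_nonneg_right m0 (abs_nonneg (L p4))
    have h3 : 0 ≤ |α| * |L p4| := by positivity
    nlinarith
  have d3 : |ε * L (p1 * p3)| ≤ s * ∑ j, |L (X j * p3)| := by
    rw [c3, Finset.mul_sum, Finset.mul_sum]
    refine (Finset.abs_sum_le_sum_abs _ _).trans (Finset.sum_le_sum fun j _ => ?_)
    rw [← mul_assoc, abs_mul]
    exact mul_le_mul_of_nonneg_right (m1 j) (abs_nonneg _)
  have hU : Un L p = |L p3| + |L p4| + ∑ j, |L (X j * p3)| := rfl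
  have hUn : 0 ≤ Un L p := Un_nonneg L p
  have hfin : T - 2 * ε ^ 3 * (s * Un L p) ≤ Sc L ε (p * p) := by
    rw [hdiff, c1, c2, hU]
    have f1 := (abs_le.mp d1).1
    have f2 := (abs_le.mp d2).1
    have f3 := (abs_le.mp d3).1
    have g1 : 0 ≤ 2 * ε ^ 3 := by positivity
    have q1 := mul_le_mul_of_nonneg_left f1 g1
    have q2 := mul_le_mul_of_nonneg_left f2 g1
    have q3 := mul_le_mul_of_nonneg_left f3 g1
    nlinarith [q1, q2, q3]
  refine le_trans ?_ hfin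
  -- complete the square
  set r : ℝ := Real.sqrt T with hr
  have hr2 : r ^ 2 = T := Real.sq_sqrt hTn
  have hsr : s = Real.sqrt D * r := by
    rw [hs, hr, Real.sqrt_mul hDn]
  have hD2 : Real.sqrt D ^ 2 = D := Real.sq_sqrt hDn
  have hsq := sq_nonneg (r - Real.sqrt D * ε ^ 3 * Un L p)
  have hsq2 : (r - Real.sqrt D * ε ^ 3 * Un L p) ^ 2 =
      r ^ 2 - 2 * ε ^ 3 * (Real.sqrt D * r * Un L p) +
        Real.sqrt D ^ 2 * ε ^ 6 * Un L p ^ 2 := by ring
  rw [hsq2, hr2, hD2] at hsq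
  rw [hsr]
  linarith

theorem Un_sum_le (L : MvPolynomial (Fin c) ℝ →ₗ[ℝ] ℝ) {k : ℕ} (w : Fin k → ℝ)
    (P : Fin k → MvPolynomial (Fin c) ℝ) :
    Un L (∑ i, C (w i) * P i) ≤ ∑ i, |w i| * Un L (P i) := by
  have hf : ∀ f : MvPolynomial (Fin c) ℝ →ₗ[ℝ] ℝ,
      |f (∑ i, C (w i) * P i)| ≤ ∑ i, |w i| * |f (P i)| := by
    intro f
    rw [map_sum]
    refine (Finset.abs_sum_le_sum_abs _ _).trans (Finset.sum_le_sum fun i _ => ?_)
    rw [← smul_eq_C_mul, map_smul, smul_eq_mul, abs_mul]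
  have h3 := hf (L ∘ₗ homogeneousComponent 3)
  have h4 := hf (L ∘ₗ homogeneousComponent 4)
  have h5 : ∀ j, _ := fun j : Fin c =>
    hf (L ∘ₗ (LinearMap.mulLeft ℝ (X j)) ∘ₗ homogeneousComponent 3)
  simp only [LinearMap.comp_apply, LinearMap.mulLeft_apply] at h3 h4 h5
  unfold Un
  have h6 := Finset.sum_le_sum (s := Finset.univ) (fun j _ => h5 j)
  calc _ ≤ ∑ i, |w i| * |L (homogeneousComponent 3 (P i))| +
        ∑ i, |w i| * |L (homogeneousComponent 4 (P i))| +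
        ∑ j, ∑ i, |w i| * |L (X j * homogeneousComponent 3 (P i))| := by
          linarith
    _ = _ := by
      rw [Finset.sum_comm, ← Finset.sum_add_distrib, ← Finset.sum_add_distrib]
      apply Finset.sum_congr rfl
      intro i _
      rw [← Finset.mul_sum]
      ring

/-- Lower bound for a family. -/
theorem family_lower (L : MvPolynomial (Fin c) ℝ →ₗ[ℝ] ℝ)
    (hL : ∀ h : MvPolynomial (Fin c) ℝ, h.totalDegree ≤ 2 → h ≠ 0 → 0 < L (h * h))
    {k : ℕ} (X : Fin k → Fin k → Jet c 5) :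
    ∃ C' : ℝ, 0 ≤ C' ∧ ∀ ε : ℝ, 0 < ε → ε ≤ 1 → ∀ w : Fin k → ℝ,
      -(C' * ε ^ 6 * ∑ i, w i ^ 2) ≤
        ∑ l, ell L ε ((∑ i, Ideal.Quotient.mk _ (C (w i)) * X l i) *
          (∑ i, Ideal.Quotient.mk _ (C (w i)) * X l i)) := by
  obtain ⟨D, hD, h⟩ := Sc_sq_lower L hL
  refine ⟨D * ∑ l, ∑ i, Un L (rep (X l i)) ^ 2, by positivity, ?_⟩
  intro ε hε hε1 w
  have h1 : ∀ l, -(D * ε ^ 6 * ((∑ i, w i ^ 2) * ∑ i, Un L (rep (X l i)) ^ 2)) ≤
      ell L ε ((∑ i, Ideal.Quotient.mk _ (C (w i)) * X l i) *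
          (∑ i, Ideal.Quotient.mk _ (C (w i)) * X l i)) := by
    intro l
    have e : (∑ i, Ideal.Quotient.mk ((mI c) ^ 5) (C (w i)) * X l i) =
        Ideal.Quotient.mk _ (∑ i, C (w i) * rep (X l i)) := by
      rw [map_sum]
      apply Finset.sum_congr rfl
      intro i _
      rw [map_mul, mk_rep]
    rw [e, ← map_mul, ell_mk]
    refine le_trans ?_ (h ε hε hε1 _)
    have h2 := Un_sum_le L w (fun i => rep (X l i))
    have h3 : Un L (∑ i, C (w i) * rep (X l i)) ^ 2 ≤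
        (∑ i, |w i| * Un L (rep (X l i))) ^ 2 :=
      pow_le_pow_left₀ (Un_nonneg L _) h2 2
    have h4 : (∑ i, |w i| * Un L (rep (X l i))) ^ 2 ≤
        (∑ i, |w i| ^ 2) * ∑ i, Un L (rep (X l i)) ^ 2 :=
      Finset.sum_mul_sq_le_sq_mul_sq _ _ _
    simp only [sq_abs] at h4
    have h5 := h3.trans h4
    have h6 : 0 ≤ D * ε ^ 6 := by positivity
    have := mul_le_mul_of_nonneg_left h5 h6
    linarith
  refine le_trans (le_of_eq ?_) (Finset.sum_le_sum fun l _ => h1 l)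
  rw [Finset.sum_neg_distrib, ← Finset.mul_sum, ← Finset.mul_sum]
  ring

end Crest.Agent.R237.Jets
end

-- ▼ part R237/NS
section

/-!
The non-shadow criterion: a closed spectrahedral shadow containing a polynomial family of
points and invariant under a compatible family of linear maps contains the image of every
strictly positive functional.
-/

set_option autoImplicit false

namespace Crest.Agent.R237.NS

open MvPolynomial Crest.Agent.R237.Sigma Crest.Agent.R237.Jets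
open Crest.GeometryTopology.Hyperbolic
open Matrix

section lin

variable {k : ℕ}

open scoped MatrixOrder in
theorem psd_factor {M : Matrix (Fin k) (Fin k) ℝ} (hM : M.PosSemidef) :
    ∃ R : Matrix (Fin k) (Fin k) ℝ, M = Rᵀ * R := by
  obtain ⟨B, hB⟩ := CStarAlgebra.nonneg_iff_eq_star_mul_self.mp hM.nonneg
  refine ⟨B, ?_⟩
  rw [hB, star_eq_conjTranspose, conjTranspose_eq_transpose_of_trivial]

theorem quad_factor {M R : Matrix (Fin k) (Fin k) ℝ} (h : M = Rᵀ * R) (w : Fin k → ℝ) :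
    w ⬝ᵥ (M *ᵥ w) = ∑ l, (∑ i, R l i * w i) ^ 2 := by
  rw [h, ← Matrix.mulVec_mulVec, Matrix.dotProduct_mulVec, Matrix.vecMul_transpose]
  simp only [dotProduct, mulVec, sq]

theorem exists_rel_interior (𝓕 : Set (Matrix (Fin k) (Fin k) ℝ)) (hne : 𝓕.Nonempty)
    (hpsd : ∀ M ∈ 𝓕, M.PosSemidef)
    (hmid : ∀ M ∈ 𝓕, ∀ M' ∈ 𝓕, (1 / 2 : ℝ) • M + (1 / 2 : ℝ) • M' ∈ 𝓕) :
    ∃ M0 ∈ 𝓕, ∀ M ∈ 𝓕, ∀ v, M0 *ᵥ v = 0 → M *ᵥ v = 0 := by
  classical
  let f : 𝓕 → ℕ := fun M => Module.finrank ℝ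
    (LinearMap.ker (M : Matrix (Fin k) (Fin k) ℝ).mulVecLin)
  have : Nonempty 𝓕 := hne.to_subtype
  obtain ⟨M0, hM0⟩ : ∃ M0 : 𝓕, ∀ M, f M0 ≤ f M := by
    obtain ⟨n, ⟨M0, rfl⟩, hn⟩ := WellFounded.has_min (wellFounded_lt (α := ℕ)) (Set.range f)
      (Set.range_nonempty f)
    exact ⟨M0, fun M => not_lt.mp (hn _ ⟨M, rfl⟩)⟩
  refine ⟨M0, M0.2, ?_⟩
  intro M hM v hv
  let Mm : 𝓕 := ⟨(1 / 2 : ℝ) • M0.1 + (1 / 2 : ℝ) • M, hmid _ M0.2 _ hM⟩
  have hker : ∀ u, Mm.1 *ᵥ u = 0 → M0.1 *ᵥ u = 0 ∧ M *ᵥ u = 0 := by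
    intro u hu
    have h1 : u ⬝ᵥ (Mm.1 *ᵥ u) = 0 := by rw [hu]; simp
    have h2 : Mm.1 *ᵥ u = (1 / 2 : ℝ) • (M0.1 *ᵥ u) +
        (1 / 2 : ℝ) • (M *ᵥ u) := by
      simp only [Mm, Matrix.add_mulVec, Matrix.smul_mulVec]
    rw [h2, dotProduct_add, dotProduct_smul, dotProduct_smul] at h1
    have p0 := (hpsd _ M0.2).dotProduct_mulVec_nonneg u
    have p1 := (hpsd _ hM).dotProduct_mulVec_nonneg u
    simp only [star_trivial] at p0 p1
    simp only [smul_eq_mul] at h1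
    have q0 : star u ⬝ᵥ (M0.1 *ᵥ u) = 0 := by
      simp only [star_trivial]; linarith
    have q1 : star u ⬝ᵥ (M *ᵥ u) = 0 := by
      simp only [star_trivial]; linarith
    exact ⟨((hpsd _ M0.2).dotProduct_mulVec_zero_iff u).mp q0,
      ((hpsd _ hM).dotProduct_mulVec_zero_iff u).mp q1⟩
  have hle : LinearMap.ker Mm.1.mulVecLin ≤
      LinearMap.ker M0.1.mulVecLin := by
    intro u hu
    rw [LinearMap.mem_ker, Matrix.mulVecLin_apply] at hu ⊢
    exact (hker u hu).1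
  have heq := Submodule.eq_of_le_of_finrank_le hle (hM0 Mm)
  have hv' : v ∈ LinearMap.ker Mm.1.mulVecLin := by
    rw [heq, LinearMap.mem_ker, Matrix.mulVecLin_apply]; exact hv
  rw [LinearMap.mem_ker, Matrix.mulVecLin_apply] at hv'
  exact (hker v hv').2

theorem exists_section (M : Matrix (Fin k) (Fin k) ℝ) (hM : M.PosSemidef) :
    ∃ c0 : ℝ, 0 < c0 ∧ ∃ Q : Matrix (Fin k) (Fin k) ℝ, M * Q = 0 ∧
      ∀ w : Fin k → ℝ, c0 * ∑ i, (w - Q *ᵥ w) i ^ 2 ≤ w ⬝ᵥ (M *ᵥ w) := by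
  classical
  obtain ⟨R, hR⟩ := psd_factor hM
  let ρ := R.mulVecLin
  obtain ⟨s, hs⟩ := LinearMap.exists_rightInverse_of_surjective ρ.rangeRestrict
    (LinearMap.range_rangeRestrict ρ)
  obtain ⟨S, hS⟩ := LinearMap.exists_extend s
  have hρ : ∀ w, ρ (S (ρ w)) = ρ w := by
    intro w
    have h1 : S (ρ w) = s (ρ.rangeRestrict w) := by
      have := congrArg (fun f => f (ρ.rangeRestrict w)) hS
      simpa using this
    rw [h1]
    have h2 := congrArg (fun f => f (ρ.rangeRestrict w)) hs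
    have h3 := congrArg Subtype.val h2
    simpa using h3
  let T : Matrix (Fin k) (Fin k) ℝ := LinearMap.toMatrix' S
  have hSv : ∀ v, S v = T *ᵥ v := fun v => (LinearMap.toMatrix'_mulVec S v).symm
  have hT : ∀ v i, S v i = ∑ j, T i j * v j := by
    intro v i
    rw [hSv]; rfl
  let D : ℝ := (∑ i, ∑ j, T i j ^ 2) + 1
  have hD : 0 < D := by positivity
  let Q : Matrix (Fin k) (Fin k) ℝ := 1 - T * R
  have hQ : ∀ w, w - Q *ᵥ w = S (ρ w) := by
    intro w
    simp only [Q, Matrix.sub_mulVec, Matrix.one_mulVec, hSv, ρ, Matrix.mulVecLin_apply,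
      Matrix.mulVec_mulVec]
    abel
  refine ⟨1 / D, by positivity, Q, ?_, ?_⟩
  · have h0 : R * Q = 0 := by
      apply Matrix.toLin'.injective
      apply LinearMap.ext
      intro w
      have h1 : Q *ᵥ w = w - S (ρ w) := by rw [← hQ]; abel
      have h2 : R *ᵥ (Q *ᵥ w) = 0 := by
        rw [h1]
        have h2 : ρ (w - S (ρ w)) = 0 := by rw [map_sub, hρ w, sub_self]
        simpa [ρ] using h2
      simpa [Matrix.toLin'_apply, Matrix.mulVec_mulVec] using h2
    rw [hR, Matrix.mul_assoc, h0, Matrix.mul_zero]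
  · intro w
    rw [hQ]
    have h1 : w ⬝ᵥ (M *ᵥ w) = ∑ i, (ρ w i) ^ 2 := by
      rw [quad_factor hR]
      rfl
    rw [h1]
    have h2 : ∑ i, S (ρ w) i ^ 2 ≤ D * ∑ j, (ρ w j) ^ 2 := by
      have h3 : ∀ i, S (ρ w) i ^ 2 ≤ (∑ j, T i j ^ 2) * ∑ j, (ρ w j) ^ 2 := by
        intro i
        rw [hT]
        exact Finset.sum_mul_sq_le_sq_mul_sq _ _ _
      refine (Finset.sum_le_sum fun i _ => h3 i).trans ?_
      rw [← Finset.sum_mul]
      apply mul_le_mul_of_nonneg_right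
      · simp only [D]; linarith
      · positivity
    rw [one_div, inv_mul_le_iff₀ hD]
    exact h2

end lin

section main

variable {c : ℕ}

/-- Evaluation at the generic point, transported by `σ`. -/
theorem sigma_eval (S : Set ℝ) (b : Fin c → ℝ) (σ : ℝ →+* Jet c 5)
    (hσ : ∀ a ∈ S, σ a = Ideal.Quotient.mk _ (C a))
    (hb : ∀ i, σ (b i) = Ideal.Quotient.mk _ (C (b i) + X i))
    (p : MvPolynomial (Fin c) ℝ) (hp : ∀ d, coeff d p ∈ S) :
    σ (eval b p) = Ideal.Quotient.mk _ (aeval (fun i => C (b i) + X i) p) := by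
  rw [eval_eq', map_sum, aeval_def, eval₂_eq', map_sum]
  apply Finset.sum_congr rfl
  intro d _
  rw [map_mul, map_mul, hσ _ (hp d), map_prod, map_prod]
  congr 1
  apply Finset.prod_congr rfl
  intro i _
  rw [map_pow, map_pow, hb]

theorem totalDegree_shift (b : Fin c → ℝ) (p : MvPolynomial (Fin c) ℝ) :
    (aeval (fun i => C (b i) + X i) p : MvPolynomial (Fin c) ℝ).totalDegree ≤
      p.totalDegree := by
  rw [aeval_def, eval₂_eq']
  apply totalDegree_finsetSum_le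
  intro d hd
  refine (totalDegree_mul _ _).trans ?_
  have h1 : (algebraMap ℝ (MvPolynomial (Fin c) ℝ) (coeff d p)).totalDegree = 0 := by
    rw [algebraMap_eq, totalDegree_C]
  rw [h1, zero_add]
  refine (totalDegree_finsetProd _ _).trans ?_
  have h2 : ∀ i : Fin c, ((C (b i) + X i : MvPolynomial (Fin c) ℝ) ^ d i).totalDegree ≤ d i := by
    intro i
    refine (totalDegree_pow _ _).trans ?_
    have : (C (b i) + X i : MvPolynomial (Fin c) ℝ).totalDegree ≤ 1 := by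
      refine (totalDegree_add _ _).trans ?_
      simp
    calc _ ≤ d i * 1 := Nat.mul_le_mul_left _ this
      _ = d i := by ring
  refine (Finset.sum_le_sum fun i _ => h2 i).trans ?_
  have h3 := le_totalDegree hd
  rw [Finsupp.sum_fintype] at h3
  · exact h3
  · simp

/-- **Non-shadow criterion.** -/
theorem ns {m c : ℕ} (K : Set (Fin m → ℝ)) (hK : IsSpectrahedralShadow K) (hcl : IsClosed K)
    (z : Fin m → MvPolynomial (Fin c) ℝ) (hdeg : ∀ i, (z i).totalDegree ≤ 4)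
    (hz : ∀ u : Fin c → ℝ, (fun i => eval u (z i)) ∈ K)
    (g : (Fin c → ℝ) → ℝ → (Fin m → ℝ) →ₗ[ℝ] (Fin m → ℝ))
    (hgK : ∀ b ε, 0 < ε → ∀ x ∈ K, g b ε x ∈ K)
    (hgz : ∀ b ε, 0 < ε → ∀ u : Fin c → ℝ,
      g b ε (fun i => eval (fun j => b j + ε * u j) (z i)) = fun i => eval u (z i))
    (hgb : ∀ b x, ∃ C : ℝ, ∀ ε, 0 < ε → ε ≤ 1 → ∀ i, ε ^ 4 * |g b ε x i| ≤ C)
    (L : MvPolynomial (Fin c) ℝ →ₗ[ℝ] ℝ) (hL1 : L 1 = 1)
    (hL : ∀ h : MvPolynomial (Fin c) ℝ, h.totalDegree ≤ 2 → h ≠ 0 → 0 < L (h * h)) :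
    (fun i => L (z i)) ∈ K := by
  classical
  obtain ⟨k, a, A0, A, B, hA0, hA, hB, hKeq⟩ := hK
  let F : (Fin m → ℝ) → (Fin a → ℝ) → Matrix (Fin k) (Fin k) ℝ :=
    fun x y => A0 + ∑ i, x i • A i + ∑ j, y j • B j
  have hmem : ∀ x, x ∈ K ↔ ∃ y, (F x y).PosSemidef := by
    intro x; rw [hKeq]; rfl
  have hsymm : ∀ x y, (F x y)ᵀ = F x y := by
    intro x y
    simp only [F, Matrix.transpose_add, Matrix.transpose_sum, Matrix.transpose_smul]
    rw [hA0.eq]
    simp only [(hA _).eq, (hB _).eq]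
  have haff : ∀ (t : ℝ) (x x' : Fin m → ℝ) (y y' : Fin a → ℝ),
      F ((1 - t) • x + t • x') ((1 - t) • y + t • y') = (1 - t) • F x y + t • F x' y' := by
    intro t x x' y y'
    simp only [F, Pi.add_apply, Pi.smul_apply, smul_eq_mul, add_smul, mul_smul,
      Finset.sum_add_distrib, ← Finset.smul_sum, smul_add]
    have : A0 = (1 - t) • A0 + t • A0 := by rw [← add_smul]; simp
    conv_lhs => rw [this]
    abel
  -- relative interior point
  let 𝓕 : Set (Matrix (Fin k) (Fin k) ℝ) := {M | ∃ x y, M = F x y ∧ M.PosSemidef}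
  have hne : 𝓕.Nonempty := by
    obtain ⟨y, hy⟩ := (hmem _).mp (hz 0)
    exact ⟨_, _, y, rfl, hy⟩
  obtain ⟨M0, ⟨x0, y0, hM0, hM0psd⟩, hM0ker⟩ := exists_rel_interior 𝓕 hne
    (by rintro M ⟨x, y, _, h⟩; exact h)
    (by
      rintro M ⟨x, y, hM, h⟩ M' ⟨x', y', hM', h'⟩
      refine ⟨(1 - (1 / 2 : ℝ)) • x + (1 / 2 : ℝ) • x',
        (1 - (1 / 2 : ℝ)) • y + (1 / 2 : ℝ) • y', ?_, ?_⟩
      · rw [haff, ← hM, ← hM']; norm_num
      · exact (h.smul (by norm_num)).add (h'.smul (by norm_num)))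
  obtain ⟨c0, hc0, Q, hMQ, hsec⟩ := exists_section M0 hM0psd
  -- the countable set
  let S : Set ℝ := (Set.range fun p : Fin k × Fin k => A0 p.1 p.2) ∪
    (Set.range fun p : Fin m × Fin k × Fin k => A p.1 p.2.1 p.2.2) ∪
    (Set.range fun p : Fin a × Fin k × Fin k => B p.1 p.2.1 p.2.2) ∪
    (Set.range fun p : Fin k × Fin k => Q p.1 p.2) ∪
    (Set.range fun p : Fin m × (Fin c →₀ ℕ) => coeff p.2 (z p.1))
  have hS : S.Countable := by
    refine ((((Set.countable_range _).union (Set.countable_range _)).union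
      (Set.countable_range _)).union (Set.countable_range _)).union (Set.countable_range _)
  obtain ⟨b, σ, hres, hσ, hσb⟩ := exists_sigma S hS c 5 (by norm_num)
  have sA0 : ∀ i j, σ (A0 i j) = Ideal.Quotient.mk _ (C (A0 i j)) := fun i j =>
    hσ _ (Or.inl (Or.inl (Or.inl (Or.inl ⟨(i, j), rfl⟩))))
  have sA : ∀ s i j, σ (A s i j) = Ideal.Quotient.mk _ (C (A s i j)) := fun s i j =>
    hσ _ (Or.inl (Or.inl (Or.inl (Or.inr ⟨(s, i, j), rfl⟩))))
  have sB : ∀ s i j, σ (B s i j) = Ideal.Quotient.mk _ (C (B s i j)) := fun s i j =>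
    hσ _ (Or.inl (Or.inl (Or.inr ⟨(s, i, j), rfl⟩)))
  have sQ : ∀ i j, σ (Q i j) = Ideal.Quotient.mk _ (C (Q i j)) := fun i j =>
    hσ _ (Or.inl (Or.inr ⟨(i, j), rfl⟩))
  have sz : ∀ s, σ (eval b (z s)) = Ideal.Quotient.mk _
      (aeval (fun i => C (b i) + X i) (z s)) := fun s =>
    sigma_eval S b σ hσ hσb (z s) (fun d => Or.inr ⟨(s, d), rfl⟩)
  obtain ⟨y, hy⟩ := (hmem _).mp (hz b)
  obtain ⟨R, hR⟩ := psd_factor hy
  set N : Matrix (Fin k) (Fin k) ℝ := F (fun i => eval b (z i)) y with hN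
  let zs : Fin m → MvPolynomial (Fin c) ℝ := fun i => aeval (fun j => C (b j) + X j) (z i)
  let xe : ℝ → Fin m → ℝ := fun ε i => Sc L ε (zs i)
  let ye : ℝ → Fin a → ℝ := fun ε j => ell L ε (σ (y j))
  let G : ℝ → Matrix (Fin k) (Fin k) ℝ := fun ε => F (xe ε) (ye ε)
  have hFapp : ∀ x y i j, F x y i j = A0 i j + ∑ s, x s * A s i j + ∑ t, y t * B t i j := by
    intro x y i j
    simp [F, Matrix.add_apply, Matrix.sum_apply, Matrix.smul_apply]
  have ellC : ∀ ε r, ell L ε (Ideal.Quotient.mk _ (C r)) = r := by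
    intro ε r
    have := ell_mul_mk L ε r 1
    rw [mul_one] at this
    rw [this]
    have h1 : ell L ε (1 : Jet c 5) = 1 := by
      have : (1 : Jet c 5) = Ideal.Quotient.mk _ 1 := by simp
      rw [this, ell_mk, Sc_one, hL1]
    rw [h1, mul_one]
  have claim1 : ∀ ε i j, G ε i j = ell L ε (σ (N i j)) := by
    intro ε i j
    have e1 : N i j = A0 i j + ∑ s, eval b (z s) * A s i j + ∑ t, y t * B t i j :=
      hFapp _ _ i j
    rw [e1, map_add, map_add, map_sum, map_sum, ell_add, ell_add, ell_sum, ell_sum, sA0, ellC]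
    simp only [G]
    rw [hFapp]
    congr 1
    · congr 1
      apply Finset.sum_congr rfl
      intro s _
      rw [map_mul, sA, sz, mul_comm (Ideal.Quotient.mk _ _), ell_mul_mk, ell_mk, mul_comm]
    · apply Finset.sum_congr rfl
      intro t _
      rw [map_mul, sB, mul_comm (σ (y t)), ell_mul_mk, mul_comm]
  have hNij : ∀ i j, N i j = ∑ l, R l i * R l j := by
    intro i j
    rw [hR, Matrix.mul_apply]
    rfl
  have claim2 : ∀ ε (w : Fin k → ℝ), w ⬝ᵥ (G ε *ᵥ w) =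
      ∑ l, ell L ε ((∑ i, Ideal.Quotient.mk _ (C (w i)) * σ (R l i)) *
        (∑ i, Ideal.Quotient.mk _ (C (w i)) * σ (R l i))) := by
    intro ε w
    have e1 : ∀ l, ell L ε ((∑ i, Ideal.Quotient.mk _ (C (w i)) * σ (R l i)) *
        (∑ i, Ideal.Quotient.mk _ (C (w i)) * σ (R l i))) =
        ∑ i, ∑ j, w i * (w j * ell L ε (σ (R l i) * σ (R l j))) := by
      intro l
      rw [Finset.sum_mul_sum, ell_sum]
      apply Finset.sum_congr rfl
      intro i _
      rw [ell_sum]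
      apply Finset.sum_congr rfl
      intro j _
      have : Ideal.Quotient.mk ((mI c) ^ 5) (C (w i)) * σ (R l i) *
          (Ideal.Quotient.mk _ (C (w j)) * σ (R l j)) =
          Ideal.Quotient.mk _ (C (w i)) * (Ideal.Quotient.mk _ (C (w j)) *
            (σ (R l i) * σ (R l j))) := by ring
      rw [this, ell_mul_mk, ell_mul_mk]
    simp only [e1]
    have eG : ∀ i j, G ε i j = ∑ l, ell L ε (σ (R l i) * σ (R l j)) := by
      intro i j
      rw [claim1, hNij, map_sum, ell_sum]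
      apply Finset.sum_congr rfl
      intro l _
      rw [map_mul]
    have e2 : w ⬝ᵥ (G ε *ᵥ w) =
        ∑ i, ∑ j, ∑ l, w i * (w j * ell L ε (σ (R l i) * σ (R l j))) := by
      simp only [dotProduct, mulVec, Finset.mul_sum, eG, Finset.sum_mul]
      apply Finset.sum_congr rfl
      intro i _
      apply Finset.sum_congr rfl
      intro j _
      apply Finset.sum_congr rfl
      intro l _
      ring
    rw [e2, Finset.sum_comm]
    have e3 : ∀ j : Fin k, ∑ i, ∑ l, w i * (w j * ell L ε (σ (R l i) * σ (R l j))) =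
        ∑ l, ∑ i, w i * (w j * ell L ε (σ (R l i) * σ (R l j))) :=
      fun j => Finset.sum_comm
    simp only [e3]
    rw [Finset.sum_comm]
    apply Finset.sum_congr rfl
    intro l _
    exact Finset.sum_comm
  -- kernel
  have hNQ : N * Q = 0 := by
    apply Matrix.toLin'.injective
    apply LinearMap.ext
    intro w
    have h1 : M0 *ᵥ (Q *ᵥ w) = 0 := by
      rw [Matrix.mulVec_mulVec, hMQ, Matrix.zero_mulVec]
    have h2 := hM0ker N ⟨_, y, hN, hy⟩ _ h1
    simpa [Matrix.toLin'_apply, Matrix.mulVec_mulVec] using h2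
  have hGQ : ∀ ε, G ε * Q = 0 := by
    intro ε
    ext i j
    rw [Matrix.mul_apply, Matrix.zero_apply]
    have h1 : ∑ s, N i s * Q s j = 0 := by
      have := congrArg (fun M => M i j) hNQ
      simpa [Matrix.mul_apply] using this
    have h2 : ell L ε (σ (∑ s, N i s * Q s j)) = 0 := by
      rw [h1, map_zero, ell_zero]
    rw [map_sum, ell_sum] at h2
    rw [← h2]
    apply Finset.sum_congr rfl
    intro s _
    rw [map_mul, sQ, mul_comm (σ (N i s)), ell_mul_mk, claim1, mul_comm]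
  have hGsymm : ∀ ε, (G ε)ᵀ = G ε := fun ε => hsymm _ _
  have hproj : ∀ ε (w : Fin k → ℝ), w ⬝ᵥ (G ε *ᵥ w) =
      (w - Q *ᵥ w) ⬝ᵥ (G ε *ᵥ (w - Q *ᵥ w)) := by
    intro ε w
    have h1 : G ε *ᵥ (Q *ᵥ w) = 0 := by
      rw [Matrix.mulVec_mulVec, hGQ, Matrix.zero_mulVec]
    have h2 : (Q *ᵥ w) ⬝ᵥ (G ε *ᵥ w) = 0 := by
      rw [Matrix.dotProduct_mulVec, ← Matrix.mulVec_transpose, hGsymm, h1, zero_dotProduct]
    rw [Matrix.mulVec_sub, h1, sub_zero, sub_dotProduct, h2, sub_zero]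
  obtain ⟨C', hC', hlow⟩ := family_lower L hL (fun l i => σ (R l i))
  have hlow2 : ∀ ε, 0 < ε → ε ≤ 1 → ∀ w : Fin k → ℝ,
      -(C' * ε ^ 6 * ∑ i, (w - Q *ᵥ w) i ^ 2) ≤ w ⬝ᵥ (G ε *ᵥ w) := by
    intro ε hε hε1 w
    rw [hproj, claim2]
    exact hlow ε hε hε1 _
  -- the transported functional
  have hgx : ∀ ε, 0 < ε → g b ε (xe ε) = fun i => L (z i) := by
    intro ε hε
    let Γ := LinearMap.toMatrix' (g b ε)
    have hΓ : ∀ x i, g b ε x i = ∑ s, Γ i s * x s := by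
      intro x i
      have : g b ε x = Γ *ᵥ x := (LinearMap.toMatrix'_mulVec (g b ε) x).symm
      rw [this]; rfl
    have hxe : ∀ s, xe ε s = L (aeval (fun j => C (b j) + C ε * X j) (z s)) := by
      intro s
      simp only [xe]
      rw [Sc_eq_scale L ε (zs s) ((totalDegree_shift b (z s)).trans (hdeg s))]
      congr 1
      simp only [zs]
      rw [← AlgHom.comp_apply]
      congr 1
      ext1 j
      simp
    funext i
    rw [hΓ]
    have hpoly : ∑ s, C (Γ i s) * aeval (fun j => C (b j) + C ε * X j) (z s) = z i := by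
      apply MvPolynomial.funext
      intro u
      rw [map_sum]
      have h1 := congrFun (hgz b ε hε u) i
      rw [hΓ] at h1
      rw [← h1]
      apply Finset.sum_congr rfl
      intro s _
      rw [map_mul, eval_C]
      congr 1
      have h2 : (eval u) ((aeval fun j => C (b j) + C ε * X j) (z s)) =
          eval (fun j => b j + ε * u j) (z s) := by
        rw [aeval_def, ← coe_eval₂Hom, ← RingHom.comp_apply]
        have : (eval u).comp (eval₂Hom (algebraMap ℝ (MvPolynomial (Fin c) ℝ))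
            (fun j => C (b j) + C ε * X j)) = eval (fun j => b j + ε * u j) := by
          apply MvPolynomial.ringHom_ext
          · intro r; simp
          · intro j; simp
        rw [this]
      exact h2
    have h3 := congrArg L hpoly
    rw [map_sum] at h3
    rw [← h3]
    apply Finset.sum_congr rfl
    intro s _
    rw [← smul_eq_C_mul, map_smul, smul_eq_mul, hxe]
  -- points of K
  let κ : ℝ := C' / c0
  have hκ : 0 ≤ κ := div_nonneg hC' hc0.le
  let P : ℝ → Fin m → ℝ := fun ε =>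
    (1 - κ * ε ^ 6) • (fun i => L (z i)) + (κ * ε ^ 6) • g b ε x0
  have hP : ∀ ε, 0 < ε → ε ≤ 1 → κ * ε ^ 6 ≤ 1 → P ε ∈ K := by
    intro ε hε hε1 ht
    set t : ℝ := κ * ε ^ 6 with htdef
    have ht0 : 0 ≤ t := by positivity
    have hx : (1 - t) • xe ε + t • x0 ∈ K := by
      rw [hmem]
      refine ⟨(1 - t) • ye ε + t • y0, ?_⟩
      rw [haff, ← hM0]
      apply Matrix.PosSemidef.of_dotProduct_mulVec_nonneg
      · have h1 : ((1 - t) • F (xe ε) (ye ε) + t • M0)ᵀ =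
            (1 - t) • F (xe ε) (ye ε) + t • M0 := by
          rw [Matrix.transpose_add, Matrix.transpose_smul, Matrix.transpose_smul, hsymm, hM0,
            hsymm]
        rw [Matrix.IsHermitian, Matrix.conjTranspose_eq_transpose_of_trivial, h1]
      · intro w
        have h1 := hlow2 ε hε hε1 w
        have h2 := hsec w
        have h3 : 0 ≤ ∑ i, (w - Q *ᵥ w) i ^ 2 := by positivity
        simp only [star_trivial, Matrix.add_mulVec, Matrix.smul_mulVec, dotProduct_add,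
          dotProduct_smul, smul_eq_mul]
        have h4 : c0 * t = C' * ε ^ 6 := by
          simp only [htdef, κ]
          field_simp
        have h5 : w ⬝ᵥ (F (xe ε) (ye ε) *ᵥ w) = w ⬝ᵥ (G ε *ᵥ w) := rfl
        rw [h5]
        have h6 : (1 - t) * (-(C' * ε ^ 6 * ∑ i, (w - Q *ᵥ w) i ^ 2)) ≤
            (1 - t) * (w ⬝ᵥ (G ε *ᵥ w)) := mul_le_mul_of_nonneg_left h1 (by linarith)
        have h7 := mul_le_mul_of_nonneg_left h2 ht0
        have h8 : 0 ≤ t * (C' * ε ^ 6) * ∑ i, (w - Q *ᵥ w) i ^ 2 := by positivity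
        have h9 : t * (c0 * ∑ i, (w - Q *ᵥ w) i ^ 2) =
            C' * ε ^ 6 * ∑ i, (w - Q *ᵥ w) i ^ 2 := by
          rw [← h4]; ring
        rw [h9] at h7
        nlinarith [h6, h7, h8]
    have h1 := hgK b ε hε _ hx
    rw [map_add, map_smul, map_smul, hgx ε hε] at h1
    exact h1
  -- limit
  obtain ⟨Cb, hCb⟩ := hgb b x0
  have hlim : Filter.Tendsto P (nhdsWithin 0 (Set.Ioi 0)) (nhds (fun i => L (z i))) := by
    rw [tendsto_pi_nhds]
    intro i
    have e1 : ∀ ε, P ε i = L (z i) + κ * (ε ^ 6 * (g b ε x0 i - L (z i))) := by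
      intro ε
      simp only [P, Pi.add_apply, Pi.smul_apply, smul_eq_mul]
      ring
    simp only [e1]
    have e2 : Filter.Tendsto (fun ε : ℝ => ε ^ 6 * (g b ε x0 i - L (z i)))
        (nhdsWithin 0 (Set.Ioi 0)) (nhds 0) := by
      have hb1 : ∀ ε ∈ Set.Ioc (0 : ℝ) 1,
          |ε ^ 6 * (g b ε x0 i - L (z i))| ≤ ε ^ 2 * (Cb + |L (z i)|) := by
        rintro ε ⟨hε, hε1⟩
        have h1 := hCb ε hε hε1 i
        rw [abs_mul, abs_of_pos (by positivity : (0 : ℝ) < ε ^ 6)]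
        have h2 : |g b ε x0 i - L (z i)| ≤ |g b ε x0 i| + |L (z i)| := abs_sub _ _
        have h3 : ε ^ 4 ≤ 1 := pow_le_one₀ hε.le hε1
        have h4 : ε ^ 4 * |L (z i)| ≤ |L (z i)| := by
          have := mul_le_mul_of_nonneg_right h3 (abs_nonneg (L (z i)))
          linarith
        calc ε ^ 6 * |g b ε x0 i - L (z i)| ≤ ε ^ 6 * (|g b ε x0 i| + |L (z i)|) := by
              apply mul_le_mul_of_nonneg_left h2 (by positivity)
          _ = ε ^ 2 * (ε ^ 4 * |g b ε x0 i| + ε ^ 4 * |L (z i)|) := by ring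
          _ ≤ ε ^ 2 * (Cb + |L (z i)|) := by
              apply mul_le_mul_of_nonneg_left (by linarith) (by positivity)
      have hb2 : Filter.Tendsto (fun ε : ℝ => ε ^ 2 * (Cb + |L (z i)|))
          (nhdsWithin 0 (Set.Ioi 0)) (nhds 0) := by
        have : Filter.Tendsto (fun ε : ℝ => ε ^ 2 * (Cb + |L (z i)|)) (nhds 0)
            (nhds ((0 : ℝ) ^ 2 * (Cb + |L (z i)|))) := by
          apply Continuous.tendsto
          fun_prop
        have h0 : (0 : ℝ) ^ 2 * (Cb + |L (z i)|) = 0 := by ring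
        rw [h0] at this
        exact this.mono_left nhdsWithin_le_nhds
      rw [tendsto_zero_iff_abs_tendsto_zero]
      refine squeeze_zero' (Filter.Eventually.of_forall fun ε => abs_nonneg _) ?_ hb2
      have : Set.Ioc (0 : ℝ) 1 ∈ nhdsWithin (0 : ℝ) (Set.Ioi 0) :=
        Ioc_mem_nhdsGT (by norm_num)
      filter_upwards [this] with ε hε using hb1 ε hε
    have e3 := (e2.const_mul κ).const_add (L (z i))
    simpa using e3
  refine hcl.mem_of_tendsto hlim ?_
  have h1 : Set.Ioc (0 : ℝ) 1 ∈ nhdsWithin (0 : ℝ) (Set.Ioi 0) :=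
    Ioc_mem_nhdsGT (by norm_num)
  have h2 : ∀ᶠ ε : ℝ in nhdsWithin 0 (Set.Ioi 0), κ * ε ^ 6 ≤ 1 := by
    have : Filter.Tendsto (fun ε : ℝ => κ * ε ^ 6) (nhdsWithin 0 (Set.Ioi 0)) (nhds 0) := by
      have : Filter.Tendsto (fun ε : ℝ => κ * ε ^ 6) (nhds 0) (nhds (κ * 0 ^ 6)) := by
        apply Continuous.tendsto
        fun_prop
      have h0 : κ * (0 : ℝ) ^ 6 = 0 := by ring
      rw [h0] at this
      exact this.mono_left nhdsWithin_le_nhds
    exact (this.eventually (gt_mem_nhds (by norm_num : (0 : ℝ) < 1))).mono fun ε h => h.le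
  filter_upwards [h1, h2] with ε hε hε2 using hP ε hε.1 hε.2 hε2

end main

end Crest.Agent.R237.NS
end

-- ▼ part R237/AsmMain
section

/-!
Row 237 (S0367): assembly (helper432).
-/

set_option autoImplicit false

namespace Crest.Agent.R237.Asm
open Matrix Crest.GeometryTopology MvPolynomial

variable {n d r : ℕ}

/-- The assembly: everything except the concrete data. -/
theorem assemble (hn : 2 ≤ n) (q : Fin d → Matrix (Fin n) (Fin n) ℝ) (hq : ∀ a, (q a).IsSymm)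
    (v : Fin r → Fin n → ℝ) (hv : ∀ a k, eval (v k) (qf (q a)) = 0)
    (hspan : ∀ g : MvPolynomial (Fin n) ℝ, g.IsHomogeneous 2 → (∀ k, eval (v k) g = 0) →
      g ∈ Submodule.span ℝ (Set.range fun a => qf (q a)))
    (hfree : ∀ W : Matrix (Fin d) (Fin d) ℝ, W.IsSymm →
      ∃ T : MvPolynomial (Fin n) ℝ →ₗ[ℝ] ℝ, ∀ a b, T (qf (q a) * qf (q b)) = W a b)
    (Xi : Matrix (Fin n) (Fin d) ℝ →ₗ[ℝ] Matrix (Fin n) (Fin d) ℝ →ₗ[ℝ] ℝ)
    (P : Matrix (Fin n) (Fin n) ℝ) (Z : Fin n → Fin n → Fin n → ℝ) (phi : ℝ)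
    (hP : P.PosDef) (hZ : EX.IsSym3 Z) (Xi_symm : ∀ X Y, Xi X Y = Xi Y X)
    (hX1 : ∀ X Y y, Xi (X + EX.transl q y) Y = Xi X Y)
    (hX2 : ∀ P' : Matrix (Fin n) (Fin n) ℝ, P'.IsSymm → P'.trace = 0 → ∀ Z', EX.IsSym3 Z' →
      0 ≤ Xi (P' * EX.zeta q Z') (P' * EX.zeta q Z'))
    (phi_pos : 0 < phi) (H1 : ∀ X, Xi X X ≤ phi * ∑ i, ∑ a, X i a ^ 2)
    (hneg : Xi (P * EX.zeta q Z) (P * EX.zeta q Z) < 0) :
    ∃ (m : ℕ) (p : MvPolynomial (Fin m) ℝ) (e : Fin m → ℝ),
      Hyperbolic.IsHyperbolic p e ∧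
        ¬ Hyperbolic.IsSpectrahedralShadow (Hyperbolic.closedCone p e) := by
  obtain ⟨hshift, hI⟩ := xi_convert (q := q) hX1 hX2
  let D : HData (Model.mm n) n d := mkHData hn q hq Model.M Model.M_symm (Model.T q) Model.aw
    (fun x i j k => Model.s3 i j k x) Model.s3_sym (Model.hT0 q) (Model.hT1 q) (Model.e q)
    (Model.M_e q) (Model.T_e_succ q) (Model.w_e q) Xi Xi_symm hshift hI phi phi_pos H1
  have hD : Model.OnModel q D := ⟨rfl, rfl, rfl, hshift⟩
  refine ⟨Model.mm n, D.p, D.e, D.hyp.1, ?_⟩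
  rw [D.hyp.2]
  intro hsh
  obtain ⟨L, hL1, hLpos, hM, hT, hw⟩ := exists_flat q v hspan hfree P hP Z hZ
  -- `L` is in the closed cone by the non-shadow criterion
  have hmem : (fun i => L (zP q i)) ∈ closure D.K0 := by
    refine Ext.mem_of_nonneg v (zP q) (zP_good q hv) (closure D.K0) isClosed_closure ?_ L hL1 hLpos
    intro L' hL'1 hL'
    obtain ⟨δ, hδ, hL'⟩ := hL'
    refine NS.ns (closure D.K0) hsh isClosed_closure (zP q) (zP_deg q) ?_ (Model.gmap q) ?_ ?_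
      (Model.gmap_hgb q) L' hL'1 ?_
    · intro u
      rw [eval_zP]
      exact Model.z_closure hD hq u
    · intro b s hs x hx
      exact Model.gmap_closure hD hq b hs hx
    · intro b s hs u
      rw [eval_zP, eval_zP]
      exact Model.gmap_z q hq b s hs.ne' u
    · intro h hdeg h0
      refine lt_of_lt_of_le (mul_pos hδ ?_) (hL' h hdeg)
      obtain ⟨m, hm⟩ := MvPolynomial.support_nonempty.2 h0
      refine Finset.sum_pos' (fun m _ => sq_nonneg _) ⟨m, hm, ?_⟩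
      have := MvPolynomial.mem_support_iff.1 hm
      positivity
  -- but it is not
  have hdet : IsUnit P.det := (Matrix.isUnit_iff_isUnit_det _).1 hP.isUnit
  have hflat := F_flat D (fun i => L (zP q i)) P⁻¹ hP.inv hM (EX.zeta q Z) hT (by
    rw [Matrix.nonsing_inv_nonsing_inv _ hdet]; exact hw)
  rw [Matrix.nonsing_inv_nonsing_inv _ hdet] at hflat
  have htr : 0 < P.trace := by
    have : Nonempty (Fin n) := ⟨⟨0, by omega⟩⟩
    exact hP.trace_pos
  have hF : D.F (fun i => L (zP q i)) < 0 := by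
    rw [hflat.2]
    exact div_neg_of_neg_of_pos hneg htr
  exact Model.not_mem_closure hflat.1 hF hmem

end Crest.Agent.R237.Asm
end

-- ▼ part R237/MK
section

/-!
Row 237, certificate LKC (helper782, triangular certificate by helper215): for the Moebius-Kantor
space `V_0` the kernel of the differential of `(P, Z) ↦ P * zeta q Z` modulo translations at the
point `(P0, Z0)` is one dimensional.
-/

set_option autoImplicit false
set_option linter.unusedVariables false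
set_option linter.unusedSimpArgs false
set_option linter.unusedTactic false

namespace Crest.Agent.R237.MK

open Matrix Crest.Agent.R237.EX

/-- the 19 binomials `u_{p1} u_{p2} - u_{p3} u_{p4}`. -/
def pr : Fin 19 → (Fin 8 × Fin 8) × (Fin 8 × Fin 8) :=
  ![((0, 1), (1, 3)), ((0, 3), (1, 3)), ((1, 2), (2, 4)), ((1, 4), (2, 4)), ((2, 3), (3, 5)), ((2, 5), (3, 5)), ((3, 4), (4, 6)), ((3, 6), (4, 6)), ((4, 5), (5, 7)), ((4, 7), (5, 7)), ((5, 6), (6, 0)), ((5, 0), (6, 0)), ((6, 7), (7, 1)), ((6, 1), (7, 1)), ((7, 0), (0, 2)), ((7, 2), (0, 2)), ((0, 4), (1, 5)), ((0, 4), (2, 6)), ((0, 4), (3, 7))]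

/-- symmetric matrix with ones at `(i,j)` and `(j,i)` (for `i ≠ j`). -/
def sy (p : Fin 8 × Fin 8) : Matrix (Fin 8) (Fin 8) ℝ :=
  Matrix.single p.1 p.2 1 + Matrix.single p.2 p.1 1

/-- the matrix of the quadratic form `2 (u_{p1} u_{p2} - u_{p3} u_{p4})`. -/
def q (a : Fin 19) : Matrix (Fin 8) (Fin 8) ℝ := sy (pr a).1 - sy (pr a).2

/-- the involution `(0 4)(1 7)(2 5)`. -/
def sg : Fin 8 → Fin 8 := ![4, 7, 5, 3, 0, 2, 6, 1]

/-- the point `P0`: permutation matrix of `sg`. -/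
def P0 : Matrix (Fin 8) (Fin 8) ℝ := Matrix.of fun i j => if j = sg i then 1 else 0

/-- the third index completing `{k,l}` to one of the monomials `035, 123, 467`. -/
def thd : Fin 8 → Fin 8 → Option (Fin 8) := ![
  ![none, none, none, some 5, none, some 3, none, none],
  ![none, none, some 3, some 2, none, none, none, none],
  ![none, some 3, none, some 1, none, none, none, none],
  ![some 5, some 2, some 1, none, none, some 0, none, none],
  ![none, none, none, none, none, none, some 7, some 6],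
  ![some 3, none, none, some 0, none, none, none, none],
  ![none, none, none, none, some 7, none, none, some 4],
  ![none, none, none, none, some 6, none, some 4, none]]

/-- the point `Z0`. -/
def Z0 (j k l : Fin 8) : ℝ := if thd k l = some j then 1 else 0


theorem Z0_symm : ∀ i j k, Z0 i j k = Z0 j i k ∧ Z0 i j k = Z0 i k j := by
  have h : ∀ i j k : Fin 8, ((thd j k = some i ↔ thd i k = some j) ∧
      (thd j k = some i ↔ thd k j = some i)) := by decide
  intro i j k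
  obtain ⟨h1, h2⟩ := h i j k
  unfold Z0
  constructor
  · simp only [h1]
  · simp only [h2]

/-- sorted values of a function of a pair. -/
def sE (e : Fin 8 → Fin 8 → ℝ) (i j : Fin 8) : ℝ := if i ≤ j then e i j else e j i

/-- sorted values of a function of a triple. -/
def sZ (z : Fin 8 → Fin 8 → Fin 8 → ℝ) (i j k : Fin 8) : ℝ :=
  if i ≤ j then (if j ≤ k then z i j k else if i ≤ k then z i k j else z k i j)
  else (if i ≤ k then z j i k else if j ≤ k then z j k i else z k j i)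

/-- `E`-term. -/
def tE (e : Fin 8 → Fin 8 → ℝ) (i : Fin 8) (o : Option (Fin 8)) : ℝ :=
  match o with
  | none => 0
  | some j => sE e i j

/-- the scalar form of the equation for the form `a` and the row `i`. -/
def eqn (e : Fin 8 → Fin 8 → ℝ) (z : Fin 8 → Fin 8 → Fin 8 → ℝ) (y : Fin 8 → ℝ)
    (a : Fin 19) (i : Fin 8) : Prop :=
  2 * (tE e i (thd (pr a).1.1 (pr a).1.2) - tE e i (thd (pr a).2.1 (pr a).2.2))
    + 2 * (sZ z (sg i) (pr a).1.1 (pr a).1.2 - sZ z (sg i) (pr a).2.1 (pr a).2.2)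
    + ((if i = (pr a).1.1 then y (pr a).1.2 else 0) + (if i = (pr a).1.2 then y (pr a).1.1 else 0)
      - ((if i = (pr a).2.1 then y (pr a).2.2 else 0)
        + (if i = (pr a).2.2 then y (pr a).2.1 else 0))) = 0


section core
variable (e : Fin 8 → Fin 8 → ℝ) (z : Fin 8 → Fin 8 → Fin 8 → ℝ) (y : Fin 8 → ℝ)
  (h : ∀ a i, eqn e z y a i)
include h

theorem h_0_0 : 2 * (0 - e 0 2) + 2 * (z 0 1 4 - z 1 3 4) + (y 1 + 0 - (0 + 0)) = 0 := h 0 0
theorem h_0_1 : 2 * (0 - e 1 2) + 2 * (z 0 1 7 - z 1 3 7) + (0 + y 0 - (y 3 + 0)) = 0 := h 0 1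
theorem h_0_2 : 2 * (0 - e 2 2) + 2 * (z 0 1 5 - z 1 3 5) + (0 + 0 - (0 + 0)) = 0 := h 0 2
theorem h_0_5 : 2 * (0 - e 2 5) + 2 * (z 0 1 2 - z 1 2 3) + (0 + 0 - (0 + 0)) = 0 := h 0 5
theorem h_0_6 : 2 * (0 - e 2 6) + 2 * (z 0 1 6 - z 1 3 6) + (0 + 0 - (0 + 0)) = 0 := h 0 6
theorem h_1_0 : 2 * (e 0 5 - e 0 2) + 2 * (z 0 3 4 - z 1 3 4) + (y 3 + 0 - (0 + 0)) = 0 := h 1 0
theorem h_1_1 : 2 * (e 1 5 - e 1 2) + 2 * (z 0 3 7 - z 1 3 7) + (0 + 0 - (y 3 + 0)) = 0 := h 1 1
theorem h_1_2 : 2 * (e 2 5 - e 2 2) + 2 * (z 0 3 5 - z 1 3 5) + (0 + 0 - (0 + 0)) = 0 := h 1 2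
theorem h_1_5 : 2 * (e 5 5 - e 2 5) + 2 * (z 0 2 3 - z 1 2 3) + (0 + 0 - (0 + 0)) = 0 := h 1 5
theorem h_1_6 : 2 * (e 5 6 - e 2 6) + 2 * (z 0 3 6 - z 1 3 6) + (0 + 0 - (0 + 0)) = 0 := h 1 6
theorem h_2_1 : 2 * (e 1 3 - 0) + 2 * (z 1 2 7 - z 2 4 7) + (y 2 + 0 - (0 + 0)) = 0 := h 2 1
theorem h_2_2 : 2 * (e 2 3 - 0) + 2 * (z 1 2 5 - z 2 4 5) + (0 + y 1 - (y 4 + 0)) = 0 := h 2 2
theorem h_2_3 : 2 * (e 3 3 - 0) + 2 * (z 1 2 3 - z 2 3 4) + (0 + 0 - (0 + 0)) = 0 := h 2 3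
theorem h_2_4 : 2 * (e 3 4 - 0) + 2 * (z 0 1 2 - z 0 2 4) + (0 + 0 - (0 + y 2)) = 0 := h 2 4
theorem h_2_6 : 2 * (e 3 6 - 0) + 2 * (z 1 2 6 - z 2 4 6) + (0 + 0 - (0 + 0)) = 0 := h 2 6
theorem h_3_1 : 2 * (0 - 0) + 2 * (z 1 4 7 - z 2 4 7) + (y 4 + 0 - (0 + 0)) = 0 := h 3 1
theorem h_3_2 : 2 * (0 - 0) + 2 * (z 1 4 5 - z 2 4 5) + (0 + 0 - (y 4 + 0)) = 0 := h 3 2
theorem h_3_3 : 2 * (0 - 0) + 2 * (z 1 3 4 - z 2 3 4) + (0 + 0 - (0 + 0)) = 0 := h 3 3
theorem h_3_4 : 2 * (0 - 0) + 2 * (z 0 1 4 - z 0 2 4) + (0 + y 1 - (0 + y 2)) = 0 := h 3 4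
theorem h_3_6 : 2 * (0 - 0) + 2 * (z 1 4 6 - z 2 4 6) + (0 + 0 - (0 + 0)) = 0 := h 3 6
theorem h_4_0 : 2 * (e 0 1 - e 0 0) + 2 * (z 2 3 4 - z 3 4 5) + (0 + 0 - (0 + 0)) = 0 := h 4 0
theorem h_4_1 : 2 * (e 1 1 - e 0 1) + 2 * (z 2 3 7 - z 3 5 7) + (0 + 0 - (0 + 0)) = 0 := h 4 1
theorem h_4_4 : 2 * (e 1 4 - e 0 4) + 2 * (z 0 2 3 - z 0 3 5) + (0 + 0 - (0 + 0)) = 0 := h 4 4
theorem h_4_6 : 2 * (e 1 6 - e 0 6) + 2 * (z 2 3 6 - z 3 5 6) + (0 + 0 - (0 + 0)) = 0 := h 4 6
theorem h_5_0 : 2 * (0 - e 0 0) + 2 * (z 2 4 5 - z 3 4 5) + (0 + 0 - (0 + 0)) = 0 := h 5 0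
theorem h_5_1 : 2 * (0 - e 0 1) + 2 * (z 2 5 7 - z 3 5 7) + (0 + 0 - (0 + 0)) = 0 := h 5 1
theorem h_5_4 : 2 * (0 - e 0 4) + 2 * (z 0 2 5 - z 0 3 5) + (0 + 0 - (0 + 0)) = 0 := h 5 4
theorem h_5_6 : 2 * (0 - e 0 6) + 2 * (z 2 5 6 - z 3 5 6) + (0 + 0 - (0 + 0)) = 0 := h 5 6
theorem h_5_7 : 2 * (0 - e 0 7) + 2 * (z 1 2 5 - z 1 3 5) + (0 + 0 - (0 + 0)) = 0 := h 5 7
theorem h_6_1 : 2 * (0 - e 1 7) + 2 * (z 3 4 7 - z 4 6 7) + (0 + 0 - (0 + 0)) = 0 := h 6 1
theorem h_6_2 : 2 * (0 - e 2 7) + 2 * (z 3 4 5 - z 4 5 6) + (0 + 0 - (0 + 0)) = 0 := h 6 2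
theorem h_6_4 : 2 * (0 - e 4 7) + 2 * (z 0 3 4 - z 0 4 6) + (0 + y 3 - (y 6 + 0)) = 0 := h 6 4
theorem h_6_5 : 2 * (0 - e 5 7) + 2 * (z 2 3 4 - z 2 4 6) + (0 + 0 - (0 + 0)) = 0 := h 6 5
theorem h_6_7 : 2 * (0 - e 7 7) + 2 * (z 1 3 4 - z 1 4 6) + (0 + 0 - (0 + 0)) = 0 := h 6 7
theorem h_7_1 : 2 * (0 - e 1 7) + 2 * (z 3 6 7 - z 4 6 7) + (0 + 0 - (0 + 0)) = 0 := h 7 1
theorem h_7_2 : 2 * (0 - e 2 7) + 2 * (z 3 5 6 - z 4 5 6) + (0 + 0 - (0 + 0)) = 0 := h 7 2
theorem h_7_4 : 2 * (0 - e 4 7) + 2 * (z 0 3 6 - z 0 4 6) + (0 + 0 - (y 6 + 0)) = 0 := h 7 4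
theorem h_7_5 : 2 * (0 - e 5 7) + 2 * (z 2 3 6 - z 2 4 6) + (0 + 0 - (0 + 0)) = 0 := h 7 5
theorem h_7_7 : 2 * (0 - e 7 7) + 2 * (z 1 3 6 - z 1 4 6) + (0 + 0 - (0 + 0)) = 0 := h 7 7
theorem h_8_3 : 2 * (0 - 0) + 2 * (z 3 4 5 - z 3 5 7) + (0 + 0 - (0 + 0)) = 0 := h 8 3
theorem h_8_4 : 2 * (0 - 0) + 2 * (z 0 4 5 - z 0 5 7) + (y 5 + 0 - (0 + 0)) = 0 := h 8 4
theorem h_8_6 : 2 * (0 - 0) + 2 * (z 4 5 6 - z 5 6 7) + (0 + 0 - (0 + 0)) = 0 := h 8 6
theorem h_8_7 : 2 * (0 - 0) + 2 * (z 1 4 5 - z 1 5 7) + (0 + 0 - (0 + y 5)) = 0 := h 8 7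
theorem h_9_3 : 2 * (e 3 6 - 0) + 2 * (z 3 4 7 - z 3 5 7) + (0 + 0 - (0 + 0)) = 0 := h 9 3
theorem h_9_4 : 2 * (e 4 6 - 0) + 2 * (z 0 4 7 - z 0 5 7) + (y 7 + 0 - (0 + 0)) = 0 := h 9 4
theorem h_9_5 : 2 * (e 5 6 - 0) + 2 * (z 2 4 7 - z 2 5 7) + (0 + 0 - (y 7 + 0)) = 0 := h 9 5
theorem h_9_6 : 2 * (e 6 6 - 0) + 2 * (z 4 6 7 - z 5 6 7) + (0 + 0 - (0 + 0)) = 0 := h 9 6
theorem h_9_7 : 2 * (e 6 7 - 0) + 2 * (z 1 4 7 - z 1 5 7) + (0 + y 4 - (0 + y 5)) = 0 := h 9 7
theorem h_10_0 : 2 * (0 - 0) + 2 * (z 4 5 6 - z 0 4 6) + (0 + 0 - (0 + y 6)) = 0 := h 10 0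
theorem h_10_1 : 2 * (0 - 0) + 2 * (z 5 6 7 - z 0 6 7) + (0 + 0 - (0 + 0)) = 0 := h 10 1
theorem h_10_3 : 2 * (0 - 0) + 2 * (z 3 5 6 - z 0 3 6) + (0 + 0 - (0 + 0)) = 0 := h 10 3
theorem h_10_5 : 2 * (0 - 0) + 2 * (z 2 5 6 - z 0 2 6) + (y 6 + 0 - (0 + 0)) = 0 := h 10 5
theorem h_10_7 : 2 * (0 - 0) + 2 * (z 1 5 6 - z 0 1 6) + (0 + 0 - (0 + 0)) = 0 := h 10 7
theorem h_11_0 : 2 * (e 0 3 - 0) + 2 * (z 0 4 5 - z 0 4 6) + (0 + y 5 - (0 + y 6)) = 0 := h 11 0
theorem h_11_1 : 2 * (e 1 3 - 0) + 2 * (z 0 5 7 - z 0 6 7) + (0 + 0 - (0 + 0)) = 0 := h 11 1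
theorem h_11_5 : 2 * (e 3 5 - 0) + 2 * (z 0 2 5 - z 0 2 6) + (y 0 + 0 - (0 + 0)) = 0 := h 11 5
theorem h_11_7 : 2 * (e 3 7 - 0) + 2 * (z 0 1 5 - z 0 1 6) + (0 + 0 - (0 + 0)) = 0 := h 11 7
theorem h_12_0 : 2 * (e 0 4 - 0) + 2 * (z 4 6 7 - z 1 4 7) + (0 + 0 - (0 + 0)) = 0 := h 12 0
theorem h_12_2 : 2 * (e 2 4 - 0) + 2 * (z 5 6 7 - z 1 5 7) + (0 + 0 - (0 + 0)) = 0 := h 12 2
theorem h_12_3 : 2 * (e 3 4 - 0) + 2 * (z 3 6 7 - z 1 3 7) + (0 + 0 - (0 + 0)) = 0 := h 12 3
theorem h_12_4 : 2 * (e 4 4 - 0) + 2 * (z 0 6 7 - z 0 1 7) + (0 + 0 - (0 + 0)) = 0 := h 12 4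
theorem h_12_5 : 2 * (e 4 5 - 0) + 2 * (z 2 6 7 - z 1 2 7) + (0 + 0 - (0 + 0)) = 0 := h 12 5
theorem h_13_0 : 2 * (0 - 0) + 2 * (z 1 4 6 - z 1 4 7) + (0 + 0 - (0 + 0)) = 0 := h 13 0
theorem h_13_2 : 2 * (0 - 0) + 2 * (z 1 5 6 - z 1 5 7) + (0 + 0 - (0 + 0)) = 0 := h 13 2
theorem h_13_3 : 2 * (0 - 0) + 2 * (z 1 3 6 - z 1 3 7) + (0 + 0 - (0 + 0)) = 0 := h 13 3
theorem h_13_4 : 2 * (0 - 0) + 2 * (z 0 1 6 - z 0 1 7) + (0 + 0 - (0 + 0)) = 0 := h 13 4
theorem h_13_5 : 2 * (0 - 0) + 2 * (z 1 2 6 - z 1 2 7) + (0 + 0 - (0 + 0)) = 0 := h 13 5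
theorem h_14_0 : 2 * (0 - 0) + 2 * (z 0 4 7 - z 0 2 4) + (0 + y 7 - (y 2 + 0)) = 0 := h 14 0
theorem h_14_2 : 2 * (0 - 0) + 2 * (z 0 5 7 - z 0 2 5) + (0 + 0 - (0 + y 0)) = 0 := h 14 2
theorem h_14_3 : 2 * (0 - 0) + 2 * (z 0 3 7 - z 0 2 3) + (0 + 0 - (0 + 0)) = 0 := h 14 3
theorem h_14_6 : 2 * (0 - 0) + 2 * (z 0 6 7 - z 0 2 6) + (0 + 0 - (0 + 0)) = 0 := h 14 6
theorem h_14_7 : 2 * (0 - 0) + 2 * (z 0 1 7 - z 0 1 2) + (y 0 + 0 - (0 + 0)) = 0 := h 14 7
theorem h_15_0 : 2 * (0 - 0) + 2 * (z 2 4 7 - z 0 2 4) + (0 + 0 - (y 2 + 0)) = 0 := h 15 0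
theorem h_15_2 : 2 * (0 - 0) + 2 * (z 2 5 7 - z 0 2 5) + (0 + y 7 - (0 + y 0)) = 0 := h 15 2
theorem h_15_3 : 2 * (0 - 0) + 2 * (z 2 3 7 - z 0 2 3) + (0 + 0 - (0 + 0)) = 0 := h 15 3
theorem h_15_6 : 2 * (0 - 0) + 2 * (z 2 6 7 - z 0 2 6) + (0 + 0 - (0 + 0)) = 0 := h 15 6
theorem h_15_7 : 2 * (0 - 0) + 2 * (z 1 2 7 - z 0 1 2) + (y 2 + 0 - (0 + 0)) = 0 := h 15 7
theorem h_16_0 : 2 * (0 - 0) + 2 * (z 0 4 4 - z 1 4 5) + (y 4 + 0 - (0 + 0)) = 0 := h 16 0
theorem h_16_1 : 2 * (0 - 0) + 2 * (z 0 4 7 - z 1 5 7) + (0 + 0 - (y 5 + 0)) = 0 := h 16 1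
theorem h_16_3 : 2 * (0 - 0) + 2 * (z 0 3 4 - z 1 3 5) + (0 + 0 - (0 + 0)) = 0 := h 16 3
theorem h_16_4 : 2 * (0 - 0) + 2 * (z 0 0 4 - z 0 1 5) + (0 + y 0 - (0 + 0)) = 0 := h 16 4
theorem h_16_5 : 2 * (0 - 0) + 2 * (z 0 2 4 - z 1 2 5) + (0 + 0 - (0 + y 1)) = 0 := h 16 5
theorem h_16_6 : 2 * (0 - 0) + 2 * (z 0 4 6 - z 1 5 6) + (0 + 0 - (0 + 0)) = 0 := h 16 6
theorem h_17_0 : 2 * (0 - 0) + 2 * (z 0 4 4 - z 2 4 6) + (y 4 + 0 - (0 + 0)) = 0 := h 17 0
theorem h_17_1 : 2 * (0 - 0) + 2 * (z 0 4 7 - z 2 6 7) + (0 + 0 - (0 + 0)) = 0 := h 17 1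
theorem h_17_2 : 2 * (0 - 0) + 2 * (z 0 4 5 - z 2 5 6) + (0 + 0 - (y 6 + 0)) = 0 := h 17 2
theorem h_17_3 : 2 * (0 - 0) + 2 * (z 0 3 4 - z 2 3 6) + (0 + 0 - (0 + 0)) = 0 := h 17 3
theorem h_17_4 : 2 * (0 - 0) + 2 * (z 0 0 4 - z 0 2 6) + (0 + y 0 - (0 + 0)) = 0 := h 17 4
theorem h_17_7 : 2 * (0 - 0) + 2 * (z 0 1 4 - z 1 2 6) + (0 + 0 - (0 + 0)) = 0 := h 17 7
theorem h_18_0 : 2 * (0 - 0) + 2 * (z 0 4 4 - z 3 4 7) + (y 4 + 0 - (0 + 0)) = 0 := h 18 0
theorem h_18_2 : 2 * (0 - 0) + 2 * (z 0 4 5 - z 3 5 7) + (0 + 0 - (0 + 0)) = 0 := h 18 2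
theorem h_18_4 : 2 * (0 - 0) + 2 * (z 0 0 4 - z 0 3 7) + (0 + y 0 - (0 + 0)) = 0 := h 18 4
theorem h_18_5 : 2 * (0 - 0) + 2 * (z 0 2 4 - z 2 3 7) + (0 + 0 - (0 + 0)) = 0 := h 18 5
theorem h_18_6 : 2 * (0 - 0) + 2 * (z 0 4 6 - z 3 6 7) + (0 + 0 - (0 + 0)) = 0 := h 18 6
theorem h_18_7 : 2 * (0 - 0) + 2 * (z 0 1 4 - z 1 3 7) + (0 + 0 - (0 + y 3)) = 0 := h 18 7
theorem f_E17 : e 1 7 = e 0 4 := by
  linear_combination (-1/2) * h_3_6 e z y h + (-1/2) * h_6_1 e z y h + (-1/2) * h_12_0 e z y h + (1/2) * h_13_0 e z y h + (1/2) * h_17_0 e z y h + (-1/2) * h_18_0 e z y h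
theorem f_y5 : y 5 = 0 := by
  linear_combination (1) * h_6_1 e z y h + (-1) * h_7_1 e z y h + (-1) * h_8_7 e z y h + (1) * h_13_2 e z y h + (-1) * h_16_0 e z y h + (1) * h_16_6 e z y h + (1) * h_18_0 e z y h + (-1) * h_18_6 e z y h
theorem f_E24 : e 2 4 = 0 := by
  linear_combination (-1/2) * h_10_1 e z y h + (1/2) * h_12_2 e z y h + (-1/2) * h_14_6 e z y h + (1/2) * h_15_6 e z y h + (-1/2) * h_16_1 e z y h + (1/2) * h_17_1 e z y h + (-1/2) * f_y5 e z y h
theorem f_E66 : e 6 6 = e 0 4 := by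
  linear_combination (1/2) * h_7_1 e z y h + (1/2) * h_9_6 e z y h + (1/2) * h_12_2 e z y h + (-1/2) * h_13_2 e z y h + (-1/2) * h_16_6 e z y h + (1/2) * h_18_6 e z y h + (1) * f_E17 e z y h + (-1) * f_E24 e z y h
theorem f_E35 : e 3 5 = 0 := by
  linear_combination (1/2) * h_8_4 e z y h + (-1/2) * h_10_5 e z y h + (1/2) * h_11_5 e z y h + (1/2) * h_14_2 e z y h + (-1/2) * h_17_2 e z y h + (-1/2) * f_y5 e z y h
theorem f_E44 : e 4 4 = 0 := by
  linear_combination (1/2) * h_10_1 e z y h + (-1/2) * h_10_7 e z y h + (-1/2) * h_12_2 e z y h + (1/2) * h_12_4 e z y h + (1/2) * h_13_2 e z y h + (-1/2) * h_13_4 e z y h + (1) * f_E24 e z y h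
theorem f_y6 : y 6 = 0 := by
  linear_combination (-1) * h_7_1 e z y h + (1) * h_8_6 e z y h + (-1) * h_9_6 e z y h + (-1) * h_10_0 e z y h + (-1) * h_18_6 e z y h + (-2) * f_E17 e z y h + (2) * f_E66 e z y h
theorem f_E13 : e 1 3 = 0 := by
  linear_combination (1/2) * h_8_4 e z y h + (-1/2) * h_10_5 e z y h + (1/2) * h_11_1 e z y h + (1/2) * h_14_6 e z y h + (-1/2) * h_17_2 e z y h + (-1/2) * f_y5 e z y h
theorem f_E37 : e 3 7 = 0 := by
  linear_combination (-1/2) * h_10_7 e z y h + (1/2) * h_11_7 e z y h + (1/2) * h_13_2 e z y h + (1/2) * h_15_6 e z y h + (-1/2) * h_16_1 e z y h + (1/2) * h_16_4 e z y h + (1/2) * h_17_1 e z y h + (-1/2) * h_17_4 e z y h + (-1/2) * f_y5 e z y h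
theorem f_E03 : e 0 3 = 0 := by
  linear_combination (-1/2) * h_8_4 e z y h + (1/2) * h_10_1 e z y h + (1/2) * h_11_0 e z y h + (-1/2) * h_11_1 e z y h + (-1/2) * h_12_2 e z y h + (1/2) * h_13_2 e z y h + (1/2) * h_16_6 e z y h + (1/2) * f_y6 e z y h + (1) * f_E13 e z y h + (1) * f_E24 e z y h
theorem f_E36 : e 3 6 = 0 := by
  linear_combination (-1/2) * h_6_1 e z y h + (1/2) * h_8_6 e z y h + (1/2) * h_9_3 e z y h + (-1/2) * h_9_6 e z y h + (-1/2) * h_10_0 e z y h + (1/2) * h_11_0 e z y h + (-1/2) * h_18_2 e z y h + (-1) * f_E03 e z y h + (-1/2) * f_y5 e z y h + (-1) * f_E17 e z y h + (1) * f_E66 e z y h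
theorem f_E27 : e 2 7 = 0 := by
  linear_combination (1/2) * h_6_1 e z y h + (-1/2) * h_6_2 e z y h + (1/2) * h_8_3 e z y h + (-1/2) * h_8_6 e z y h + (-1/2) * h_9_3 e z y h + (1/2) * h_9_6 e z y h + (1) * f_E17 e z y h + (-1) * f_E66 e z y h + (1) * f_E36 e z y h
theorem f_E06 : e 0 6 = 0 := by
  linear_combination (-1/2) * h_5_6 e z y h + (1/2) * h_6_2 e z y h + (-1/2) * h_7_2 e z y h + (-1/2) * h_8_3 e z y h + (-1/2) * h_17_2 e z y h + (1/2) * h_18_2 e z y h + (-1/2) * f_y6 e z y h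
theorem f_E34 : e 3 4 = 0 := by
  linear_combination (-1/2) * h_2_1 e z y h + (1/2) * h_2_4 e z y h + (-1/2) * h_15_0 e z y h + (1/2) * h_15_7 e z y h + (1) * f_E13 e z y h
theorem f_y3 : y 3 = 0 := by
  linear_combination (1) * h_2_6 e z y h + (1) * h_6_1 e z y h + (-1) * h_7_1 e z y h + (1) * h_12_3 e z y h + (-1) * h_17_0 e z y h + (1) * h_17_7 e z y h + (1) * h_18_0 e z y h + (-1) * h_18_7 e z y h + (-2) * f_E36 e z y h + (-2) * f_E34 e z y h
theorem f_E47 : e 4 7 = 0 := by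
  linear_combination (-1/2) * h_5_6 e z y h + (-1/2) * h_7_4 e z y h + (-1/2) * h_10_3 e z y h + (1/2) * h_11_0 e z y h + (-1/2) * h_17_2 e z y h + (-1) * f_E03 e z y h + (-1/2) * f_y5 e z y h + (-1) * f_E06 e z y h + (-1/2) * f_y6 e z y h
theorem f_E45 : e 4 5 = 0 := by
  linear_combination (1/2) * h_2_6 e z y h + (1/2) * h_8_7 e z y h + (1/2) * h_12_5 e z y h + (-1/2) * h_13_5 e z y h + (1/2) * h_16_0 e z y h + (-1/2) * h_16_1 e z y h + (-1/2) * h_17_0 e z y h + (1/2) * h_17_1 e z y h + (-1) * f_E36 e z y h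
theorem f_E77 : e 7 7 = 0 := by
  linear_combination (-1/2) * h_3_6 e z y h + (-1/2) * h_6_1 e z y h + (1/2) * h_7_1 e z y h + (-1/2) * h_7_7 e z y h + (-1/2) * h_12_3 e z y h + (1/2) * h_13_3 e z y h + (1/2) * h_17_0 e z y h + (-1/2) * h_18_0 e z y h + (1) * f_E34 e z y h
theorem f_E22 : e 2 2 = 0 := by
  linear_combination (-1/2) * h_0_2 e z y h + (-1/2) * h_6_4 e z y h + (-1/2) * h_10_7 e z y h + (1/2) * h_11_7 e z y h + (1/2) * h_16_3 e z y h + (-1/2) * h_16_6 e z y h + (1/2) * f_y3 e z y h + (-1) * f_E47 e z y h + (-1/2) * f_y6 e z y h + (-1) * f_E37 e z y h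
theorem f_E16 : e 1 6 = 0 := by
  linear_combination (1/2) * h_4_6 e z y h + (-1/2) * h_5_6 e z y h + (-1/2) * h_6_4 e z y h + (1/2) * h_11_0 e z y h + (-1/2) * h_17_2 e z y h + (1/2) * h_17_3 e z y h + (1/2) * f_y3 e z y h + (-1) * f_E47 e z y h + (-1) * f_E03 e z y h + (-1/2) * f_y5 e z y h + (-1/2) * f_y6 e z y h
theorem f_E56 : e 5 6 = 0 := by
  linear_combination (-1/2) * h_0_6 e z y h + (1/2) * h_1_6 e z y h + (-1/2) * h_7_4 e z y h + (-1/2) * h_10_7 e z y h + (-1/2) * h_16_6 e z y h + (-1) * f_E47 e z y h + (-1/2) * f_y6 e z y h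
theorem f_E46 : e 4 6 = 0 := by
  linear_combination (1/2) * h_9_4 e z y h + (-1/2) * h_9_5 e z y h + (-1/2) * h_14_0 e z y h + (1/2) * h_14_2 e z y h + (1/2) * h_15_0 e z y h + (-1/2) * h_15_2 e z y h + (1) * f_E56 e z y h
theorem f_E26 : e 2 6 = 0 := by
  linear_combination (-1/2) * h_0_6 e z y h + (-1/2) * h_10_7 e z y h + (1/2) * h_12_3 e z y h + (-1/2) * h_13_3 e z y h + (-1/2) * h_16_6 e z y h + (1/2) * h_18_6 e z y h + (-1) * f_E34 e z y h
theorem f_E57 : e 5 7 = 0 := by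
  linear_combination (-1/2) * h_3_3 e z y h + (1/2) * h_3_6 e z y h + (-1/2) * h_6_5 e z y h + (1/2) * h_6_7 e z y h + (1) * f_E77 e z y h
theorem f_y7 : y 7 = 0 := by
  linear_combination (1) * h_9_4 e z y h + (-1) * h_10_1 e z y h + (1) * h_11_1 e z y h + (1) * h_12_2 e z y h + (-1) * h_16_1 e z y h + (-2) * f_E46 e z y h + (-2) * f_E13 e z y h + (-1) * f_y5 e z y h + (-2) * f_E24 e z y h
theorem f_y2 : y 2 = 0 := by
  linear_combination (1) * h_2_4 e z y h + (1) * h_12_5 e z y h + (-1) * h_14_0 e z y h + (1) * h_15_7 e z y h + (1) * h_17_1 e z y h + (-2) * f_E34 e z y h + (1) * f_y7 e z y h + (-2) * f_E45 e z y h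
theorem f_y1 : y 1 = 0 := by
  linear_combination (-1) * h_2_1 e z y h + (1) * h_3_4 e z y h + (-1) * h_13_5 e z y h + (-1) * h_15_0 e z y h + (-1) * h_17_7 e z y h + (2) * f_E13 e z y h + (1) * f_y2 e z y h
theorem f_E01 : e 0 1 = 0 := by
  linear_combination (-1/2) * h_5_1 e z y h + (-1/2) * h_8_4 e z y h + (1/2) * h_9_4 e z y h + (-1/2) * h_9_5 e z y h + (-1/2) * h_14_0 e z y h + (1/2) * h_15_0 e z y h + (1/2) * h_18_2 e z y h + (1/2) * f_y5 e z y h + (-1) * f_E46 e z y h + (1) * f_E56 e z y h + (-1/2) * f_y7 e z y h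
theorem f_E11 : e 1 1 = 0 := by
  linear_combination (1/2) * h_4_1 e z y h + (-1/2) * h_5_1 e z y h + (-1/2) * h_9_4 e z y h + (1/2) * h_14_0 e z y h + (-1/2) * h_14_2 e z y h + (1/2) * h_15_2 e z y h + (1/2) * h_18_5 e z y h + (1) * f_E46 e z y h + (1/2) * f_y2 e z y h + (-1/2) * f_y7 e z y h
theorem f_E05 : e 0 5 = 0 := by
  linear_combination (-1/2) * h_0_0 e z y h + (1/2) * h_1_0 e z y h + (-1/2) * h_6_4 e z y h + (-1/2) * h_12_3 e z y h + (-1/2) * h_18_6 e z y h + (1/2) * h_18_7 e z y h + (-1) * f_E47 e z y h + (-1/2) * f_y6 e z y h + (1/2) * f_y1 e z y h + (1/2) * f_y3 e z y h + (1) * f_E34 e z y h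
theorem f_E15 : e 1 5 = 0 := by
  linear_combination (-1/2) * h_0_1 e z y h + (1/2) * h_1_1 e z y h + (1/2) * h_2_4 e z y h + (-1/2) * h_14_3 e z y h + (1/2) * h_14_7 e z y h + (1/2) * h_15_3 e z y h + (1/2) * h_18_5 e z y h + (-1) * f_E34 e z y h + (1/2) * f_y2 e z y h
theorem f_E07 : e 0 7 = 0 := by
  linear_combination (1/2) * h_0_0 e z y h + (-1/2) * h_1_0 e z y h + (-1/2) * h_3_4 e z y h + (-1/2) * h_5_7 e z y h + (1/2) * h_16_3 e z y h + (-1/2) * h_16_5 e z y h + (-1/2) * f_y2 e z y h + (1) * f_E05 e z y h + (1/2) * f_y3 e z y h + (-1/2) * f_y1 e z y h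
theorem f_E12 : e 1 2 = 0 := by
  linear_combination (-1/2) * h_1_1 e z y h + (-1/2) * h_10_7 e z y h + (1/2) * h_11_7 e z y h + (1/2) * h_12_3 e z y h + (1/2) * h_16_4 e z y h + (-1/2) * h_16_6 e z y h + (-1/2) * h_18_4 e z y h + (1/2) * h_18_6 e z y h + (-1) * f_E37 e z y h + (1) * f_E15 e z y h + (-1/2) * f_y3 e z y h + (-1) * f_E34 e z y h
theorem f_y0 : y 0 = 0 := by
  linear_combination (1) * h_0_1 e z y h + (1) * h_10_7 e z y h + (-1) * h_12_3 e z y h + (1) * h_13_4 e z y h + (1) * h_16_6 e z y h + (-1) * h_18_6 e z y h + (2) * f_E12 e z y h + (1) * f_y3 e z y h + (2) * f_E34 e z y h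
theorem f_E00 : e 0 0 = 0 := by
  linear_combination (-1/2) * h_4_0 e z y h + (1/2) * h_4_6 e z y h + (-1/2) * h_5_6 e z y h + (1/2) * h_6_5 e z y h + (-1/2) * h_7_5 e z y h + (-1/2) * h_8_3 e z y h + (-1/2) * h_17_2 e z y h + (1/2) * h_18_2 e z y h + (1) * f_E01 e z y h + (-1) * f_E16 e z y h + (-1/2) * f_y6 e z y h
theorem f_E02 : e 0 2 = 0 := by
  linear_combination (-1/2) * h_0_0 e z y h + (1/2) * h_2_6 e z y h + (-1/2) * h_3_3 e z y h + (-1/2) * h_6_5 e z y h + (1/2) * h_17_7 e z y h + (1/2) * f_y1 e z y h + (-1) * f_E36 e z y h + (-1) * f_E57 e z y h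
theorem f_E55 : e 5 5 = 0 := by
  linear_combination (-1/2) * h_0_5 e z y h + (-1/2) * h_1_1 e z y h + (1/2) * h_1_5 e z y h + (1/2) * h_2_4 e z y h + (-1/2) * h_3_4 e z y h + (1/2) * h_14_3 e z y h + (1/2) * h_18_7 e z y h + (-1) * f_E34 e z y h + (1/2) * f_y1 e z y h + (1) * f_E15 e z y h + (-1) * f_E12 e z y h
theorem f_E23 : e 2 3 = 0 := by
  linear_combination (1/2) * h_2_2 e z y h + (-1/2) * h_3_2 e z y h + (-1/2) * h_5_7 e z y h + (-1/2) * h_7_5 e z y h + (-1/2) * h_16_0 e z y h + (1/2) * h_16_3 e z y h + (1/2) * h_17_0 e z y h + (-1/2) * h_17_3 e z y h + (-1) * f_E07 e z y h + (-1/2) * f_y1 e z y h + (-1) * f_E57 e z y h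
theorem f_E67 : e 6 7 = 0 := by
  linear_combination (1/2) * h_2_1 e z y h + (-1/2) * h_2_6 e z y h + (-1/2) * h_3_1 e z y h + (-1/2) * h_8_7 e z y h + (1/2) * h_9_7 e z y h + (1/2) * h_13_5 e z y h + (-1/2) * h_16_0 e z y h + (1/2) * h_17_0 e z y h + (-1) * f_E13 e z y h + (-1/2) * f_y2 e z y h + (1) * f_E36 e z y h
theorem f_E14 : e 1 4 = 0 := by
  linear_combination (-1/2) * h_4_1 e z y h + (1/2) * h_4_4 e z y h + (-1/2) * h_5_4 e z y h + (-1/2) * h_10_5 e z y h + (1/2) * h_11_5 e z y h + (1/2) * h_15_3 e z y h + (-1/2) * h_17_2 e z y h + (1/2) * h_18_2 e z y h + (1) * f_E11 e z y h + (-1) * f_E01 e z y h + (-1) * f_E35 e z y h + (-1/2) * f_y0 e z y h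
theorem f_E25 : e 2 5 = e 0 4 := by
  linear_combination (1/2) * h_1_2 e z y h + (1/2) * h_4_4 e z y h + (-1/2) * h_5_7 e z y h + (1/2) * h_15_3 e z y h + (-1/2) * h_16_5 e z y h + (1/2) * h_18_5 e z y h + (-1) * f_E14 e z y h + (-1) * f_E07 e z y h + (1) * f_E22 e z y h + (-1/2) * f_y1 e z y h
theorem f_E33 : e 3 3 = e 0 4 := by
  linear_combination (-1/2) * h_0_0 e z y h + (1/2) * h_0_5 e z y h + (1/2) * h_2_3 e z y h + (-1/2) * h_2_4 e z y h + (-1/2) * h_3_3 e z y h + (1/2) * h_3_4 e z y h + (1) * f_E34 e z y h + (-1) * f_E02 e z y h + (1) * f_E25 e z y h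
theorem f_y4 : y 4 = 0 := by
  linear_combination (-1) * h_3_2 e z y h + (1) * h_4_0 e z y h + (-1) * h_5_0 e z y h + (-1) * h_6_5 e z y h + (-1) * h_16_0 e z y h + (1) * h_17_0 e z y h + (-2) * f_E01 e z y h + (-2) * f_E57 e z y h
end core

/-! ### The matrix form -/

theorem q_symm (a : Fin 19) : (q a).IsSymm := by
  unfold q sy Matrix.IsSymm
  simp only [Matrix.transpose_sub, Matrix.transpose_add, Matrix.transpose_single]
  abel

theorem sum_single2 (p r : Fin 8) (f : Fin 8 → Fin 8 → ℝ) :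
    ∑ j, ∑ k, (Matrix.single p r (1 : ℝ)) j k * f j k = f p r := by
  simp [Matrix.single_apply, ite_and]

theorem sum_single1 (p r i : Fin 8) (f : Fin 8 → ℝ) :
    ∑ j, (Matrix.single p r (1 : ℝ)) i j * f j = if i = p then f r else 0 := by
  by_cases h : i = p
  · subst h; simp [Matrix.single_apply]
  · simp [Matrix.single_apply, h, Ne.symm h]

theorem zeta_q {Z : Fin 8 → Fin 8 → Fin 8 → ℝ} (hZ : IsSym3 Z) (i : Fin 8) (a : Fin 19) :
    zeta q Z i a = 2 * (Z i (pr a).1.1 (pr a).1.2 - Z i (pr a).2.1 (pr a).2.2) := by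
  simp only [zeta, Matrix.of_apply, q, sy, Matrix.sub_apply, Matrix.add_apply, sub_mul, add_mul,
    Finset.sum_sub_distrib, Finset.sum_add_distrib, sum_single2]
  rw [(hZ i (pr a).1.2 (pr a).1.1).2, (hZ i (pr a).2.2 (pr a).2.1).2]
  ring

theorem transl_q (y : Fin 8 → ℝ) (i : Fin 8) (a : Fin 19) :
    transl q y i a =
      ((if i = (pr a).1.1 then y (pr a).1.2 else 0) + (if i = (pr a).1.2 then y (pr a).1.1 else 0)
      - ((if i = (pr a).2.1 then y (pr a).2.2 else 0)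
        + (if i = (pr a).2.2 then y (pr a).2.1 else 0))) := by
  simp only [transl, Matrix.of_apply, q, sy, Matrix.sub_apply, Matrix.add_apply, sub_mul, add_mul,
    Finset.sum_sub_distrib, Finset.sum_add_distrib, sum_single1]

theorem sE_eq {D : Matrix (Fin 8) (Fin 8) ℝ} (hD : D.IsSymm) (i j : Fin 8) :
    sE D i j = D i j := by
  unfold sE
  split_ifs
  · rfl
  · exact hD.apply i j

theorem sZ_eq {Z : Fin 8 → Fin 8 → Fin 8 → ℝ} (hZ : IsSym3 Z) (i j k : Fin 8) :
    sZ Z i j k = Z i j k := by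
  have h1 : ∀ i j k, Z i j k = Z j i k := fun i j k => (hZ i j k).1
  have h2 : ∀ i j k, Z i j k = Z i k j := fun i j k => (hZ i j k).2
  unfold sZ
  split_ifs
  · rfl
  · exact (h2 i j k).symm
  · rw [h1 k i j, h2 i k j]
  · exact (h1 i j k).symm
  · rw [h2 j k i, h1 j i k]
  · rw [h1 k j i, h2 j k i, h1 j i k]

theorem sum_Z0 (f : Fin 8 → ℝ) (k l : Fin 8) :
    ∑ j, f j * Z0 j k l = match thd k l with
      | none => 0
      | some j => f j := by
  unfold Z0
  cases h : thd k l with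
  | none => simp
  | some j => simp

theorem P0_mul {d : ℕ} (X : Matrix (Fin 8) (Fin d) ℝ) (i : Fin 8) (a : Fin d) :
    (P0 * X) i a = X (sg i) a := by
  simp [Matrix.mul_apply, P0]

theorem P0_symm : P0.IsSymm := by
  have h : ∀ i j : Fin 8, (i = sg j) ↔ (j = sg i) := by decide
  ext i j
  simp only [Matrix.transpose_apply, P0, Matrix.of_apply, h i j]

theorem P0_sq : P0 * P0 = 1 := by
  have h : ∀ i j : Fin 8, (j = sg (sg i)) ↔ (i = j) := by decide
  ext i j
  rw [P0_mul]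
  simp only [P0, Matrix.of_apply, h i j, Matrix.one_apply]

theorem eqn_of {D : Matrix (Fin 8) (Fin 8) ℝ} (hD : D.IsSymm) {Z : Fin 8 → Fin 8 → Fin 8 → ℝ}
    (hZ : IsSym3 Z) (y : Fin 8 → ℝ)
    (h : D * zeta q Z0 + P0 * zeta q Z + transl q y = 0) (a : Fin 19) (i : Fin 8) :
    eqn D Z y a i := by
  have h1 := congrFun (congrFun h i) a
  rw [Matrix.add_apply, Matrix.add_apply, P0_mul, zeta_q hZ, transl_q, Matrix.mul_apply] at h1
  simp only [zeta_q (show IsSym3 Z0 from Z0_symm)] at h1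
  have h2 : ∑ x, D i x * (2 * (Z0 x (pr a).1.1 (pr a).1.2 - Z0 x (pr a).2.1 (pr a).2.2))
      = 2 * ((∑ x, D i x * Z0 x (pr a).1.1 (pr a).1.2)
          - ∑ x, D i x * Z0 x (pr a).2.1 (pr a).2.2) := by
    rw [← Finset.sum_sub_distrib, Finset.mul_sum]
    exact Finset.sum_congr rfl fun x _ => by ring
  rw [h2, sum_Z0, sum_Z0] at h1
  unfold eqn
  have h3 : ∀ o : Option (Fin 8), tE D i o = match o with
      | none => 0
      | some j => D i j := by
    intro o
    cases o with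
    | none => rfl
    | some j => exact sE_eq hD i j
  rw [h3, h3, sZ_eq hZ, sZ_eq hZ]
  exact h1

/-- **LKC**. -/
theorem lkc (D : Matrix (Fin 8) (Fin 8) ℝ) (hD : D.IsSymm) (Z' : Fin 8 → Fin 8 → Fin 8 → ℝ)
    (hZ : IsSym3 Z') (y : Fin 8 → ℝ)
    (h : D * zeta q Z0 + P0 * zeta q Z' + transl q y = 0) :
    ∃ s : ℝ, D = s • P0 ∧ zeta q Z' = -(s • zeta q Z0) := by
  have H := eqn_of hD hZ y h
  have hy : y = 0 := by
    funext i
    fin_cases i
    · exact f_y0 D Z' y H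
    · exact f_y1 D Z' y H
    · exact f_y2 D Z' y H
    · exact f_y3 D Z' y H
    · exact f_y4 D Z' y H
    · exact f_y5 D Z' y H
    · exact f_y6 D Z' y H
    · exact f_y7 D Z' y H
  have hle : ∀ i j : Fin 8, i ≤ j → D i j = D 0 4 * P0 i j := by
    intro i j hij
    have hs : ∀ i j : Fin 8, P0 i j = if j = sg i then 1 else 0 := fun _ _ => rfl
    rw [hs]
    revert hij
    fin_cases i <;> fin_cases j <;> intro hij
    · rw [if_neg (by decide), mul_zero]; exact f_E00 D Z' y H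
    · rw [if_neg (by decide), mul_zero]; exact f_E01 D Z' y H
    · rw [if_neg (by decide), mul_zero]; exact f_E02 D Z' y H
    · rw [if_neg (by decide), mul_zero]; exact f_E03 D Z' y H
    · rw [if_pos (by decide), mul_one]; rfl
    · rw [if_neg (by decide), mul_zero]; exact f_E05 D Z' y H
    · rw [if_neg (by decide), mul_zero]; exact f_E06 D Z' y H
    · rw [if_neg (by decide), mul_zero]; exact f_E07 D Z' y H
    · exact absurd hij (by decide)
    · rw [if_neg (by decide), mul_zero]; exact f_E11 D Z' y H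
    · rw [if_neg (by decide), mul_zero]; exact f_E12 D Z' y H
    · rw [if_neg (by decide), mul_zero]; exact f_E13 D Z' y H
    · rw [if_neg (by decide), mul_zero]; exact f_E14 D Z' y H
    · rw [if_neg (by decide), mul_zero]; exact f_E15 D Z' y H
    · rw [if_neg (by decide), mul_zero]; exact f_E16 D Z' y H
    · rw [if_pos (by decide), mul_one]; exact f_E17 D Z' y H
    · exact absurd hij (by decide)
    · exact absurd hij (by decide)
    · rw [if_neg (by decide), mul_zero]; exact f_E22 D Z' y H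
    · rw [if_neg (by decide), mul_zero]; exact f_E23 D Z' y H
    · rw [if_neg (by decide), mul_zero]; exact f_E24 D Z' y H
    · rw [if_pos (by decide), mul_one]; exact f_E25 D Z' y H
    · rw [if_neg (by decide), mul_zero]; exact f_E26 D Z' y H
    · rw [if_neg (by decide), mul_zero]; exact f_E27 D Z' y H
    · exact absurd hij (by decide)
    · exact absurd hij (by decide)
    · exact absurd hij (by decide)
    · rw [if_pos (by decide), mul_one]; exact f_E33 D Z' y H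
    · rw [if_neg (by decide), mul_zero]; exact f_E34 D Z' y H
    · rw [if_neg (by decide), mul_zero]; exact f_E35 D Z' y H
    · rw [if_neg (by decide), mul_zero]; exact f_E36 D Z' y H
    · rw [if_neg (by decide), mul_zero]; exact f_E37 D Z' y H
    · exact absurd hij (by decide)
    · exact absurd hij (by decide)
    · exact absurd hij (by decide)
    · exact absurd hij (by decide)
    · rw [if_neg (by decide), mul_zero]; exact f_E44 D Z' y H
    · rw [if_neg (by decide), mul_zero]; exact f_E45 D Z' y H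
    · rw [if_neg (by decide), mul_zero]; exact f_E46 D Z' y H
    · rw [if_neg (by decide), mul_zero]; exact f_E47 D Z' y H
    · exact absurd hij (by decide)
    · exact absurd hij (by decide)
    · exact absurd hij (by decide)
    · exact absurd hij (by decide)
    · exact absurd hij (by decide)
    · rw [if_neg (by decide), mul_zero]; exact f_E55 D Z' y H
    · rw [if_neg (by decide), mul_zero]; exact f_E56 D Z' y H
    · rw [if_neg (by decide), mul_zero]; exact f_E57 D Z' y H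
    · exact absurd hij (by decide)
    · exact absurd hij (by decide)
    · exact absurd hij (by decide)
    · exact absurd hij (by decide)
    · exact absurd hij (by decide)
    · exact absurd hij (by decide)
    · rw [if_pos (by decide), mul_one]; exact f_E66 D Z' y H
    · rw [if_neg (by decide), mul_zero]; exact f_E67 D Z' y H
    · exact absurd hij (by decide)
    · exact absurd hij (by decide)
    · exact absurd hij (by decide)
    · exact absurd hij (by decide)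
    · exact absurd hij (by decide)
    · exact absurd hij (by decide)
    · exact absurd hij (by decide)
    · rw [if_neg (by decide), mul_zero]; exact f_E77 D Z' y H
  have hP : D = D 0 4 • P0 := by
    ext i j
    rw [Matrix.smul_apply, smul_eq_mul]
    rcases le_total i j with hij | hij
    · exact hle i j hij
    · rw [← hD.apply i j, hle j i hij, P0_symm.apply i j]
  refine ⟨D 0 4, hP, ?_⟩
  have h0 : transl q y = 0 := by
    rw [hy]; ext i a; simp [transl]
  rw [h0, add_zero] at h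
  have h5 : P0 * (D 0 4 • zeta q Z0 + zeta q Z') = 0 := by
    rw [Matrix.mul_add, Matrix.mul_smul, ← Matrix.smul_mul, ← hP]
    exact h
  have h6 : D 0 4 • zeta q Z0 + zeta q Z' = 0 := by
    have := congrArg (fun X => P0 * X) h5
    simpa only [← Matrix.mul_assoc, P0_sq, Matrix.one_mul, Matrix.mul_zero] using this
  exact eq_neg_of_add_eq_zero_right h6


/-- the output of `EX.exists_EX` for the Moebius-Kantor space. -/
theorem exists_MK :
    ∃ (Ξ : Matrix (Fin 8) (Fin 19) ℝ →ₗ[ℝ] Matrix (Fin 8) (Fin 19) ℝ →ₗ[ℝ] ℝ)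
      (P : Matrix (Fin 8) (Fin 8) ℝ) (Z : Fin 8 → Fin 8 → Fin 8 → ℝ) (φ : ℝ),
      P.PosDef ∧ IsSym3 Z ∧ (∀ X Y, Ξ X Y = Ξ Y X) ∧
      (∀ X Y y, Ξ (X + transl q y) Y = Ξ X Y) ∧
      (∀ P' : Matrix (Fin 8) (Fin 8) ℝ, P'.IsSymm → P'.trace = 0 → ∀ Z', IsSym3 Z' →
        0 ≤ Ξ (P' * zeta q Z') (P' * zeta q Z')) ∧
      0 < φ ∧ (∀ X, Ξ X X ≤ φ * ∑ i, ∑ a, X i a ^ 2) ∧
      Ξ (P * zeta q Z) (P * zeta q Z) < 0 :=
  exists_EX q (by norm_num) P0 P0_symm Z0 Z0_symm fun D hD Z' hZ y h => lkc D hD Z' hZ y h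

end Crest.Agent.R237.MK
end

-- ▼ part R237/FreeV0

/-!
Row 237 (S0367): FREE for the frozen basis `V0.q` of the Moebius--Kantor space, in the form used
by `Ext.flat_functional`.
-/

set_option autoImplicit false

namespace Crest.Agent.R237.Free

open MvPolynomial

lemma qi_ql : ∀ (a : Fin 19) (i j : Fin 8), V0.qi a i j =
    ((ql a).map fun t => t.2.2 * ((if i = t.1 ∧ j = t.2.1 then 1 else 0) +
      (if i = t.2.1 ∧ j = t.1 then 1 else 0))).sum := by
  decide +kernel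

lemma sum_pair (a b : Fin 8) :
    ∑ i, ∑ j, C (if i = a ∧ j = b then (1 : ℝ) else 0) * (X i * X j : MvPolynomial (Fin 8) ℝ) =
      X a * X b := by
  rw [Finset.sum_eq_single a, Finset.sum_eq_single b]
  · simp
  · intro j _ hj; simp [hj]
  · simp
  · intro i _ hi; simp [hi]
  · simp

lemma sum_list (l : List (Fin 8 × Fin 8 × ℤ)) :
    ∑ i, ∑ j, C ((((l.map fun t => t.2.2 * ((if i = t.1 ∧ j = t.2.1 then 1 else 0) +
      (if i = t.2.1 ∧ j = t.1 then 1 else 0))).sum : ℤ)) : ℝ) *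
        (X i * X j : MvPolynomial (Fin 8) ℝ) =
      2 * (l.map fun t => C (t.2.2 : ℝ) * X t.1 * X t.2.1).sum := by
  induction l with
  | nil => simp
  | cons t l ih =>
    simp only [List.map_cons, List.sum_cons, Int.cast_add, C_add, add_mul, Finset.sum_add_distrib]
    rw [ih]
    have h1 := sum_pair t.1 t.2.1
    have h2 := sum_pair t.2.1 t.1
    have h3 : ∑ i, ∑ j, C (((t.2.2 * ((if i = t.1 ∧ j = t.2.1 then 1 else 0) +
        (if i = t.2.1 ∧ j = t.1 then 1 else 0)) : ℤ)) : ℝ) *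
        (X i * X j : MvPolynomial (Fin 8) ℝ) =
        C (t.2.2 : ℝ) * ((∑ i, ∑ j, C (if i = t.1 ∧ j = t.2.1 then (1 : ℝ) else 0) * (X i * X j)) +
        (∑ i, ∑ j, C (if i = t.2.1 ∧ j = t.1 then (1 : ℝ) else 0) * (X i * X j))) := by
      rw [← Finset.sum_add_distrib, Finset.mul_sum]
      refine Finset.sum_congr rfl fun i _ => ?_
      rw [← Finset.sum_add_distrib, Finset.mul_sum]
      refine Finset.sum_congr rfl fun j _ => ?_
      push_cast
      rw [C_mul, C_add]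
      ring
    rw [h3, h1, h2]
    ring

/-- the polynomial of `V0.q a` is `2 * qp a`. -/
theorem qf_eq (a : Fin 19) :
    ∑ i, ∑ j, C (V0.q a i j) * (X i * X j : MvPolynomial (Fin 8) ℝ) = 2 * qp a := by
  rw [qp, ← sum_list]
  refine Finset.sum_congr rfl fun i _ => Finset.sum_congr rfl fun j _ => ?_
  rw [V0.q, Matrix.of_apply, qi_ql]

/-- FREE for `V0.q`: literally the hypothesis `hfree` of `Ext.flat_functional` for
`q a := ∑ i, ∑ j, C (V0.q a i j) * (X i * X j)`. -/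
theorem hfree (W : Matrix (Fin 19) (Fin 19) ℝ) (hW : W.IsSymm) :
    ∃ T : MvPolynomial (Fin 8) ℝ →ₗ[ℝ] ℝ, ∀ a b,
      T ((∑ i, ∑ j, C (V0.q a i j) * (X i * X j)) * (∑ i, ∑ j, C (V0.q b i j) * (X i * X j))) =
        W a b := by
  obtain ⟨T, hT⟩ := free W (fun a b => hW.apply b a)
  refine ⟨(1 / 4 : ℝ) • T, fun a b => ?_⟩
  rw [qf_eq, qf_eq]
  have h : (2 * qp a * (2 * qp b) : MvPolynomial (Fin 8) ℝ) = (4 : ℝ) • (qp a * qp b) := by
    rw [smul_eq_C_mul]
    have : (C (4 : ℝ) : MvPolynomial (Fin 8) ℝ) = 4 := map_ofNat C 4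
    rw [this]; ring
  rw [h, LinearMap.smul_apply, map_smul, hT]
  simp

end Crest.Agent.R237.Free
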