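import Mathlib
import Crest.Agent.R237.S2Defs

-- ▼ part R237/S2ConeA
section

/-!
Row 237, statement S0368, node B, part A: symmetric `3 × 3` quadratic forms by leading minors and
the open-closed argument on the half line.
-/

set_option autoImplicit false

namespace Crest.Agent.R237.S2Cone

/-- the quadratic form of a symmetric `3 × 3` matrix -/
def qf (a b c d e f y0 y1 y2 : ℝ) : ℝ :=
  a * y0 ^ 2 + d * y1 ^ 2 + f * y2 ^ 2 + 2 * b * y0 * y1 + 2 * c * y0 * y2 + 2 * e * y1 * y2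

/-- the determinant of `[[a,b,c],[b,d,e],[c,e,f]]` -/
def dt (a b c d e f : ℝ) : ℝ := a * (d * f - e ^ 2) - b * (b * f - c * e) + c * (b * e - c * d)

theorem qf_pos {a b c d e f : ℝ} (h1 : 0 < a) (h2 : 0 < a * d - b ^ 2) (h3 : 0 < dt a b c d e f)
    {y0 y1 y2 : ℝ} (hy : y0 ≠ 0 ∨ y1 ≠ 0 ∨ y2 ≠ 0) : 0 < qf a b c d e f y0 y1 y2 := by
  have key : a * (a * d - b ^ 2) * qf a b c d e f y0 y1 y2 =
      (a * d - b ^ 2) * (a * y0 + b * y1 + c * y2) ^ 2
      + ((a * d - b ^ 2) * y1 + (a * e - b * c) * y2) ^ 2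
      + a * dt a b c d e f * y2 ^ 2 := by
    unfold qf dt; ring
  have hpos : 0 < a * (a * d - b ^ 2) := mul_pos h1 h2
  by_contra hcon
  push Not at hcon
  have hle : a * (a * d - b ^ 2) * qf a b c d e f y0 y1 y2 ≤ 0 :=
    mul_nonpos_of_nonneg_of_nonpos hpos.le hcon
  rw [key] at hle
  have t1 : 0 ≤ (a * d - b ^ 2) * (a * y0 + b * y1 + c * y2) ^ 2 := by positivity
  have t2 : 0 ≤ ((a * d - b ^ 2) * y1 + (a * e - b * c) * y2) ^ 2 := by positivity
  have hadt : 0 < a * dt a b c d e f := mul_pos h1 h3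
  have t3 : 0 ≤ a * dt a b c d e f * y2 ^ 2 := by positivity
  have e3 : y2 = 0 := by
    have : a * dt a b c d e f * y2 ^ 2 = 0 := by linarith
    rcases mul_eq_zero.1 this with h | h
    · exact absurd h hadt.ne'
    · exact pow_eq_zero_iff (two_ne_zero) |>.1 h
  subst e3
  have e2 : y1 = 0 := by
    have : ((a * d - b ^ 2) * y1 + (a * e - b * c) * 0) ^ 2 = 0 := by linarith
    have := pow_eq_zero_iff (two_ne_zero) |>.1 this
    have h' : (a * d - b ^ 2) * y1 = 0 := by linarith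
    rcases mul_eq_zero.1 h' with h | h
    · exact absurd h h2.ne'
    · exact h
  subst e2
  have e1 : y0 = 0 := by
    have : (a * d - b ^ 2) * (a * y0 + b * 0 + c * 0) ^ 2 = 0 := by linarith
    rcases mul_eq_zero.1 this with h | h
    · exact absurd h h2.ne'
    · have := pow_eq_zero_iff (two_ne_zero) |>.1 h
      have h' : a * y0 = 0 := by linarith
      rcases mul_eq_zero.1 h' with h | h
      · exact absurd h h1.ne'
      · exact h
  subst e1
  simp at hy

/-- principal minors from a nonnegative form -/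
theorem minors_nonneg {a b c d e f : ℝ} (h : ∀ y0 y1 y2, 0 ≤ qf a b c d e f y0 y1 y2) :
    0 ≤ a ∧ 0 ≤ d ∧ 0 ≤ f ∧ 0 ≤ a * d - b ^ 2 ∧ 0 ≤ a * f - c ^ 2 := by
  have ha : 0 ≤ a := by have := h 1 0 0; simpa [qf] using this
  have hd : 0 ≤ d := by have := h 0 1 0; simpa [qf] using this
  have hf : 0 ≤ f := by have := h 0 0 1; simpa [qf] using this
  refine ⟨ha, hd, hf, ?_, ?_⟩
  · rcases eq_or_lt_of_le ha with h0 | h0
    · -- a = 0: test with (t,1,0)
      rcases eq_or_ne b 0 with hb | hb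
      · rw [hb, ← h0]; simp
      · exfalso
        have := h (-(d + 1) / (2 * b)) 1 0
        have e1 : qf a b c d e f (-(d + 1) / (2 * b)) 1 0 = -1 := by
          unfold qf; rw [← h0]; field_simp; ring
        linarith
    · have := h (-b) a 0
      have e1 : qf a b c d e f (-b) a 0 = a * (a * d - b ^ 2) := by unfold qf; ring
      rw [e1] at this
      exact nonneg_of_mul_nonneg_right this h0
  · rcases eq_or_lt_of_le ha with h0 | h0
    · rcases eq_or_ne c 0 with hb | hb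
      · rw [hb, ← h0]; simp
      · exfalso
        have := h (-(f + 1) / (2 * c)) 0 1
        have e1 : qf a b c d e f (-(f + 1) / (2 * c)) 0 1 = -1 := by
          unfold qf; rw [← h0]; field_simp; ring
        linarith
    · have := h (-c) 0 a
      have e1 : qf a b c d e f (-c) 0 a = a * (a * f - c ^ 2) := by unfold qf; ring
      rw [e1] at this
      exact nonneg_of_mul_nonneg_right this h0

theorem dt_mul (a b c d e f : ℝ) :
    a * dt a b c d e f = (a * d - b ^ 2) * (a * f - c ^ 2) - (a * e - b * c) ^ 2 := by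
  unfold dt; ring

/-- a nonnegative form with nonzero determinant has positive leading minors -/
theorem minors_pos {a b c d e f : ℝ} (h : ∀ y0 y1 y2, 0 ≤ qf a b c d e f y0 y1 y2)
    (hne : dt a b c d e f ≠ 0) :
    0 < a ∧ 0 < a * d - b ^ 2 ∧ 0 < dt a b c d e f := by
  obtain ⟨ha, hd, hf, h2, h3⟩ := minors_nonneg h
  have ha' : 0 < a := by
    rcases eq_or_lt_of_le ha with h0 | h0
    · exfalso
      have hb : b = 0 := by
        rw [← h0] at h2
        have : b ^ 2 ≤ 0 := by linarith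
        exact pow_eq_zero_iff (two_ne_zero) |>.1 (le_antisymm this (sq_nonneg b))
      have hc : c = 0 := by
        rw [← h0] at h3
        have : c ^ 2 ≤ 0 := by linarith
        exact pow_eq_zero_iff (two_ne_zero) |>.1 (le_antisymm this (sq_nonneg c))
      apply hne
      unfold dt; rw [← h0, hb, hc]; ring
    · exact h0
  -- the determinant is nonnegative
  have hm := dt_mul a b c d e f
  have hd2 : 0 < a * d - b ^ 2 := by
    rcases eq_or_lt_of_le h2 with h0 | h0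
    · exfalso
      -- a * dt = - (..)^2, and test vector
      have hz : a * e - b * c = 0 := by
        by_contra hz
        have key : ∀ t : ℝ, qf a b c d e f (-(b * t + c)) (a * t) a =
            a * ((a * d - b ^ 2) * t ^ 2 + 2 * (a * e - b * c) * t + (a * f - c ^ 2)) := by
          intro t; unfold qf; ring
        have h4 := h (-(b * (-((a * f - c ^ 2) + 1) / (2 * (a * e - b * c))) + c))
          (a * (-((a * f - c ^ 2) + 1) / (2 * (a * e - b * c)))) a
        rw [key, ← h0] at h4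
        have h6 : 2 * (a * e - b * c) * (-((a * f - c ^ 2) + 1) / (2 * (a * e - b * c)))
            = -((a * f - c ^ 2) + 1) := by
          field_simp
        rw [h6] at h4
        have h7 : a * (0 * (-((a * f - c ^ 2) + 1) / (2 * (a * e - b * c))) ^ 2 +
            -((a * f - c ^ 2) + 1) + (a * f - c ^ 2)) = - a := by ring
        rw [h7] at h4
        linarith
      apply hne
      have : a * dt a b c d e f = 0 := by rw [hm, ← h0, hz]; ring
      rcases mul_eq_zero.1 this with h | h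
      · exact absurd h ha'.ne'
      · exact h
    · exact h0
  refine ⟨ha', hd2, ?_⟩
  -- dt ≥ 0 by the test vector
  have h4 := h (b * e - c * d) (b * c - a * e) (a * d - b ^ 2)
  have h5 : qf a b c d e f (b * e - c * d) (b * c - a * e) (a * d - b ^ 2) =
      (a * d - b ^ 2) * dt a b c d e f := by
    unfold qf dt; ring
  rw [h5] at h4
  have h6 := nonneg_of_mul_nonneg_right h4 hd2
  exact lt_of_le_of_ne h6 (Ne.symm hne)

/-- a positive definite form has positive determinant -/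
theorem dt_pos {a b c d e f : ℝ}
    (h : ∀ y0 y1 y2, (y0 ≠ 0 ∨ y1 ≠ 0 ∨ y2 ≠ 0) → 0 < qf a b c d e f y0 y1 y2) :
    0 < a ∧ 0 < a * d - b ^ 2 ∧ 0 < dt a b c d e f := by
  have ha : 0 < a := by have := h 1 0 0 (by simp); simpa [qf] using this
  have h2 : 0 < a * d - b ^ 2 := by
    have := h (-b) a 0 (Or.inr (Or.inl ha.ne'))
    have e1 : qf a b c d e f (-b) a 0 = a * (a * d - b ^ 2) := by unfold qf; ring
    rw [e1] at this
    exact (mul_pos_iff_of_pos_left ha).1 this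
  refine ⟨ha, h2, ?_⟩
  have h4 := h (b * e - c * d) (b * c - a * e) (a * d - b ^ 2) (Or.inr (Or.inr h2.ne'))
  have h5 : qf a b c d e f (b * e - c * d) (b * c - a * e) (a * d - b ^ 2) =
      (a * d - b ^ 2) * dt a b c d e f := by
    unfold qf dt; ring
  rw [h5] at h4
  exact (mul_pos_iff_of_pos_left h2).1 h4

/-- **open-closed argument.** -/
theorem clopen {A D r00 r01 r02 r11 r12 r22 : ℝ → ℝ}
    (cA : Continuous A) (cD : Continuous D) (c00 : Continuous r00) (c01 : Continuous r01)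
    (c02 : Continuous r02) (c11 : Continuous r11) (c12 : Continuous r12) (c22 : Continuous r22)
    (hdet : ∀ s, 0 < s → dt (r00 s) (r01 s) (r02 s) (r11 s) (r12 s) (r22 s) ≠ 0)
    (hA : ∀ s, 0 < s → 0 < D s → A s ≠ 0)
    (hD : ∀ s, 0 < s → D s ≠ 0)
    (hex : ∃ s, 0 < s ∧ 0 < A s ∧ 0 < D s ∧ 0 < r00 s ∧ 0 < r00 s * r11 s - r01 s ^ 2 ∧
      0 < dt (r00 s) (r01 s) (r02 s) (r11 s) (r12 s) (r22 s)) :
    ∀ s, 0 < s → 0 < A s ∧ 0 < D s ∧ 0 < r00 s ∧ 0 < r00 s * r11 s - r01 s ^ 2 ∧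
      0 < dt (r00 s) (r01 s) (r02 s) (r11 s) (r12 s) (r22 s) := by
  set u : Set ℝ := {s | 0 < A s ∧ 0 < D s ∧ 0 < r00 s ∧ 0 < r00 s * r11 s - r01 s ^ 2 ∧
      0 < dt (r00 s) (r01 s) (r02 s) (r11 s) (r12 s) (r22 s)} with hu
  have cdt : Continuous fun s => dt (r00 s) (r01 s) (r02 s) (r11 s) (r12 s) (r22 s) := by
    unfold dt; fun_prop
  have cm2 : Continuous fun s => r00 s * r11 s - r01 s ^ 2 := by fun_prop
  have uo : IsOpen u := by
    have h1 : IsOpen {s | 0 < A s} := isOpen_lt continuous_const cA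
    have h2 : IsOpen {s | 0 < D s} := isOpen_lt continuous_const cD
    have h3 : IsOpen {s | 0 < r00 s} := isOpen_lt continuous_const c00
    have h4 : IsOpen {s | 0 < r00 s * r11 s - r01 s ^ 2} := isOpen_lt continuous_const cm2
    have h5 : IsOpen {s | 0 < dt (r00 s) (r01 s) (r02 s) (r11 s) (r12 s) (r22 s)} :=
      isOpen_lt continuous_const cdt
    exact h1.inter (h2.inter (h3.inter (h4.inter h5)))
  have hsub : Set.Ioi (0 : ℝ) ⊆ u := by
    refine isPreconnected_Ioi.subset_of_closure_inter_subset uo ?_ ?_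
    · obtain ⟨s, hs, h⟩ := hex
      exact ⟨s, hs, h⟩
    · rintro s ⟨hcl, hs⟩
      have hs : 0 < s := hs
      have gA : 0 ≤ A s := by
        have hc : IsClosed {s | 0 ≤ A s} := isClosed_le continuous_const cA
        exact closure_minimal (fun t ht => ht.1.le) hc hcl
      have gD : 0 ≤ D s := by
        have hc : IsClosed {s | 0 ≤ D s} := isClosed_le continuous_const cD
        exact closure_minimal (fun t ht => ht.2.1.le) hc hcl
      have gq : ∀ y0 y1 y2, 0 ≤ qf (r00 s) (r01 s) (r02 s) (r11 s) (r12 s) (r22 s) y0 y1 y2 := by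
        intro y0 y1 y2
        have cq : Continuous fun s =>
            qf (r00 s) (r01 s) (r02 s) (r11 s) (r12 s) (r22 s) y0 y1 y2 := by
          unfold qf; fun_prop
        have hc : IsClosed {s | 0 ≤ qf (r00 s) (r01 s) (r02 s) (r11 s) (r12 s) (r22 s) y0 y1 y2} :=
          isClosed_le continuous_const cq
        refine closure_minimal (fun t ht => ?_) hc hcl
        by_cases hy : y0 ≠ 0 ∨ y1 ≠ 0 ∨ y2 ≠ 0
        · exact (qf_pos ht.2.2.1 ht.2.2.2.1 ht.2.2.2.2 hy).le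
        · push Not at hy
          obtain ⟨rfl, rfl, rfl⟩ := hy
          simp [qf]
      obtain ⟨p1, p2, p3⟩ := minors_pos gq (hdet s hs)
      have pD : 0 < D s := lt_of_le_of_ne gD (Ne.symm (hD s hs))
      exact ⟨lt_of_le_of_ne gA (Ne.symm (hA s hs pD)), pD, p1, p2, p3⟩
  intro s hs
  exact hsub hs

end Crest.Agent.R237.S2Cone
end

-- ▼ part R237/S2ConeB
section

/-!
Row 237, statement S0368, node B, part B: the entries of `δ U - Γ(v)(adj X)`, positivity of `Γ`,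
the shift identity along `e`.
-/

set_option autoImplicit false

namespace Crest.Agent.R237.S2Cone

open Matrix Crest.Agent.R237.S2

/-! ### explicit entries -/

def e00 (z : Fin 23 → ℝ) : ℝ := dl z * z 7 - (z 3 ^ 2 + z 4 ^ 2) * z 0
def e01 (z : Fin 23 → ℝ) : ℝ := dl z * z 8 - z 4 * z 6 * z 0
def e02 (z : Fin 23 → ℝ) : ℝ := dl z * z 9 - z 4 * z 5 * z 1
def e11 (z : Fin 23 → ℝ) : ℝ :=
  dl z * z 10 - ((z 3 ^ 2 + z 4 ^ 2) * z 2 + (z 5 ^ 2 + z 6 ^ 2) * z 0 + 2 * (z 3 * z 6 * z 1))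
def e12 (z : Fin 23 → ℝ) : ℝ := dl z * z 11 + z 3 * z 5 * z 2
def e22 (z : Fin 23 → ℝ) : ℝ := dl z * z 12 - (z 5 ^ 2 + z 6 ^ 2) * z 2

/-- the quadratic form of `δ U - Γ(v)(adj X)` -/
def rq (z : Fin 23 → ℝ) (y0 y1 y2 : ℝ) : ℝ :=
  qf (e00 z) (e01 z) (e02 z) (e11 z) (e12 z) (e22 z) y0 y1 y2

/-- the determinant of `δ U - Γ(v)(adj X)` -/
def rd (z : Fin 23 → ℝ) : ℝ := dt (e00 z) (e01 z) (e02 z) (e11 z) (e12 z) (e22 z)

theorem D9_eq (z : Fin 23 → ℝ) : D9 z = rd z := by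
  unfold D9 rd dt e00 e01 e02 e11 e12 e22 Um Gam
  rw [Matrix.det_fin_three]
  simp
  ring

theorem rmat_eq (z : Fin 23 → ℝ) :
    dl z • Um z - Gam (z 3) (z 4) (z 5) (z 6) (z 2) (-(z 1)) (z 0) =
      !![e00 z, e01 z, e02 z; e01 z, e11 z, e12 z; e02 z, e12 z, e22 z] := by
  unfold e00 e01 e02 e11 e12 e22 Um Gam
  ext i j
  fin_cases i <;> fin_cases j <;> simp

/-- PSD test for a symmetric `3 × 3` matrix -/
theorem psd3_iff (a b c d e f : ℝ) :
    (!![a, b, c; b, d, e; c, e, f] : Matrix (Fin 3) (Fin 3) ℝ).PosSemidef ↔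
      ∀ y0 y1 y2, 0 ≤ qf a b c d e f y0 y1 y2 := by
  have key : ∀ y : Fin 3 → ℝ,
      star y ⬝ᵥ ((!![a, b, c; b, d, e; c, e, f] : Matrix (Fin 3) (Fin 3) ℝ) *ᵥ y) =
        qf a b c d e f (y 0) (y 1) (y 2) := by
    intro y
    simp [dotProduct, Matrix.mulVec, Fin.sum_univ_three, qf]
    ring
  constructor
  · intro h y0 y1 y2
    have := h.dotProduct_mulVec_nonneg ![y0, y1, y2]
    rw [key] at this
    simpa using this
  · intro h
    refine PosSemidef.of_dotProduct_mulVec_nonneg ?_ ?_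
    · ext i j
      fin_cases i <;> fin_cases j <;> rfl
    · intro y
      rw [key]
      exact h _ _ _

theorem smul_psd_iff {M : Matrix (Fin 3) (Fin 3) ℝ} {c : ℝ} (hc : 0 < c) :
    (c • M).PosSemidef ↔ M.PosSemidef := by
  constructor
  · intro h
    have := h.smul (inv_pos.2 hc).le
    rwa [smul_smul, inv_mul_cancel₀ hc.ne', one_smul] at this
  · intro h
    exact h.smul hc.le

theorem Gz_smul (z : Fin 23 → ℝ) (h : dl z ≠ 0) :
    dl z • Gz z = Gam (z 3) (z 4) (z 5) (z 6) (z 2) (-(z 1)) (z 0) := by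
  unfold Gz Gam
  ext i j
  fin_cases i <;> fin_cases j <;> simp <;> field_simp <;> ring

/-- membership in `K0` by the polynomial form -/
theorem mem_K0_iff (z : Fin 23 → ℝ) :
    z ∈ K0 ↔ 0 < z 0 ∧ 0 < dl z ∧ ∀ y0 y1 y2, 0 ≤ rq z y0 y1 y2 := by
  unfold K0 rq
  simp only [Set.mem_ofPred_eq]
  constructor
  · rintro ⟨h0, h1, h2⟩
    refine ⟨h0, h1, ?_⟩
    rw [← psd3_iff, ← rmat_eq, ← Gz_smul z h1.ne', ← smul_sub, smul_psd_iff h1]
    exact h2
  · rintro ⟨h0, h1, h2⟩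
    refine ⟨h0, h1, ?_⟩
    rw [← psd3_iff, ← rmat_eq, ← Gz_smul z h1.ne', ← smul_sub, smul_psd_iff h1] at h2
    exact h2

/-! ### positivity of `Γ` -/

/-- quadratic form of `Γ(p,q,r,s)(P)` at `y` -/
def gf (p q r s P00 P01 P11 y0 y1 y2 : ℝ) : ℝ :=
  P00 * ((p ^ 2 + q ^ 2) * y1 ^ 2 + (r ^ 2 + s ^ 2) * y2 ^ 2 - 2 * p * r * y1 * y2)
    + 2 * P01 * (-(q * r * y0 * y2) - p * s * y1 ^ 2)
    + P11 * ((p ^ 2 + q ^ 2) * y0 ^ 2 + (r ^ 2 + s ^ 2) * y1 ^ 2 + 2 * q * s * y0 * y1)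

theorem gf_rank_one (p q r s x0 x1 y0 y1 y2 : ℝ) :
    0 ≤ gf p q r s (x0 ^ 2) (x0 * x1) (x1 ^ 2) y0 y1 y2 := by
  set al := p * x0 * y1 with hal
  set be := q * x1 * y0 with hbe
  set ga := r * x0 * y2 with hga
  set de := s * x1 * y1 with hde
  have e1 : gf p q r s (x0 ^ 2) (x0 * x1) (x1 ^ 2) y0 y1 y2 =
      al ^ 2 + be ^ 2 + (p * x1 * y0) ^ 2 + (q * x0 * y1) ^ 2
        + ga ^ 2 + de ^ 2 + (r * x1 * y1) ^ 2 + (s * x0 * y2) ^ 2
        - 2 * al * ga - 2 * be * ga - 2 * al * de + 2 * be * de := by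
    rw [hal, hbe, hga, hde]; unfold gf; ring
  have h1 : 2 * |al * be| ≤ (p * x1 * y0) ^ 2 + (q * x0 * y1) ^ 2 := by
    have e2 : al * be = (p * x1 * y0) * (q * x0 * y1) := by rw [hal, hbe]; ring
    rw [e2]
    have := two_mul_le_add_sq (|p * x1 * y0|) (|q * x0 * y1|)
    rw [sq_abs, sq_abs] at this
    rw [abs_mul]
    linarith
  have h2 : 2 * |ga * de| ≤ (r * x1 * y1) ^ 2 + (s * x0 * y2) ^ 2 := by
    have e2 : ga * de = (r * x1 * y1) * (s * x0 * y2) := by rw [hga, hde]; ring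
    rw [e2]
    have := two_mul_le_add_sq (|r * x1 * y1|) (|s * x0 * y2|)
    rw [sq_abs, sq_abs] at this
    rw [abs_mul]
    linarith
  have h3 : al * ga + be * ga + al * de - be * de ≤ (|al| + |be|) * (|ga| + |de|) := by
    have a1 : al * ga ≤ |al| * |ga| := by rw [← abs_mul]; exact le_abs_self _
    have a2 : be * ga ≤ |be| * |ga| := by rw [← abs_mul]; exact le_abs_self _
    have a3 : al * de ≤ |al| * |de| := by rw [← abs_mul]; exact le_abs_self _
    have a4 : -(be * de) ≤ |be| * |de| := by rw [← abs_mul]; exact neg_le_abs _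
    nlinarith
  rw [e1]
  have h4 : |al * be| = |al| * |be| := abs_mul _ _
  have h5 : |ga * de| = |ga| * |de| := abs_mul _ _
  rw [h4] at h1
  rw [h5] at h2
  have s1 := sq_abs al
  have s2 := sq_abs be
  have s3 := sq_abs ga
  have s4 := sq_abs de
  nlinarith [sq_nonneg (|al| + |be| - (|ga| + |de|))]

theorem gf_nonneg {p q r s P00 P01 P11 : ℝ} (h0 : 0 ≤ P00) (h1 : 0 ≤ P11)
    (h2 : P01 ^ 2 ≤ P00 * P11) (y0 y1 y2 : ℝ) : 0 ≤ gf p q r s P00 P01 P11 y0 y1 y2 := by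
  rcases eq_or_lt_of_le h0 with h | h
  · have hz : P01 = 0 := by
      rw [← h] at h2
      have : P01 ^ 2 ≤ 0 := by linarith
      exact pow_eq_zero_iff (two_ne_zero) |>.1 (le_antisymm this (sq_nonneg _))
    have := gf_rank_one p q r s 0 1 y0 y1 y2
    have e1 : gf p q r s P00 P01 P11 y0 y1 y2 =
        P11 * gf p q r s (0 ^ 2) (0 * 1) (1 ^ 2) y0 y1 y2 := by
      rw [← h, hz]; unfold gf; ring
    rw [e1]
    exact mul_nonneg h1 this
  · have a1 := gf_rank_one p q r s P00 P01 y0 y1 y2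
    have a2 := gf_rank_one p q r s 0 1 y0 y1 y2
    have e1 : P00 * gf p q r s P00 P01 P11 y0 y1 y2 =
        gf p q r s (P00 ^ 2) (P00 * P01) (P01 ^ 2) y0 y1 y2
          + (P00 * P11 - P01 ^ 2) * gf p q r s (0 ^ 2) (0 * 1) (1 ^ 2) y0 y1 y2 := by
      unfold gf; ring
    have : 0 ≤ P00 * gf p q r s P00 P01 P11 y0 y1 y2 := by
      rw [e1]
      exact add_nonneg a1 (mul_nonneg (by linarith) a2)
    exact nonneg_of_mul_nonneg_right this h

/-! ### coordinates of `z + t e` -/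

theorem sh0 (z : Fin 23 → ℝ) (t : ℝ) : (z + t • e23) 0 = z 0 + t := by simp [e23]
theorem sh1 (z : Fin 23 → ℝ) (t : ℝ) : (z + t • e23) 1 = z 1 := by simp [e23]
theorem sh2 (z : Fin 23 → ℝ) (t : ℝ) : (z + t • e23) 2 = z 2 + t := by simp [e23]
theorem sh3 (z : Fin 23 → ℝ) (t : ℝ) : (z + t • e23) 3 = z 3 := by simp [e23]
theorem sh4 (z : Fin 23 → ℝ) (t : ℝ) : (z + t • e23) 4 = z 4 := by simp [e23]
theorem sh5 (z : Fin 23 → ℝ) (t : ℝ) : (z + t • e23) 5 = z 5 := by simp [e23]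
theorem sh6 (z : Fin 23 → ℝ) (t : ℝ) : (z + t • e23) 6 = z 6 := by simp [e23]
theorem sh7 (z : Fin 23 → ℝ) (t : ℝ) : (z + t • e23) 7 = z 7 + t := by simp [e23]
theorem sh8 (z : Fin 23 → ℝ) (t : ℝ) : (z + t • e23) 8 = z 8 := by simp [e23]
theorem sh9 (z : Fin 23 → ℝ) (t : ℝ) : (z + t • e23) 9 = z 9 := by simp [e23]
theorem sh10 (z : Fin 23 → ℝ) (t : ℝ) : (z + t • e23) 10 = z 10 + t := by simp [e23]
theorem sh11 (z : Fin 23 → ℝ) (t : ℝ) : (z + t • e23) 11 = z 11 := by simp [e23]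
theorem sh12 (z : Fin 23 → ℝ) (t : ℝ) : (z + t • e23) 12 = z 12 + t := by simp [e23]

theorem dl_shift (z : Fin 23 → ℝ) (t : ℝ) :
    dl (z + t • e23) = dl z + t * (z 0 + z 2) + t ^ 2 := by
  unfold dl
  rw [sh0, sh1, sh2]
  ring

/-- the shift identity -/
theorem rq_shift (z : Fin 23 → ℝ) (t y0 y1 y2 : ℝ) :
    dl z * rq (z + t • e23) y0 y1 y2 =
      dl (z + t • e23) * rq z y0 y1 y2
      + t * dl z * dl (z + t • e23) * (y0 ^ 2 + y1 ^ 2 + y2 ^ 2)
      + gf (z 3) (z 4) (z 5) (z 6) (t * (z 2 ^ 2 + z 1 ^ 2) + t ^ 2 * z 2)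
          (-(t * z 1 * (z 0 + z 2)) - t ^ 2 * z 1) (t * (z 0 ^ 2 + z 1 ^ 2) + t ^ 2 * z 0)
          y0 y1 y2 := by
  rw [rq, rq]
  unfold e00 e01 e02 e11 e12 e22
  rw [dl_shift, sh0, sh1, sh2, sh3, sh4, sh5, sh6, sh7, sh8, sh9, sh10, sh11, sh12]
  unfold qf gf dl
  ring

end Crest.Agent.R237.S2Cone
end

-- ▼ part R237/S2Cone

/-!
Row 237, statement S0368, node B (N2): `K0 ⊆ KK`, `KK` is closed, and the closed hyperbolicity cone
of `poly k` is `KK`.
-/

set_option autoImplicit false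

namespace Crest.Agent.R237.S2Cone

open Matrix Crest.Agent.R237.S2 Crest.GeometryTopology

/-- strict positivity of the form after a positive shift -/
theorem rq_shift_pos {z : Fin 23 → ℝ} (hz : z ∈ K0) {t : ℝ} (ht : 0 < t) :
    0 < (z + t • e23) 0 ∧ 0 < dl (z + t • e23) ∧
      ∀ y0 y1 y2, (y0 ≠ 0 ∨ y1 ≠ 0 ∨ y2 ≠ 0) → 0 < rq (z + t • e23) y0 y1 y2 := by
  rw [mem_K0_iff] at hz
  obtain ⟨h0, h1, hq⟩ := hz
  have h2 : 0 < z 2 := by
    have : 0 < z 0 * z 2 := by unfold dl at h1; nlinarith [sq_nonneg (z 1)]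
    exact (mul_pos_iff_of_pos_left h0).1 this
  have hd : 0 < dl (z + t • e23) := by
    rw [dl_shift]; positivity
  refine ⟨by rw [sh0]; linarith, hd, ?_⟩
  intro y0 y1 y2 hy
  have key := rq_shift z t y0 y1 y2
  have hg : 0 ≤ gf (z 3) (z 4) (z 5) (z 6) (t * (z 2 ^ 2 + z 1 ^ 2) + t ^ 2 * z 2)
          (-(t * z 1 * (z 0 + z 2)) - t ^ 2 * z 1) (t * (z 0 ^ 2 + z 1 ^ 2) + t ^ 2 * z 0)
          y0 y1 y2 := by
    apply gf_nonneg
    · positivity
    · positivity
    · have e1 : (t * (z 2 ^ 2 + z 1 ^ 2) + t ^ 2 * z 2) * (t * (z 0 ^ 2 + z 1 ^ 2) + t ^ 2 * z 0)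
          - (-(t * z 1 * (z 0 + z 2)) - t ^ 2 * z 1) ^ 2 =
          t ^ 2 * dl z * dl (z + t • e23) := by
        rw [dl_shift]; unfold dl; ring
      have : 0 ≤ t ^ 2 * dl z * dl (z + t • e23) := by positivity
      linarith
  have hs : 0 < y0 ^ 2 + y1 ^ 2 + y2 ^ 2 := by
    rcases hy with h | h | h <;> positivity
  have h3 : 0 ≤ dl (z + t • e23) * rq z y0 y1 y2 := mul_nonneg hd.le (hq _ _ _)
  have h4 : 0 < t * dl z * dl (z + t • e23) * (y0 ^ 2 + y1 ^ 2 + y2 ^ 2) := by positivity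
  have h5 : 0 < dl z * rq (z + t • e23) y0 y1 y2 := by rw [key]; linarith
  exact (mul_pos_iff_of_pos_left h1).1 h5

/-- a strictly positive form gives membership in `K0` -/
theorem K0_of_pos {z : Fin 23 → ℝ} (h0 : 0 < z 0) (h1 : 0 < dl z)
    (h : ∀ y0 y1 y2, (y0 ≠ 0 ∨ y1 ≠ 0 ∨ y2 ≠ 0) → 0 < rq z y0 y1 y2) : z ∈ K0 := by
  rw [mem_K0_iff]
  refine ⟨h0, h1, fun y0 y1 y2 => ?_⟩
  by_cases hy : y0 ≠ 0 ∨ y1 ≠ 0 ∨ y2 ≠ 0
  · exact (h _ _ _ hy).le
  · push Not at hy
    obtain ⟨rfl, rfl, rfl⟩ := hy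
    simp [rq, qf]

theorem K0_shift {z : Fin 23 → ℝ} (hz : z ∈ K0) {t : ℝ} (ht : 0 < t) : z + t • e23 ∈ K0 := by
  obtain ⟨a, b, c⟩ := rq_shift_pos hz ht
  exact K0_of_pos a b c

theorem shift_split (z : Fin 23 → ℝ) (t : ℝ) :
    z + t • e23 = (z + (t / 2) • e23) + (t / 2) • e23 := by
  rw [add_assoc, ← add_smul]; congr 2; ring

end Crest.Agent.R237.S2Cone

namespace Crest.Agent.R237.S2

open Crest.Agent.R237.S2Cone

/-- **N2 (1).** -/
theorem K0_subset_KK : K0 ⊆ KK := fun _ hz _ ht => K0_shift hz ht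

end Crest.Agent.R237.S2

namespace Crest.Agent.R237.S2Cone

open Matrix Crest.Agent.R237.S2 Crest.GeometryTopology

/-! ### closedness -/

theorem cont_e00 : Continuous e00 := by unfold e00 dl; fun_prop
theorem cont_e01 : Continuous e01 := by unfold e01 dl; fun_prop
theorem cont_e02 : Continuous e02 := by unfold e02 dl; fun_prop
theorem cont_e11 : Continuous e11 := by unfold e11 dl; fun_prop
theorem cont_e12 : Continuous e12 := by unfold e12 dl; fun_prop
theorem cont_e22 : Continuous e22 := by unfold e22 dl; fun_prop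
theorem cont_dl : Continuous (dl : (Fin 23 → ℝ) → ℝ) := by unfold dl; fun_prop


theorem cont_rd : Continuous rd := by
  have h0 := cont_e00
  have h1 := cont_e01
  have h2 := cont_e02
  have h3 := cont_e11
  have h4 := cont_e12
  have h5 := cont_e22
  unfold rd dt
  fun_prop

theorem cont_m2 : Continuous fun z => e00 z * e11 z - e01 z ^ 2 := by
  have h0 := cont_e00
  have h1 := cont_e01
  have h3 := cont_e11
  fun_prop


end Crest.Agent.R237.S2Cone

namespace Crest.Agent.R237.S2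

open Crest.Agent.R237.S2Cone


end Crest.Agent.R237.S2

namespace Crest.Agent.R237.S2Cone

open Matrix Crest.Agent.R237.S2 Crest.GeometryTopology

/-! ### evaluation and homogeneity -/

theorem eval_poly (k : ℕ) (y : Fin 23 → ℝ) :
    MvPolynomial.eval y (poly k) = dl y * rd y * y 0 ^ k := by
  rw [← D9_eq]
  unfold poly D9 dl Um Gam
  rw [Matrix.det_fin_three, Matrix.det_fin_three]
  simp

theorem dl_neg (y : Fin 23 → ℝ) : dl (-y) = dl y := by
  unfold dl; simp

theorem rd_neg (y : Fin 23 → ℝ) : rd (-y) = - rd y := by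
  unfold rd dt e00 e01 e02 e11 e12 e22 dl
  simp only [Pi.neg_apply]
  ring

theorem dl_smul (s : ℝ) (y : Fin 23 → ℝ) : dl (s • y) = s ^ 2 * dl y := by
  unfold dl; simp only [Pi.smul_apply, smul_eq_mul]; ring
theorem e00_smul (s : ℝ) (y : Fin 23 → ℝ) : e00 (s • y) = s ^ 3 * e00 y := by
  unfold e00; rw [dl_smul]; simp only [Pi.smul_apply, smul_eq_mul]; ring
theorem e01_smul (s : ℝ) (y : Fin 23 → ℝ) : e01 (s • y) = s ^ 3 * e01 y := by
  unfold e01; rw [dl_smul]; simp only [Pi.smul_apply, smul_eq_mul]; ring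
theorem e02_smul (s : ℝ) (y : Fin 23 → ℝ) : e02 (s • y) = s ^ 3 * e02 y := by
  unfold e02; rw [dl_smul]; simp only [Pi.smul_apply, smul_eq_mul]; ring
theorem e11_smul (s : ℝ) (y : Fin 23 → ℝ) : e11 (s • y) = s ^ 3 * e11 y := by
  unfold e11; rw [dl_smul]; simp only [Pi.smul_apply, smul_eq_mul]; ring
theorem e12_smul (s : ℝ) (y : Fin 23 → ℝ) : e12 (s • y) = s ^ 3 * e12 y := by
  unfold e12; rw [dl_smul]; simp only [Pi.smul_apply, smul_eq_mul]; ring
theorem e22_smul (s : ℝ) (y : Fin 23 → ℝ) : e22 (s • y) = s ^ 3 * e22 y := by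
  unfold e22; rw [dl_smul]; simp only [Pi.smul_apply, smul_eq_mul]; ring
theorem rd_smul (s : ℝ) (y : Fin 23 → ℝ) : rd (s • y) = s ^ 9 * rd y := by
  unfold rd
  rw [e00_smul, e01_smul, e02_smul, e11_smul, e12_smul, e22_smul]
  unfold dt; ring

/-- for large `s`, the point `x + s e` is in the interior -/
theorem large (x : Fin 23 → ℝ) : ∃ s : ℝ, 0 < s ∧ 0 < (x + s • e23) 0 ∧ 0 < dl (x + s • e23) ∧
    0 < e00 (x + s • e23) ∧
    0 < e00 (x + s • e23) * e11 (x + s • e23) - e01 (x + s • e23) ^ 2 ∧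
    0 < rd (x + s • e23) := by
  set φ : ℝ → (Fin 23 → ℝ) := fun τ => e23 + τ • x with hφ
  have cφ : Continuous φ := by rw [hφ]; fun_prop
  have h0 : φ 0 = e23 := by rw [hφ]; simp
  have v0 : (φ 0) 0 = 1 := by rw [h0]; simp [e23]
  have v1 : dl (φ 0) = 1 := by rw [h0]; simp [e23, dl]
  have v2 : e00 (φ 0) = 1 := by rw [h0]; simp [e00, e23, dl]
  have v3 : e00 (φ 0) * e11 (φ 0) - e01 (φ 0) ^ 2 = 1 := by
    rw [h0]; simp [e00, e11, e01, e23, dl]
  have v4 : rd (φ 0) = 1 := by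
    rw [h0]; simp [rd, dt, e00, e11, e01, e02, e12, e22, e23, dl]
  have o0 : ∀ᶠ τ in nhds (0 : ℝ), 0 < (φ τ) 0 :=
    ((continuous_apply 0).comp cφ).continuousAt.eventually_const_lt (by
      show 0 < (φ 0) 0; rw [v0]; exact one_pos)
  have o1 : ∀ᶠ τ in nhds (0 : ℝ), 0 < dl (φ τ) :=
    (cont_dl.comp cφ).continuousAt.eventually_const_lt (by
      show 0 < dl (φ 0); rw [v1]; exact one_pos)
  have o2 : ∀ᶠ τ in nhds (0 : ℝ), 0 < e00 (φ τ) :=
    (cont_e00.comp cφ).continuousAt.eventually_const_lt (by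
      show 0 < e00 (φ 0); rw [v2]; exact one_pos)
  have o3 : ∀ᶠ τ in nhds (0 : ℝ), 0 < e00 (φ τ) * e11 (φ τ) - e01 (φ τ) ^ 2 :=
    (cont_m2.comp cφ).continuousAt.eventually_const_lt (by
      show 0 < e00 (φ 0) * e11 (φ 0) - e01 (φ 0) ^ 2; rw [v3]; exact one_pos)
  have o4 : ∀ᶠ τ in nhds (0 : ℝ), 0 < rd (φ τ) :=
    (cont_rd.comp cφ).continuousAt.eventually_const_lt (by
      show 0 < rd (φ 0); rw [v4]; exact one_pos)
  have hall := o0.and (o1.and (o2.and (o3.and o4)))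
  have hpos : ∃ τ : ℝ, 0 < τ ∧ (0 < (φ τ) 0 ∧ 0 < dl (φ τ) ∧ 0 < e00 (φ τ) ∧
      0 < e00 (φ τ) * e11 (φ τ) - e01 (φ τ) ^ 2 ∧ 0 < rd (φ τ)) := by
    obtain ⟨ε, hε, hb⟩ := Metric.eventually_nhds_iff.1 hall
    refine ⟨ε / 2, by linarith, hb ?_⟩
    rw [Real.dist_eq, sub_zero, abs_of_pos (by linarith)]
    linarith
  obtain ⟨τ, hτ, g0, g1, g2, g3, g4⟩ := hpos
  have hs : 0 < τ⁻¹ := inv_pos.2 hτ
  have hx : x + τ⁻¹ • e23 = τ⁻¹ • φ τ := by
    rw [hφ]; simp only [smul_add, smul_smul, inv_mul_cancel₀ hτ.ne', one_smul]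
    exact add_comm _ _
  refine ⟨τ⁻¹, hs, ?_, ?_, ?_, ?_, ?_⟩
  · rw [hx]; exact mul_pos hs g0
  · rw [hx, dl_smul]; positivity
  · rw [hx, e00_smul]; positivity
  · rw [hx, e00_smul, e11_smul, e01_smul]
    have : (τ⁻¹ ^ 3 * e00 (φ τ)) * (τ⁻¹ ^ 3 * e11 (φ τ)) - (τ⁻¹ ^ 3 * e01 (φ τ)) ^ 2 =
        τ⁻¹ ^ 6 * (e00 (φ τ) * e11 (φ τ) - e01 (φ τ) ^ 2) := by ring
    rw [this]; positivity
  · rw [hx, rd_smul]; positivity

end Crest.Agent.R237.S2Cone

namespace Crest.Agent.R237.S2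

open Crest.Agent.R237.S2Cone Crest.GeometryTopology

theorem rd_pos_of_K0_shift {z : Fin 23 → ℝ} (hz : z ∈ K0) {t : ℝ} (ht : 0 < t) :
    0 < (z + t • e23) 0 ∧ 0 < dl (z + t • e23) ∧ 0 < rd (z + t • e23) := by
  obtain ⟨a, b, c⟩ := rq_shift_pos hz ht
  exact ⟨a, b, (dt_pos c).2.2⟩

/-- **N2 (3).** The closed hyperbolicity cone of `poly k` is `KK`. -/
theorem closedCone_poly (k : ℕ) : Hyperbolic.closedCone (poly k) e23 = KK := by
  ext x
  constructor
  · intro hx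
    have hx' : ∀ t : ℝ, MvPolynomial.eval (fun i => t * e23 i - x i) (poly k) = 0 → 0 ≤ t := hx
    have hne : ∀ s : ℝ, 0 < s → dl (x + s • e23) ≠ 0 ∧ rd (x + s • e23) ≠ 0 := by
      intro s hs
      have hev : MvPolynomial.eval (fun i => (-s) * e23 i - x i) (poly k) ≠ 0 := by
        intro h0
        have := hx' (-s) h0
        linarith
      have hfun : (fun i => (-s) * e23 i - x i) = -(x + s • e23) := by
        funext i; simp [Pi.add_apply, Pi.smul_apply]; ring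
      rw [hfun, S2Cone.eval_poly, dl_neg, rd_neg] at hev
      constructor
      · intro h; apply hev; rw [h]; ring
      · intro h; apply hev; rw [h]; ring
    have cs : Continuous fun s : ℝ => x + s • e23 := by fun_prop
    have hmain := clopen (A := fun s => (x + s • e23) 0) (D := fun s => dl (x + s • e23))
      (r00 := fun s => e00 (x + s • e23)) (r01 := fun s => e01 (x + s • e23))
      (r02 := fun s => e02 (x + s • e23)) (r11 := fun s => e11 (x + s • e23))
      (r12 := fun s => e12 (x + s • e23)) (r22 := fun s => e22 (x + s • e23))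
      ((continuous_apply 0).comp cs) (cont_dl.comp cs) (cont_e00.comp cs) (cont_e01.comp cs)
      (cont_e02.comp cs) (cont_e11.comp cs) (cont_e12.comp cs) (cont_e22.comp cs)
      (fun s hs => (hne s hs).2)
      (fun s hs hd h0 => by
        have h0' : (x + s • e23) 0 = 0 := h0
        have hd' : 0 < dl (x + s • e23) := hd
        unfold dl at hd'
        rw [h0'] at hd'
        nlinarith [sq_nonneg ((x + s • e23) 1)])
      (fun s hs => (hne s hs).1) (large x)
    intro t ht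
    obtain ⟨h0, h1, h2, h3, h4⟩ := hmain t ht
    exact K0_of_pos h0 h1 (fun y0 y1 y2 hy => qf_pos h2 h3 h4 hy)
  · intro hx
    show ∀ t : ℝ, MvPolynomial.eval (fun i => t * e23 i - x i) (poly k) = 0 → 0 ≤ t
    intro t h0
    by_contra hneg
    push Not at hneg
    have hs : 0 < (-t) / 2 := by linarith
    have hK := hx ((-t) / 2) hs
    obtain ⟨g0, g1, g2⟩ := rd_pos_of_K0_shift hK hs
    rw [← shift_split] at g0 g1 g2
    have hfun : (fun i => t * e23 i - x i) = -(x + (-t) • e23) := by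
      funext i; simp [Pi.add_apply, Pi.smul_apply]; ring
    rw [hfun, S2Cone.eval_poly, dl_neg, rd_neg] at h0
    have h5 : (-(x + (-t) • e23)) 0 = -((x + (-t) • e23) 0) := rfl
    rw [h5] at h0
    have h6 : dl (x + (-t) • e23) * -rd (x + (-t) • e23) * (-(x + (-t) • e23) 0) ^ k ≠ 0 := by
      apply mul_ne_zero
      · exact mul_ne_zero g1.ne' (neg_ne_zero.2 g2.ne')
      · exact pow_ne_zero _ (neg_ne_zero.2 g0.ne')
    exact h6 h0

end Crest.Agent.R237.S2
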