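import Crest.Agent.R237.S2Pts

-- ▼ part R237/S2Final
section

/-! S0368, D4 + D5: a graded pencil representing `KK` does not exist. -/

set_option autoImplicit false

namespace Crest.Agent.R237.S2F

open Matrix Crest.Agent.R237.S2

/-- coordinates of the diagonal entries `X00, X11, U00, U11, U22` -/
def dg : Fin 5 → Fin 23 := ![0,2,7,10,12]
/-- weights of the five levels -/
def kw : Fin 5 → ℕ := ![0,1,4,5,6]
/-- weights of the coordinates -/
def wt : Fin 23 → ℕ := ![0,1,2,5,5,6,6,8,9,10,10,11,12, 0,0,0,0,0,0,0,0,0,0]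

/-- the data of a graded pencil -/
structure Graded (N : ℕ) (A : Fin 23 → Matrix (Fin N) (Fin N) ℝ) : Prop where
  symm : ∀ ν, (A ν).IsSymm
  sum1 : A 0 + A 2 + A 7 + A 10 + A 12 = 1
  orth : ∀ i j : Fin 5, i ≠ j → A (dg i) * A (dg j) = 0
  idem : ∀ i, A (dg i) * A (dg i) = A (dg i)
  grad : ∀ ν i j, kw i + kw j ≠ wt ν → A (dg i) * A ν * A (dg j) = 0
  pos : ∀ z ∈ KK, (∑ ν, z ν • A ν).PosSemidef
  sing : ∀ z ∈ K0, (Um z - Gz z).det = 0 → (∑ ν, z ν • A ν).det = 0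

variable {N : ℕ}

/-- the blocks of `A ν` at `f` -/
def Bk (A : Fin 23 → Matrix (Fin N) (Fin N) ℝ) (f : Fin N → ℝ) (ν : Fin 23) (i j : Fin 5) : ℝ :=
  (A (dg i) *ᵥ f) ⬝ᵥ (A ν *ᵥ (A (dg j) *ᵥ f))

variable {A : Fin 23 → Matrix (Fin N) (Fin N) ℝ}

lemma dot_mulVec_symm {M : Matrix (Fin N) (Fin N) ℝ} (hM : M.IsSymm) (u w : Fin N → ℝ) :
    u ⬝ᵥ (M *ᵥ w) = (M *ᵥ u) ⬝ᵥ w := by
  rw [Matrix.dotProduct_mulVec, ← Matrix.mulVec_transpose, hM.eq]

lemma Bk_symm (hA : Graded N A) (f : Fin N → ℝ) (ν : Fin 23) (i j : Fin 5) :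
    Bk A f ν i j = Bk A f ν j i := by
  unfold Bk
  rw [dot_mulVec_symm (hA.symm ν), dotProduct_comm]

lemma Bk_zero (hA : Graded N A) (f : Fin N → ℝ) (ν : Fin 23) (i j : Fin 5)
    (h : kw i + kw j ≠ wt ν) : Bk A f ν i j = 0 := by
  unfold Bk
  rw [← dot_mulVec_symm (hA.symm (dg i)), Matrix.mulVec_mulVec, Matrix.mulVec_mulVec,
    hA.grad ν i j h, Matrix.zero_mulVec, dotProduct_zero]

/-- `|P_i f|²` -/
def nn (A : Fin 23 → Matrix (Fin N) (Fin N) ℝ) (f : Fin N → ℝ) (i : Fin 5) : ℝ :=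
  (A (dg i) *ᵥ f) ⬝ᵥ (A (dg i) *ᵥ f)

lemma nn_nonneg (A : Fin 23 → Matrix (Fin N) (Fin N) ℝ) (f : Fin N → ℝ) (i : Fin 5) :
    0 ≤ nn A f i := by
  unfold nn
  have := dotProduct_self_star_nonneg (A (dg i) *ᵥ f)
  simpa using this

lemma Bk_diag (hA : Graded N A) (f : Fin N → ℝ) (i : Fin 5) :
    Bk A f (dg i) i i = nn A f i := by
  unfold Bk nn
  rw [Matrix.mulVec_mulVec, hA.idem]

lemma Bk_offdiag (hA : Graded N A) (f : Fin N → ℝ) (i j k : Fin 5) (h : i ≠ k) :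
    Bk A f (dg i) j k = 0 := by
  unfold Bk
  rw [Matrix.mulVec_mulVec, hA.orth i k h, Matrix.zero_mulVec, dotProduct_zero]

lemma sum_expand (A : Fin 23 → Matrix (Fin N) (Fin N) ℝ) (f : Fin N → ℝ) (c : Fin 5 → ℝ)
    (ν : Fin 23) :
    (∑ i, c i • (A (dg i) *ᵥ f)) ⬝ᵥ (A ν *ᵥ (∑ i, c i • (A (dg i) *ᵥ f))) =
      ∑ i, ∑ j, c i * c j * Bk A f ν i j := by
  unfold Bk
  rw [sum_dotProduct]
  refine Finset.sum_congr rfl fun i _ => ?_
  rw [smul_dotProduct, Matrix.mulVec_sum, dotProduct_sum, Finset.smul_sum]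
  refine Finset.sum_congr rfl fun j _ => ?_
  rw [Matrix.mulVec_smul, dotProduct_smul]
  simp only [smul_eq_mul]
  ring

/-- the full quadratic form of the pencil on graded vectors -/
theorem quad_expand (hA : Graded N A) (f : Fin N → ℝ) (c : Fin 5 → ℝ)
    (x0 x1 x2 p q r s u0 u1 u2 u3 u4 u5 : ℝ) :
    (∑ i, c i • (A (dg i) *ᵥ f)) ⬝ᵥ
      ((∑ ν, mk x0 x1 x2 p q r s u0 u1 u2 u3 u4 u5 ν • A ν) *ᵥ (∑ i, c i • (A (dg i) *ᵥ f))) =
    x0 * (c 0 ^ 2 * nn A f 0) + x1 * (2 * c 0 * c 1 * Bk A f 1 0 1)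
    + x2 * (c 1 ^ 2 * nn A f 1)
    + p * (2 * c 0 * c 3 * Bk A f 3 0 3 + 2 * c 1 * c 2 * Bk A f 3 1 2)
    + q * (2 * c 0 * c 3 * Bk A f 4 0 3 + 2 * c 1 * c 2 * Bk A f 4 1 2)
    + r * (2 * c 0 * c 4 * Bk A f 5 0 4 + 2 * c 1 * c 3 * Bk A f 5 1 3)
    + s * (2 * c 0 * c 4 * Bk A f 6 0 4 + 2 * c 1 * c 3 * Bk A f 6 1 3)
    + u0 * (c 2 ^ 2 * nn A f 2) + u1 * (2 * c 2 * c 3 * Bk A f 8 2 3)
    + u2 * (2 * c 2 * c 4 * Bk A f 9 2 4 + c 3 ^ 2 * Bk A f 9 3 3)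
    + u3 * (c 3 ^ 2 * nn A f 3) + u4 * (2 * c 3 * c 4 * Bk A f 11 3 4)
    + u5 * (c 4 ^ 2 * nn A f 4) := by
  set u := ∑ i, c i • (A (dg i) *ᵥ f) with hu
  have hE : ∀ ν, u ⬝ᵥ (A ν *ᵥ u) = ∑ i, ∑ j, c i * c j * Bk A f ν i j :=
    fun ν => sum_expand A f c ν
  have z : ∀ ν i j, kw i + kw j ≠ wt ν → Bk A f ν i j = 0 := fun ν i j h => Bk_zero hA f ν i j h
  have e0 : u ⬝ᵥ (A 0 *ᵥ u) = c 0 ^ 2 * nn A f 0 := by
    rw [hE, ← Bk_diag hA f 0]
    simp only [Fin.sum_univ_five]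
    rw [z 0 0 1 (by decide), z 0 0 2 (by decide), z 0 0 3 (by decide), z 0 0 4 (by decide),
      z 0 1 0 (by decide), z 0 1 1 (by decide), z 0 1 2 (by decide), z 0 1 3 (by decide),
      z 0 1 4 (by decide), z 0 2 0 (by decide), z 0 2 1 (by decide), z 0 2 2 (by decide),
      z 0 2 3 (by decide), z 0 2 4 (by decide), z 0 3 0 (by decide), z 0 3 1 (by decide),
      z 0 3 2 (by decide), z 0 3 3 (by decide), z 0 3 4 (by decide), z 0 4 0 (by decide),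
      z 0 4 1 (by decide), z 0 4 2 (by decide), z 0 4 3 (by decide), z 0 4 4 (by decide)]
    have : dg 0 = 0 := rfl
    rw [this]; ring
  have e1 : u ⬝ᵥ (A 1 *ᵥ u) = 2 * c 0 * c 1 * Bk A f 1 0 1 := by
    rw [hE]
    simp only [Fin.sum_univ_five]
    rw [z 1 0 0 (by decide), z 1 0 2 (by decide), z 1 0 3 (by decide), z 1 0 4 (by decide),
      z 1 1 1 (by decide), z 1 1 2 (by decide), z 1 1 3 (by decide),
      z 1 1 4 (by decide), z 1 2 0 (by decide), z 1 2 1 (by decide), z 1 2 2 (by decide),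
      z 1 2 3 (by decide), z 1 2 4 (by decide), z 1 3 0 (by decide), z 1 3 1 (by decide),
      z 1 3 2 (by decide), z 1 3 3 (by decide), z 1 3 4 (by decide), z 1 4 0 (by decide),
      z 1 4 1 (by decide), z 1 4 2 (by decide), z 1 4 3 (by decide), z 1 4 4 (by decide),
      Bk_symm hA f 1 1 0]
    ring
  have e2 : u ⬝ᵥ (A 2 *ᵥ u) = c 1 ^ 2 * nn A f 1 := by
    rw [hE, ← Bk_diag hA f 1]
    simp only [Fin.sum_univ_five]
    rw [z 2 0 0 (by decide), z 2 0 1 (by decide), z 2 0 2 (by decide), z 2 0 3 (by decide),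
      z 2 0 4 (by decide),
      z 2 1 0 (by decide), z 2 1 2 (by decide), z 2 1 3 (by decide),
      z 2 1 4 (by decide), z 2 2 0 (by decide), z 2 2 1 (by decide), z 2 2 2 (by decide),
      z 2 2 3 (by decide), z 2 2 4 (by decide), z 2 3 0 (by decide), z 2 3 1 (by decide),
      z 2 3 2 (by decide), z 2 3 3 (by decide), z 2 3 4 (by decide), z 2 4 0 (by decide),
      z 2 4 1 (by decide), z 2 4 2 (by decide), z 2 4 3 (by decide), z 2 4 4 (by decide)]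
    have : dg 1 = 2 := rfl
    rw [this]; ring
  have e5 : ∀ ν, wt ν = 5 → u ⬝ᵥ (A ν *ᵥ u) =
      2 * c 0 * c 3 * Bk A f ν 0 3 + 2 * c 1 * c 2 * Bk A f ν 1 2 := by
    intro ν hν
    have z' : ∀ i j, kw i + kw j ≠ 5 → Bk A f ν i j = 0 :=
      fun i j h => z ν i j (by rw [hν]; exact h)
    rw [hE]
    simp only [Fin.sum_univ_five]
    rw [z' 0 0 (by decide), z' 0 1 (by decide), z' 0 2 (by decide),
      z' 0 4 (by decide),
      z' 1 0 (by decide), z' 1 1 (by decide), z' 1 3 (by decide),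
      z' 1 4 (by decide), z' 2 0 (by decide), z' 2 2 (by decide),
      z' 2 3 (by decide), z' 2 4 (by decide), z' 3 1 (by decide),
      z' 3 2 (by decide), z' 3 3 (by decide), z' 3 4 (by decide), z' 4 0 (by decide),
      z' 4 1 (by decide), z' 4 2 (by decide), z' 4 3 (by decide), z' 4 4 (by decide),
      Bk_symm hA f ν 3 0, Bk_symm hA f ν 2 1]
    ring
  have e6 : ∀ ν, wt ν = 6 → u ⬝ᵥ (A ν *ᵥ u) =
      2 * c 0 * c 4 * Bk A f ν 0 4 + 2 * c 1 * c 3 * Bk A f ν 1 3 := by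
    intro ν hν
    have z' : ∀ i j, kw i + kw j ≠ 6 → Bk A f ν i j = 0 :=
      fun i j h => z ν i j (by rw [hν]; exact h)
    rw [hE]
    simp only [Fin.sum_univ_five]
    rw [z' 0 0 (by decide), z' 0 1 (by decide), z' 0 2 (by decide),
      z' 0 3 (by decide),
      z' 1 0 (by decide), z' 1 1 (by decide), z' 1 2 (by decide),
      z' 1 4 (by decide), z' 2 0 (by decide), z' 2 1 (by decide), z' 2 2 (by decide),
      z' 2 3 (by decide), z' 2 4 (by decide), z' 3 0 (by decide),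
      z' 3 2 (by decide), z' 3 3 (by decide), z' 3 4 (by decide),
      z' 4 1 (by decide), z' 4 2 (by decide), z' 4 3 (by decide), z' 4 4 (by decide),
      Bk_symm hA f ν 4 0, Bk_symm hA f ν 3 1]
    ring
  have e3 := e5 3 rfl
  have e4 := e5 4 rfl
  have e5' := e6 5 rfl
  have e6' := e6 6 rfl
  have e7 : u ⬝ᵥ (A 7 *ᵥ u) = c 2 ^ 2 * nn A f 2 := by
    rw [hE, ← Bk_diag hA f 2]
    simp only [Fin.sum_univ_five]
    rw [z 7 0 0 (by decide), z 7 0 1 (by decide), z 7 0 2 (by decide), z 7 0 3 (by decide),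
      z 7 0 4 (by decide),
      z 7 1 0 (by decide), z 7 1 1 (by decide), z 7 1 2 (by decide), z 7 1 3 (by decide),
      z 7 1 4 (by decide), z 7 2 0 (by decide), z 7 2 1 (by decide),
      z 7 2 3 (by decide), z 7 2 4 (by decide), z 7 3 0 (by decide), z 7 3 1 (by decide),
      z 7 3 2 (by decide), z 7 3 3 (by decide), z 7 3 4 (by decide), z 7 4 0 (by decide),
      z 7 4 1 (by decide), z 7 4 2 (by decide), z 7 4 3 (by decide), z 7 4 4 (by decide)]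
    have : dg 2 = 7 := rfl
    rw [this]; ring
  have e8 : u ⬝ᵥ (A 8 *ᵥ u) = 2 * c 2 * c 3 * Bk A f 8 2 3 := by
    rw [hE]
    simp only [Fin.sum_univ_five]
    rw [z 8 0 0 (by decide), z 8 0 1 (by decide), z 8 0 2 (by decide), z 8 0 3 (by decide),
      z 8 0 4 (by decide),
      z 8 1 0 (by decide), z 8 1 1 (by decide), z 8 1 2 (by decide), z 8 1 3 (by decide),
      z 8 1 4 (by decide), z 8 2 0 (by decide), z 8 2 1 (by decide), z 8 2 2 (by decide),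
      z 8 2 4 (by decide), z 8 3 0 (by decide), z 8 3 1 (by decide),
      z 8 3 3 (by decide), z 8 3 4 (by decide), z 8 4 0 (by decide),
      z 8 4 1 (by decide), z 8 4 2 (by decide), z 8 4 3 (by decide), z 8 4 4 (by decide),
      Bk_symm hA f 8 3 2]
    ring
  have e9 : u ⬝ᵥ (A 9 *ᵥ u) = 2 * c 2 * c 4 * Bk A f 9 2 4 + c 3 ^ 2 * Bk A f 9 3 3 := by
    rw [hE]
    simp only [Fin.sum_univ_five]
    rw [z 9 0 0 (by decide), z 9 0 1 (by decide), z 9 0 2 (by decide), z 9 0 3 (by decide),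
      z 9 0 4 (by decide),
      z 9 1 0 (by decide), z 9 1 1 (by decide), z 9 1 2 (by decide), z 9 1 3 (by decide),
      z 9 1 4 (by decide), z 9 2 0 (by decide), z 9 2 1 (by decide), z 9 2 2 (by decide),
      z 9 2 3 (by decide), z 9 3 0 (by decide), z 9 3 1 (by decide),
      z 9 3 2 (by decide), z 9 3 4 (by decide), z 9 4 0 (by decide),
      z 9 4 1 (by decide), z 9 4 3 (by decide), z 9 4 4 (by decide),
      Bk_symm hA f 9 4 2]
    ring
  have e10 : u ⬝ᵥ (A 10 *ᵥ u) = c 3 ^ 2 * nn A f 3 := by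
    have hd : dg 3 = 10 := rfl
    have z2 : Bk A f 10 2 4 = 0 := by
      have := Bk_offdiag hA f 3 2 4 (by decide); rwa [hd] at this
    have z3 : Bk A f 10 4 2 = 0 := by
      have := Bk_offdiag hA f 3 4 2 (by decide); rwa [hd] at this
    rw [hE, ← Bk_diag hA f 3]
    simp only [Fin.sum_univ_five]
    rw [z 10 0 0 (by decide), z 10 0 1 (by decide), z 10 0 2 (by decide), z 10 0 3 (by decide),
      z 10 0 4 (by decide),
      z 10 1 0 (by decide), z 10 1 1 (by decide), z 10 1 2 (by decide), z 10 1 3 (by decide),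
      z 10 1 4 (by decide), z 10 2 0 (by decide), z 10 2 1 (by decide), z 10 2 2 (by decide),
      z 10 2 3 (by decide), z2, z3, z 10 3 0 (by decide), z 10 3 1 (by decide),
      z 10 3 2 (by decide), z 10 3 4 (by decide), z 10 4 0 (by decide),
      z 10 4 1 (by decide), z 10 4 3 (by decide), z 10 4 4 (by decide), hd]
    ring
  have e11 : u ⬝ᵥ (A 11 *ᵥ u) = 2 * c 3 * c 4 * Bk A f 11 3 4 := by
    rw [hE]
    simp only [Fin.sum_univ_five]
    rw [z 11 0 0 (by decide), z 11 0 1 (by decide), z 11 0 2 (by decide), z 11 0 3 (by decide),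
      z 11 0 4 (by decide),
      z 11 1 0 (by decide), z 11 1 1 (by decide), z 11 1 2 (by decide), z 11 1 3 (by decide),
      z 11 1 4 (by decide), z 11 2 0 (by decide), z 11 2 1 (by decide), z 11 2 2 (by decide),
      z 11 2 3 (by decide), z 11 2 4 (by decide), z 11 3 0 (by decide), z 11 3 1 (by decide),
      z 11 3 2 (by decide), z 11 3 3 (by decide), z 11 4 0 (by decide),
      z 11 4 1 (by decide), z 11 4 2 (by decide), z 11 4 4 (by decide),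
      Bk_symm hA f 11 4 3]
    ring
  have e12 : u ⬝ᵥ (A 12 *ᵥ u) = c 4 ^ 2 * nn A f 4 := by
    rw [hE, ← Bk_diag hA f 4]
    simp only [Fin.sum_univ_five]
    rw [z 12 0 0 (by decide), z 12 0 1 (by decide), z 12 0 2 (by decide), z 12 0 3 (by decide),
      z 12 0 4 (by decide),
      z 12 1 0 (by decide), z 12 1 1 (by decide), z 12 1 2 (by decide), z 12 1 3 (by decide),
      z 12 1 4 (by decide), z 12 2 0 (by decide), z 12 2 1 (by decide), z 12 2 2 (by decide),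
      z 12 2 3 (by decide), z 12 2 4 (by decide), z 12 3 0 (by decide), z 12 3 1 (by decide),
      z 12 3 2 (by decide), z 12 3 3 (by decide), z 12 3 4 (by decide), z 12 4 0 (by decide),
      z 12 4 1 (by decide), z 12 4 2 (by decide), z 12 4 3 (by decide)]
    have : dg 4 = 12 := rfl
    rw [this]; ring
  rw [sum_mk]
  simp only [Matrix.add_mulVec, Matrix.smul_mulVec, dotProduct_add, dotProduct_smul, smul_eq_mul]
  rw [e0, e1, e2, e3, e4, e5', e6', e7, e8, e9, e10, e11, e12]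

end Crest.Agent.R237.S2F
end

-- ▼ part R237/S2Final2

/-! S0368, D5: relations of compatible vectors. -/

set_option autoImplicit false

namespace Crest.Agent.R237.S2F

open Matrix Crest.Agent.R237.S2

variable {N : ℕ} {A : Fin 23 → Matrix (Fin N) (Fin N) ℝ}

lemma Graded.sum_proj (hA : Graded N A) (f : Fin N → ℝ) : f = ∑ j, A (dg j) *ᵥ f := by
  have : (A 0 + A 2 + A 7 + A 10 + A 12) *ᵥ f = f := by rw [hA.sum1, Matrix.one_mulVec]
  simp only [Fin.sum_univ_five]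
  simp only [Matrix.add_mulVec] at this
  exact this.symm

lemma row (hA : Graded N A) (f : Fin N → ℝ) (ν : Fin 23) (i : Fin 5) :
    (A (dg i) *ᵥ f) ⬝ᵥ (A ν *ᵥ f) = ∑ j, Bk A f ν i j := by
  have h : A ν *ᵥ f = A ν *ᵥ ∑ j, A (dg j) *ᵥ f := by rw [← hA.sum_proj f]
  rw [h, Matrix.mulVec_sum, dotProduct_sum]
  rfl

lemma quad_nonneg (hA : Graded N A) {z : Fin 23 → ℝ} (hz : z ∈ KK) (u : Fin N → ℝ) :
    0 ≤ u ⬝ᵥ ((∑ ν, z ν • A ν) *ᵥ u) := by
  have := (hA.pos z hz).dotProduct_mulVec_nonneg u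
  simpa using this

/-- compatibility -/
structure Compat (A : Fin 23 → Matrix (Fin N) (Fin N) ℝ) (f : Fin N → ℝ) (g c : ℝ) : Prop where
  n0 : nn A f 0 = g
  n1 : nn A f 1 = g
  b1 : Bk A f 1 0 1 = g
  n2 : nn A f 2 = c
  n3 : nn A f 3 = c
  n4 : nn A f 4 = c
  b8 : Bk A f 8 2 3 = c
  b9 : Bk A f 9 2 4 = c
  b9' : Bk A f 9 3 3 = 0
  b11 : Bk A f 11 3 4 = c

/-- the `y` part of compatibility -/
lemma compat_y (hA : Graded N A) (f : Fin N → ℝ)
    (h1 : (A 7 - A 8 + A 10) *ᵥ f = 0) (h2 : (A 10 - A 11 + A 12) *ᵥ f = 0)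
    (h3 : (A 7 - A 9 + A 12) *ᵥ f = 0) :
    nn A f 3 = nn A f 2 ∧ nn A f 4 = nn A f 2 ∧ Bk A f 8 2 3 = nn A f 2 ∧
      Bk A f 9 2 4 = nn A f 2 ∧ Bk A f 9 3 3 = 0 ∧ Bk A f 11 3 4 = nn A f 2 := by
  have z : ∀ ν i j, kw i + kw j ≠ wt ν → Bk A f ν i j = 0 := fun ν i j h => Bk_zero hA f ν i j h
  have hr : ∀ (ν : Fin 23) (i : Fin 5), (A (dg i) *ᵥ f) ⬝ᵥ (A ν *ᵥ f)
      = Bk A f ν i 0 + Bk A f ν i 1 + Bk A f ν i 2 + Bk A f ν i 3 + Bk A f ν i 4 := by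
    intro ν i; rw [row hA, Fin.sum_univ_five]
  have d2 : Bk A f 7 2 2 = nn A f 2 := Bk_diag hA f 2
  have d3 : Bk A f 10 3 3 = nn A f 3 := Bk_diag hA f 3
  have d4 : Bk A f 12 4 4 = nn A f 4 := Bk_diag hA f 4
  have o1 : Bk A f 10 2 4 = 0 := Bk_offdiag hA f 3 2 4 (by decide)
  have o2 : Bk A f 10 4 2 = 0 := Bk_offdiag hA f 3 4 2 (by decide)
  have s8 : Bk A f 8 3 2 = Bk A f 8 2 3 := Bk_symm hA f 8 3 2
  have s9 : Bk A f 9 4 2 = Bk A f 9 2 4 := Bk_symm hA f 9 4 2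
  have s11 : Bk A f 11 4 3 = Bk A f 11 3 4 := Bk_symm hA f 11 4 3
  have k : ∀ (i : Fin 5) (a b c : Fin 23), (A a - A b + A c) *ᵥ f = 0 →
      (A (dg i) *ᵥ f) ⬝ᵥ (A a *ᵥ f) - (A (dg i) *ᵥ f) ⬝ᵥ (A b *ᵥ f)
        + (A (dg i) *ᵥ f) ⬝ᵥ (A c *ᵥ f) = 0 := by
    intro i a b c h
    have := congrArg (fun w => (A (dg i) *ᵥ f) ⬝ᵥ w) h
    simpa [Matrix.add_mulVec, Matrix.sub_mulVec, dotProduct_add, dotProduct_sub] using this
  -- relation 1, i = 2
  have r1 := k 2 7 8 10 h1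
  rw [hr, hr, hr, z 7 2 0 (by decide), z 7 2 1 (by decide), z 7 2 3 (by decide),
    z 7 2 4 (by decide), z 8 2 0 (by decide), z 8 2 1 (by decide), z 8 2 2 (by decide),
    z 8 2 4 (by decide), z 10 2 0 (by decide), z 10 2 1 (by decide), z 10 2 2 (by decide),
    z 10 2 3 (by decide), o1, d2] at r1
  have r2 := k 3 7 8 10 h1
  rw [hr, hr, hr, z 7 3 0 (by decide), z 7 3 1 (by decide), z 7 3 2 (by decide),
    z 7 3 3 (by decide),
    z 7 3 4 (by decide), z 8 3 0 (by decide), z 8 3 1 (by decide), z 8 3 3 (by decide),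
    z 8 3 4 (by decide), z 10 3 0 (by decide), z 10 3 1 (by decide), z 10 3 2 (by decide),
    z 10 3 4 (by decide), d3, s8] at r2
  have r3 := k 3 10 11 12 h2
  rw [hr, hr, hr, z 10 3 0 (by decide), z 10 3 1 (by decide), z 10 3 2 (by decide),
    z 10 3 4 (by decide), z 11 3 0 (by decide), z 11 3 1 (by decide), z 11 3 2 (by decide),
    z 11 3 3 (by decide), z 12 3 0 (by decide), z 12 3 1 (by decide), z 12 3 2 (by decide),
    z 12 3 3 (by decide), z 12 3 4 (by decide), d3] at r3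
  have r4 := k 4 10 11 12 h2
  rw [hr, hr, hr, z 10 4 0 (by decide), z 10 4 1 (by decide), o2, z 10 4 3 (by decide),
    z 10 4 4 (by decide), z 11 4 0 (by decide), z 11 4 1 (by decide), z 11 4 2 (by decide),
    z 11 4 4 (by decide), z 12 4 0 (by decide), z 12 4 1 (by decide), z 12 4 2 (by decide),
    z 12 4 3 (by decide), d4, s11] at r4
  have r5 := k 2 7 9 12 h3
  rw [hr, hr, hr, z 7 2 0 (by decide), z 7 2 1 (by decide), z 7 2 3 (by decide),
    z 7 2 4 (by decide), z 9 2 0 (by decide), z 9 2 1 (by decide), z 9 2 2 (by decide),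
    z 9 2 3 (by decide), z 12 2 0 (by decide), z 12 2 1 (by decide), z 12 2 2 (by decide),
    z 12 2 3 (by decide), z 12 2 4 (by decide), d2] at r5
  have r6 := k 3 7 9 12 h3
  rw [hr, hr, hr, z 7 3 0 (by decide), z 7 3 1 (by decide), z 7 3 2 (by decide),
    z 7 3 3 (by decide),
    z 7 3 4 (by decide), z 9 3 0 (by decide), z 9 3 1 (by decide), z 9 3 2 (by decide),
    z 9 3 4 (by decide), z 12 3 0 (by decide), z 12 3 1 (by decide), z 12 3 2 (by decide),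
    z 12 3 3 (by decide), z 12 3 4 (by decide)] at r6
  refine ⟨?_, ?_, ?_, ?_, ?_, ?_⟩ <;> linarith

/-- the `x` part of compatibility -/
lemma compat_x (hA : Graded N A) (f : Fin N → ℝ)
    (h1 : (A 0 - A 1 + A 2) *ᵥ f = 0) :
    nn A f 1 = nn A f 0 ∧ Bk A f 1 0 1 = nn A f 0 := by
  have z : ∀ ν i j, kw i + kw j ≠ wt ν → Bk A f ν i j = 0 := fun ν i j h => Bk_zero hA f ν i j h
  have hr : ∀ (ν : Fin 23) (i : Fin 5), (A (dg i) *ᵥ f) ⬝ᵥ (A ν *ᵥ f)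
      = Bk A f ν i 0 + Bk A f ν i 1 + Bk A f ν i 2 + Bk A f ν i 3 + Bk A f ν i 4 := by
    intro ν i; rw [row hA, Fin.sum_univ_five]
  have d0 : Bk A f 0 0 0 = nn A f 0 := Bk_diag hA f 0
  have d1 : Bk A f 2 1 1 = nn A f 1 := Bk_diag hA f 1
  have s1 : Bk A f 1 1 0 = Bk A f 1 0 1 := Bk_symm hA f 1 1 0
  have k : ∀ (i : Fin 5) (a b c : Fin 23), (A a - A b + A c) *ᵥ f = 0 →
      (A (dg i) *ᵥ f) ⬝ᵥ (A a *ᵥ f) - (A (dg i) *ᵥ f) ⬝ᵥ (A b *ᵥ f)
        + (A (dg i) *ᵥ f) ⬝ᵥ (A c *ᵥ f) = 0 := by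
    intro i a b c h
    have := congrArg (fun w => (A (dg i) *ᵥ f) ⬝ᵥ w) h
    simpa [Matrix.add_mulVec, Matrix.sub_mulVec, dotProduct_add, dotProduct_sub] using this
  have r1 := k 0 0 1 2 h1
  rw [hr, hr, hr, z 0 0 1 (by decide), z 0 0 2 (by decide), z 0 0 3 (by decide),
    z 0 0 4 (by decide), z 1 0 0 (by decide), z 1 0 2 (by decide), z 1 0 3 (by decide),
    z 1 0 4 (by decide), z 2 0 0 (by decide), z 2 0 1 (by decide), z 2 0 2 (by decide),
    z 2 0 3 (by decide), z 2 0 4 (by decide), d0] at r1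
  have r2 := k 1 0 1 2 h1
  rw [hr, hr, hr, z 0 1 0 (by decide), z 0 1 1 (by decide), z 0 1 2 (by decide),
    z 0 1 3 (by decide),
    z 0 1 4 (by decide), z 1 1 1 (by decide), z 1 1 2 (by decide), z 1 1 3 (by decide),
    z 1 1 4 (by decide), z 2 1 0 (by decide), z 2 1 2 (by decide),
    z 2 1 3 (by decide), z 2 1 4 (by decide), d1, s1] at r2
  constructor <;> linarith

/-- positivity of the pencil at `(P⁻¹, v, Γ(v)(P) + diag-free Θ = 0)` -/
lemma quad_at (hA : Graded N A) (hK : K0 ⊆ KK) (f : Fin N → ℝ) (c : Fin 5 → ℝ)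
    (p q r s P0 P1 P2 : ℝ) (h2 : 0 < P2) (hd : 0 < P0 * P2 - P1 ^ 2) :
    0 ≤ (P2 / (P0*P2-P1^2)) * (c 0 ^ 2 * nn A f 0)
    + (-P1 / (P0*P2-P1^2)) * (2 * c 0 * c 1 * Bk A f 1 0 1)
    + (P0 / (P0*P2-P1^2)) * (c 1 ^ 2 * nn A f 1)
    + p * (2 * c 0 * c 3 * Bk A f 3 0 3 + 2 * c 1 * c 2 * Bk A f 3 1 2)
    + q * (2 * c 0 * c 3 * Bk A f 4 0 3 + 2 * c 1 * c 2 * Bk A f 4 1 2)
    + r * (2 * c 0 * c 4 * Bk A f 5 0 4 + 2 * c 1 * c 3 * Bk A f 5 1 3)
    + s * (2 * c 0 * c 4 * Bk A f 6 0 4 + 2 * c 1 * c 3 * Bk A f 6 1 3)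
    + ((p^2+q^2)*P2) * (c 2 ^ 2 * nn A f 2) + (q*s*P2) * (2 * c 2 * c 3 * Bk A f 8 2 3)
    + (-(q*r*P1)) * (2 * c 2 * c 4 * Bk A f 9 2 4 + c 3 ^ 2 * Bk A f 9 3 3)
    + ((p^2+q^2)*P0 + (r^2+s^2)*P2 - 2*(p*s*P1)) * (c 3 ^ 2 * nn A f 3)
    + (-(p*r*P0)) * (2 * c 3 * c 4 * Bk A f 11 3 4)
    + ((r^2+s^2)*P0) * (c 4 ^ 2 * nn A f 4) := by
  have hm := mk_mem_K0 p q r s P0 P1 P2 h2 hd ((p^2+q^2)*P2) (q*s*P2) (-(q*r*P1))
    ((p^2+q^2)*P0 + (r^2+s^2)*P2 - 2*(p*s*P1)) (-(p*r*P0)) ((r^2+s^2)*P0) (by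
      have : (!![(p^2+q^2)*P2, q*s*P2, -(q*r*P1);
          q*s*P2, (p^2+q^2)*P0 + (r^2+s^2)*P2 - 2*(p*s*P1), -(p*r*P0);
          -(q*r*P1), -(p*r*P0), (r^2+s^2)*P0] : Matrix (Fin 3) (Fin 3) ℝ) - Gam p q r s P0 P1 P2
          = 0 := by rw [Gam, sub_self]
      rw [this]; exact Matrix.PosSemidef.zero)
  have := quad_nonneg hA (hK hm) (∑ i, c i • (A (dg i) *ᵥ f))
  rwa [quad_expand hA] at this

/-- limit trick -/
lemma lin_zero {g b c : ℝ} (h : ∀ s δ : ℝ, 0 < δ → 0 ≤ s^2 * g + 2 * s * b + δ * c) : b = 0 := by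
  by_contra hb
  have h2 : ∀ s : ℝ, 0 ≤ s^2 * g + 2 * s * b := by
    intro s
    by_contra hs
    push Not at hs
    by_cases hc : c ≤ 0
    · have := h s 1 one_pos
      nlinarith
    · push Not at hc
      have := h s (-(s^2 * g + 2 * s * b) / (2 * c)) (div_pos (by linarith) (by linarith))
      have h3 : -(s^2 * g + 2 * s * b) / (2 * c) * c = -(s^2 * g + 2 * s * b) / 2 := by
        field_simp
      rw [h3] at this
      linarith
  by_cases hg : g ≤ 0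
  · have := h2 (-b)
    nlinarith [sq_nonneg b, mul_pos_iff.mpr (lt_or_gt_of_ne hb |>.symm.imp (fun h => ⟨h, h⟩) (fun h => ⟨h, h⟩))]
  · push Not at hg
    have := h2 (-b / g)
    have h3 : (-b / g)^2 * g + 2 * (-b / g) * b = -(b^2 / g) := by
      field_simp; ring
    rw [h3] at this
    have : 0 < b^2 / g := by positivity
    linarith

/-- D5 -/
theorem a3_zero (hA : Graded N A) (hK : K0 ⊆ KK) {f : Fin N → ℝ} {g c : ℝ}
    (hc : Compat A f g c) : Bk A f 3 0 3 = 0 := by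
  have z1 : Bk A f 3 0 3 + Bk A f 5 0 4 = 0 := by
    apply lin_zero (g := g) (c := c)
    intro s δ hδ
    have := quad_at hA hK f ![s,0,0,1,1] 1 0 1 0 1 0 δ hδ (by linarith)
    simp only [hc.n0, hc.n1, hc.b1, hc.n2, hc.n3, hc.n4, hc.b8, hc.b9, hc.b9', hc.b11] at this
    have e : (1:ℝ) * δ - 0^2 = δ := by ring
    rw [e, div_self hδ.ne'] at this
    simp at this
    linarith
  have z2 : Bk A f 3 0 3 + Bk A f 6 1 3 = 0 := by
    apply lin_zero (g := g) (c := 4 * c)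
    intro s δ hδ
    have := quad_at hA hK f ![s,s,0,1,0] 1 0 0 1 (1+δ) (1-δ) (1+δ) (by linarith)
      (by nlinarith)
    simp only [hc.n0, hc.n1, hc.b1, hc.n2, hc.n3, hc.n4, hc.b8, hc.b9, hc.b9', hc.b11] at this
    have e : (1+δ) * (1+δ) - (1-δ)^2 = 4 * δ := by ring
    rw [e] at this
    have e2 : (1 + δ) / (4 * δ) * (s ^ 2 * g) + (δ - 1) / (4 * δ) * (2 * s * s * g)
      + (1 + δ) / (4 * δ) * (s ^ 2 * g) = s^2 * g := by
      field_simp; ring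
    simp at this
    linarith
  have z4 : Bk A f 4 1 2 + Bk A f 5 0 4 = 0 := by
    apply lin_zero (g := g) (c := 4 * c)
    intro s δ hδ
    have := quad_at hA hK f ![s,s,1,0,1] 0 1 1 0 (1+δ) (1-δ) (1+δ) (by linarith)
      (by nlinarith)
    simp only [hc.n0, hc.n1, hc.b1, hc.n2, hc.n3, hc.n4, hc.b8, hc.b9, hc.b9', hc.b11] at this
    have e : (1+δ) * (1+δ) - (1-δ)^2 = 4 * δ := by ring
    rw [e] at this
    have e2 : (1 + δ) / (4 * δ) * (s ^ 2 * g) + (δ - 1) / (4 * δ) * (2 * s * s * g)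
      + (1 + δ) / (4 * δ) * (s ^ 2 * g) = s^2 * g := by
      field_simp; ring
    simp at this
    linarith
  have z5 : Bk A f 4 1 2 - Bk A f 6 1 3 = 0 := by
    apply lin_zero (g := g) (c := c)
    intro s δ hδ
    have := quad_at hA hK f ![0,s,1,1,0] 0 1 0 (-1) δ 0 1 one_pos (by linarith)
    simp only [hc.n0, hc.n1, hc.b1, hc.n2, hc.n3, hc.n4, hc.b8, hc.b9, hc.b9', hc.b11] at this
    have e : δ * 1 - 0^2 = δ := by ring
    rw [e, div_self hδ.ne'] at this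
    simp at this
    linarith
  linarith

theorem b3_le (hA : Graded N A) (hK : K0 ⊆ KK) {f : Fin N → ℝ} {g c : ℝ}
    (hc : Compat A f g c) : Bk A f 3 1 2 ^ 2 ≤ g * c := by
  have key : ∀ s : ℝ, 0 ≤ s^2 * g + 2 * s * Bk A f 3 1 2 + c := by
    intro s
    have := quad_at hA hK f ![0,s,1,0,0] 1 0 0 0 1 0 1 one_pos (by norm_num)
    simp only [hc.n0, hc.n1, hc.b1, hc.n2, hc.n3, hc.n4, hc.b8, hc.b9, hc.b9', hc.b11] at this
    simp at this
    linarith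
  have := discrim_le_zero (a := g) (b := 2 * Bk A f 3 1 2) (c := c) (by
    intro x; have := key x; nlinarith)
  unfold discrim at this
  nlinarith

theorem no_compat (hA : Graded N A) (hK : K0 ⊆ KK) {f : Fin N → ℝ} {g : ℝ}
    (hc : Compat A f g 1)
    (h : g + 2 * Bk A f 3 0 3 + 2 * Bk A f 3 1 2 + 2 ≤ 0) : False := by
  have h1 := a3_zero hA hK hc
  have h2 := b3_le hA hK hc
  rw [h1] at h
  nlinarith [sq_nonneg g, sq_nonneg (g + 2 + 2 * Bk A f 3 1 2)]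

end Crest.Agent.R237.S2F
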