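import Mathlib
import Crest.Agent.R237.S2Defs

/-!
Row 237, statement S0368: non-spectrahedrality, track alpha (note 11919, sign of `b` as in
`S2Defs`).  Definitions and frozen statements.
-/

set_option autoImplicit false

namespace Crest.Agent.R237.S2

open Matrix


/-- torus weights of the coordinates -/
def wt : Fin 23 → ℕ :=
  ![22, 21, 20, 12, 12, 11, 11, 4, 3, 2, 2, 1, 0, 0, 0, 0, 0, 0, 0, 0, 0, 0, 0]

/-- the torus -/
def tor (l : ℝ) (x : Fin 23 → ℝ) : Fin 23 → ℝ := fun k => l ^ wt k * x k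

/-- weights of the five diagonal blocks `x0, x1, y0, y1, y2` -/
def om : Fin 5 → ℕ := ![11, 10, 2, 1, 0]

/-- the coordinates of the five diagonal blocks -/
def dg : Fin 5 → Fin 23 := ![0, 2, 7, 10, 12]

/-- the boundary points with `X ≻ 0` -/
def BK : Set (Fin 23 → ℝ) :=
  {z | 0 < z 0 ∧ 0 < dl z ∧ (Um z - Gz z).PosSemidef ∧ (Um z - Gz z).det = 0}

/-- pencils -/
abbrev Pencil (N : ℕ) := Fin 23 → Matrix (Fin N) (Fin N) ℝ

/-- the value of a pencil -/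
def Lx {N : ℕ} (L : Pencil N) (x : Fin 23 → ℝ) : Matrix (Fin N) (Fin N) ℝ := ∑ k, x k • L k

/-- the compact set of normalised pencils -/
def PP (N : ℕ) : Set (Pencil N) :=
  {L | (∀ k, (L k).IsSymm) ∧ Lx L e23 = 1 ∧ (∀ x ∈ KK, (Lx L x).PosSemidef) ∧
    ∀ x ∈ BK, (Lx L x).det = 0}

/-- graded pencils -/
structure Graded {N : ℕ} (L : Pencil N) : Prop where
  symm : ∀ k, (L k).IsSymm
  sum_one : ∑ i, L (dg i) = 1
  orth : ∀ i j, L (dg i) * L (dg j) = if i = j then L (dg i) else 0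
  psd : ∀ x ∈ KK, (Lx L x).PosSemidef
  bd : ∀ x ∈ BK, (Lx L x).det = 0
  grade : ∀ (k : Fin 23) (i j : Fin 5), om i + om j ≠ wt k → L (dg i) * L k * L (dg j) = 0

/-- the data extracted from the kernel vectors (node D4) -/
structure LimitData {N : ℕ} (L : Pencil N) (f : Fin 5 → Fin N → ℝ) (t : ℝ) : Prop where
  t0 : 0 ≤ t
  im : ∀ i, L (dg i) *ᵥ f i = f i
  n0 : f 0 ⬝ᵥ f 0 = t ^ 2
  n1 : f 1 ⬝ᵥ f 1 = t ^ 2
  n2 : f 2 ⬝ᵥ f 2 = 1
  n3 : f 3 ⬝ᵥ f 3 = 1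
  n4 : f 4 ⬝ᵥ f 4 = 1
  b01 : f 0 ⬝ᵥ L 1 *ᵥ f 1 = - t ^ 2
  u01 : f 2 ⬝ᵥ L 8 *ᵥ f 3 = 1
  u02 : f 2 ⬝ᵥ L 9 *ᵥ f 4 = 1
  u12 : f 3 ⬝ᵥ L 11 *ᵥ f 4 = 1
  quad : t ^ 2 + 2 * (f 0 ⬝ᵥ L 3 *ᵥ f 3) + 2 * (f 1 ⬝ᵥ L 3 *ᵥ f 2) + 2 ≤ 0

/-! ### KFACTS (helper203) : membership facts -/

/-- torus invariance (from `KK = closure K0`, or directly) -/
def Stmt_tor_KK : Prop := ∀ l : ℝ, 0 < l → ∀ x ∈ KK, tor l x ∈ KK

def Stmt_tor_BK : Prop := ∀ l : ℝ, 0 < l → ∀ x ∈ BK, tor l x ∈ BK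

def Stmt_K0_sub_KK : Prop := K0 ⊆ KK

/-- boundary points are boundary points -/
def Stmt_BK_sub : Prop := ∀ x ∈ BK, ∀ ε : ℝ, 0 < ε → x - ε • e23 ∉ KK

/-- the unit boundary of coordinate directions -/
def Stmt_e_pm : Prop := ∀ (k : Fin 23) (σ : ℝ), (σ = 1 / 2 ∨ σ = - (1 / 2)) →
  e23 + σ • Pi.single k 1 ∈ KK

/-- diagonal unit vectors are in the cone -/
def Stmt_E_mem : Prop := ∀ i : Fin 5, (Pi.single (dg i) (1 : ℝ) : Fin 23 → ℝ) ∈ KK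


/-- the first coordinate is nonnegative on the cone -/
def Stmt_coord0 : Prop := ∀ x ∈ KK, 0 ≤ x 0



/-! ### the nodes -/

/-- D1 (helper447) -/
def Stmt_D1 : Prop := ∀ (N : ℕ), 1 ≤ N → ∀ L : (Fin 23 → ℝ) →ₗ[ℝ] Matrix (Fin N) (Fin N) ℝ,
  (∀ x, (L x).IsSymm) → KK = {x | (L x).PosSemidef} → (PP N).Nonempty

/-- D2a (helper935) -/
def Stmt_D2a : Prop := ∀ N : ℕ, IsCompact (PP N)

/-- D2b (helper370) : the maximiser of `∑ ω_i tr P_i` -/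
def Stmt_D2b : Prop := ∀ (N : ℕ) (L : Pencil N), L ∈ PP N →
  (∀ L' ∈ PP N, ∑ i, (om i : ℝ) * (L' (dg i)).trace ≤ ∑ i, (om i : ℝ) * (L (dg i)).trace) →
  ∀ i j, L (dg i) * L (dg j) = if i = j then L (dg i) else 0

/-- D3 (helper333) -/
def Stmt_D3 : Prop := ∀ (N : ℕ) (L : Pencil N), L ∈ PP N →
  (∀ i j, L (dg i) * L (dg j) = if i = j then L (dg i) else 0) →
  ∀ (k : Fin 23) (i j : Fin 5), om i + om j ≠ wt k → L (dg i) * L k * L (dg j) = 0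

/-- D4 (helper808) -/
def Stmt_D4 : Prop := ∀ (N : ℕ) (L : Pencil N), Graded L →
  ∃ (f : Fin 5 → Fin N → ℝ) (t : ℝ), LimitData L f t

/-- D5 (helper73) -/
def Stmt_D5 : Prop := ∀ (N : ℕ) (L : Pencil N) (f : Fin 5 → Fin N → ℝ) (t : ℝ),
  Graded L → LimitData L f t → False

theorem e23_eq : e23 = ∑ i, Pi.single (dg i) (1 : ℝ) := by
  ext k
  rw [Finset.sum_apply, Fin.sum_univ_five]
  fin_cases k <;> simp [e23, dg, Pi.single_apply]

theorem Lx_single {N : ℕ} (L : Pencil N) (k : Fin 23) (c : ℝ) :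
    Lx L (Pi.single k c) = c • L k := by
  unfold Lx
  rw [Finset.sum_eq_single k]
  · simp
  · intro j _ hj
    simp [hj]
  · simp

theorem Lx_add {N : ℕ} (L : Pencil N) (x y : Fin 23 → ℝ) : Lx L (x + y) = Lx L x + Lx L y := by
  simp [Lx, add_smul, Finset.sum_add_distrib]

theorem Lx_smul {N : ℕ} (L : Pencil N) (c : ℝ) (x : Fin 23 → ℝ) :
    Lx L (c • x) = c • Lx L x := by
  simp [Lx, Finset.smul_sum, smul_smul]

theorem Lx_sub {N : ℕ} (L : Pencil N) (x y : Fin 23 → ℝ) : Lx L (x - y) = Lx L x - Lx L y := by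
  simp [Lx, sub_smul, Finset.sum_sub_distrib]

theorem Lx_sum {N : ℕ} {ι : Type*} (L : Pencil N) (s : Finset ι) (x : ι → Fin 23 → ℝ) :
    Lx L (∑ i ∈ s, x i) = ∑ i ∈ s, Lx L (x i) := by
  classical
  induction s using Finset.induction_on with
  | empty => simp [Lx]
  | insert a s ha ih => rw [Finset.sum_insert ha, Finset.sum_insert ha, Lx_add, ih]

theorem Lx_e23 {N : ℕ} (L : Pencil N) : Lx L e23 = ∑ i, L (dg i) := by
  rw [e23_eq, Lx_sum]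
  refine Finset.sum_congr rfl fun i _ => ?_
  rw [Lx_single, one_smul]

/-- assembly of N4 -/
theorem not_spec_of (hD1 : Stmt_D1) (hD2a : Stmt_D2a) (hD2b : Stmt_D2b) (hD3 : Stmt_D3)
    (hD4 : Stmt_D4) (hD5 : Stmt_D5) (N : ℕ) (hN : 1 ≤ N)
    (L : (Fin 23 → ℝ) →ₗ[ℝ] Matrix (Fin N) (Fin N) ℝ) (hL : ∀ x, (L x).IsSymm) :
    KK ≠ {x | (L x).PosSemidef} := by
  intro hKK
  have hne := hD1 N hN L hL hKK
  obtain ⟨L0, hL0, hmax⟩ := (hD2a N).exists_isMaxOn hne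
    (f := fun L' : Pencil N => ∑ i, (om i : ℝ) * (L' (dg i)).trace)
    (by
      refine Continuous.continuousOn ?_
      refine continuous_finsetSum _ fun i _ => continuous_const.mul ?_
      exact (continuous_apply (dg i)).matrix_trace)
  have horth := hD2b N L0 hL0 (fun L' hL' => hmax hL')
  have hgr := hD3 N L0 hL0 horth
  have hG : Graded L0 := ⟨hL0.1, by rw [← Lx_e23]; exact hL0.2.1, horth, hL0.2.2.1, hL0.2.2.2, hgr⟩
  obtain ⟨f, t, hf⟩ := hD4 N L0 hG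
  exact hD5 N L0 f t hG hf

end Crest.Agent.R237.S2
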