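import Mathlib
import Crest.Agent.R237.S2NS
import Crest.Agent.R237.Hyp1
import Crest.Agent.R237.S2Pts
import Crest.Prelude.Def_Hyperbolic
import Crest.Agent.R237.S2Defs
import Crest.Agent.R237.S2Cone
import Crest.Agent.R237.S2Bridge
import Crest.Agent.R237.S2Final3

-- ▼ part R237/S2D1
section

/-!
Row 237, statement S0368, node D1: the set of normalised pencils is nonempty (helper447).
-/

set_option autoImplicit false

namespace Crest.Agent.R237.S2

open Matrix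

theorem D1_psd_conj {n : Type*} [Fintype n] [DecidableEq n] {A : Matrix n n ℝ}
    (hA : A.PosSemidef) (C : Matrix n n ℝ) : (Cᵀ * A * C).PosSemidef := by
  have := hA.conjTranspose_mul_mul_same C
  rwa [conjTranspose_eq_transpose_of_trivial] at this

theorem D1_symm_of_psd {n : Type*} [Fintype n] {A : Matrix n n ℝ}
    (hA : A.PosSemidef) : A.IsSymm := by
  have := hA.1
  rwa [Matrix.IsHermitian, conjTranspose_eq_transpose_of_trivial] at this

/-- the projection on the kernel and the normalisation -/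
theorem D1_proj {n : Type*} [Fintype n] [DecidableEq n] {M : Matrix n n ℝ} (hM : M.PosSemidef) :
    ∃ Q C : Matrix n n ℝ, Q.IsSymm ∧ Q.PosSemidef ∧ Q * Q = Q ∧ M * Q = 0 ∧
      Cᵀ * (M + Q) * C = 1 := by
  obtain ⟨U, d, hUU, hMU, hh, hd⟩ := Hyp.spec (D1_symm_of_psd hM)
  have hd0 : ∀ i, 0 ≤ d i := by
    intro i; rw [hd]; exact hM.eigenvalues_nonneg i
  set q : n → ℝ := fun i => if d i = 0 then 1 else 0 with hq
  have hq0 : ∀ i, 0 ≤ q i := by
    intro i; rw [hq]; dsimp only; split_ifs <;> norm_num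
  have hqq : ∀ i, q i * q i = q i := by
    intro i; rw [hq]; dsimp only; split_ifs <;> norm_num
  have hdq : ∀ i, d i * q i = 0 := by
    intro i; rw [hq]; dsimp only; split_ifs with h
    · rw [h, zero_mul]
    · rw [mul_zero]
  have hpos : ∀ i, 0 < d i + q i := by
    intro i
    by_cases h : d i = 0
    · have : q i = 1 := by rw [hq]; dsimp only; rw [if_pos h]
      rw [h, this]; norm_num
    · exact add_pos_of_pos_of_nonneg (lt_of_le_of_ne (hd0 i) (Ne.symm h)) (hq0 i)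
  set S : Matrix n n ℝ := diagonal (fun i => (Real.sqrt (d i + q i))⁻¹) with hS
  have hST : Sᵀ = S := by rw [hS, diagonal_transpose]
  have hSS : S * diagonal (fun i => d i + q i) * S = 1 := by
    rw [hS, diagonal_mul_diagonal, diagonal_mul_diagonal, ← diagonal_one]
    congr 1; funext i
    have h1 : Real.sqrt (d i + q i) ≠ 0 := (Real.sqrt_pos.mpr (hpos i)).ne'
    have h2 : Real.sqrt (d i + q i) * Real.sqrt (d i + q i) = d i + q i :=
      Real.mul_self_sqrt (hpos i).le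
    field_simp
    nlinarith
  refine ⟨U * diagonal q * Uᵀ, U * S, ?_, ?_, ?_, ?_, ?_⟩
  · rw [Matrix.IsSymm]
    simp only [transpose_mul, transpose_transpose, diagonal_transpose, Matrix.mul_assoc]
  · have h := D1_psd_conj (Matrix.PosSemidef.diagonal (n := n) (d := q) (fun i => hq0 i)) Uᵀ
    rwa [transpose_transpose] at h
  · calc U * diagonal q * Uᵀ * (U * diagonal q * Uᵀ)
        = U * diagonal q * (Uᵀ * U) * diagonal q * Uᵀ := by simp only [Matrix.mul_assoc]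
      _ = U * (diagonal q * diagonal q) * Uᵀ := by
          rw [hUU, Matrix.mul_one]; simp only [Matrix.mul_assoc]
      _ = U * diagonal q * Uᵀ := by
          rw [diagonal_mul_diagonal]; simp only [hqq]
  · calc M * (U * diagonal q * Uᵀ)
        = U * diagonal d * (Uᵀ * U) * diagonal q * Uᵀ := by
          conv_lhs => rw [hMU]
          simp only [Matrix.mul_assoc]
      _ = U * (diagonal d * diagonal q) * Uᵀ := by
          rw [hUU, Matrix.mul_one]; simp only [Matrix.mul_assoc]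
      _ = 0 := by
          rw [diagonal_mul_diagonal]; simp only [hdq]
          rw [diagonal_zero, Matrix.mul_zero, Matrix.zero_mul]
  · have h1 : M + U * diagonal q * Uᵀ = U * diagonal (fun i => d i + q i) * Uᵀ := by
      have h2 : diagonal (fun i => d i + q i) = diagonal d + diagonal q := by
        rw [diagonal_add]
      rw [h2, Matrix.mul_add, Matrix.add_mul, ← hMU]
    rw [h1, transpose_mul, hST]
    calc S * Uᵀ * (U * diagonal (fun i => d i + q i) * Uᵀ) * (U * S)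
        = S * (Uᵀ * U) * diagonal (fun i => d i + q i) * (Uᵀ * U) * S := by
          simp only [Matrix.mul_assoc]
      _ = 1 := by rw [hUU, Matrix.mul_one, Matrix.mul_one, hSS]

/-- a nonsingular positive semidefinite matrix dominates a multiple of the identity -/
theorem D1_eps {n : Type*} [Fintype n] [DecidableEq n] {A : Matrix n n ℝ} (hA : A.PosSemidef)
    (hdet : A.det ≠ 0) : ∃ ε : ℝ, 0 < ε ∧ (A - ε • (1 : Matrix n n ℝ)).PosSemidef := by
  obtain ⟨U, d, hUU, hAU, hh, hd⟩ := Hyp.spec (D1_symm_of_psd hA)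
  have hd0 : ∀ i, 0 ≤ d i := by
    intro i; rw [hd]; exact hA.eigenvalues_nonneg i
  have hprod : A.det = ∏ i, d i := by
    have := hh.det_eq_prod_eigenvalues
    rw [hd]; simpa using this
  have hdpos : ∀ i, 0 < d i := by
    intro i
    refine lt_of_le_of_ne (hd0 i) ?_
    intro h
    exact hdet (by rw [hprod]; exact Finset.prod_eq_zero (Finset.mem_univ i) h.symm)
  have hsum : 0 ≤ ∑ i, (d i)⁻¹ := Finset.sum_nonneg fun i _ => (inv_pos.2 (hdpos i)).le
  have hε : 0 < (∑ i, (d i)⁻¹ + 1)⁻¹ := inv_pos.2 (by linarith)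
  refine ⟨(∑ i, (d i)⁻¹ + 1)⁻¹, hε, ?_⟩
  have hle : ∀ i, 0 ≤ d i - (∑ i, (d i)⁻¹ + 1)⁻¹ := by
    intro i
    have h1 : (d i)⁻¹ ≤ ∑ i, (d i)⁻¹ :=
      Finset.single_le_sum (f := fun i => (d i)⁻¹) (fun j _ => (inv_pos.2 (hdpos j)).le)
        (Finset.mem_univ i)
    have h2 : (∑ i, (d i)⁻¹ + 1)⁻¹ ≤ ((d i)⁻¹)⁻¹ :=
      inv_anti₀ (inv_pos.2 (hdpos i)) (by linarith)
    rw [inv_inv] at h2
    linarith
  have hUU' : U * Uᵀ = 1 := mul_eq_one_comm.1 hUU
  have hkey : A - (∑ i, (d i)⁻¹ + 1)⁻¹ • (1 : Matrix n n ℝ)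
      = U * diagonal (fun i => d i - (∑ i, (d i)⁻¹ + 1)⁻¹) * Uᵀ := by
    have h2 : diagonal (fun i => d i - (∑ i, (d i)⁻¹ + 1)⁻¹)
        = diagonal d - (∑ i, (d i)⁻¹ + 1)⁻¹ • (1 : Matrix n n ℝ) := by
      ext i j
      by_cases h : i = j
      · subst h; simp
      · simp [h]
    rw [h2, Matrix.mul_sub, Matrix.sub_mul, ← hAU, Matrix.mul_smul, Matrix.mul_one,
      Matrix.smul_mul, hUU']
  rw [hkey]
  have h := D1_psd_conj (Matrix.PosSemidef.diagonal (n := n)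
    (d := fun i => d i - (∑ i, (d i)⁻¹ + 1)⁻¹) (fun i => hle i)) Uᵀ
  rwa [transpose_transpose] at h

/-- kernel vectors of `L e` are killed by `L x` -/
theorem D1_ker {n : Type*} [Fintype n] [DecidableEq n] {M A : Matrix n n ℝ}
    (h1 : (M + (1 / 2 : ℝ) • A).PosSemidef) (h2 : (M + (-(1 / 2) : ℝ) • A).PosSemidef)
    {v : n → ℝ} (hv : M *ᵥ v = 0) : A *ᵥ v = 0 := by
  have e1 : (M + (1 / 2 : ℝ) • A) *ᵥ v = (1 / 2 : ℝ) • (A *ᵥ v) := by
    rw [Matrix.add_mulVec, hv, zero_add, Matrix.smul_mulVec]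
  have e2 : (M + (-(1 / 2) : ℝ) • A) *ᵥ v = (-(1 / 2) : ℝ) • (A *ᵥ v) := by
    rw [Matrix.add_mulVec, hv, zero_add, Matrix.smul_mulVec]
  have p1 := h1.dotProduct_mulVec_nonneg v
  have p2 := h2.dotProduct_mulVec_nonneg v
  rw [e1, dotProduct_smul, smul_eq_mul] at p1
  rw [e2, dotProduct_smul, smul_eq_mul] at p2
  have h0 : star v ⬝ᵥ A *ᵥ v = 0 := by linarith
  have h3 : star v ⬝ᵥ (M + (1 / 2 : ℝ) • A) *ᵥ v = 0 := by
    rw [e1, dotProduct_smul, h0, smul_zero]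
  have h4 := (h1.dotProduct_mulVec_zero_iff v).1 h3
  rw [e1] at h4
  have h5 : (2 : ℝ) • ((1 / 2 : ℝ) • (A *ᵥ v)) = 0 := by rw [h4, smul_zero]
  rwa [smul_smul, show (2 : ℝ) * (1 / 2) = 1 by norm_num, one_smul] at h5

theorem D1 (h1 : Stmt_e_pm) (h2 : Stmt_BK_sub) (h3 : Stmt_coord0) (h4 : Stmt_K0_sub_KK) :
    Stmt_D1 := by
  intro N _ L hsymm hKK
  have hmem : ∀ x, x ∈ KK ↔ (L x).PosSemidef := fun x => by rw [hKK]; rfl
  -- `L e` is psd
  have hMpm : ∀ (k : Fin 23) (σ : ℝ), (σ = 1 / 2 ∨ σ = -(1 / 2)) →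
      (L e23 + σ • L (Pi.single k 1)).PosSemidef := by
    intro k σ hσ
    have := (hmem _).1 (h1 k σ hσ)
    rwa [map_add, map_smul] at this
  have hM : (L e23).PosSemidef := by
    have a := hMpm 0 (1 / 2) (Or.inl rfl)
    have b := hMpm 0 (-(1 / 2)) (Or.inr rfl)
    have c := (a.add b).smul (show (0 : ℝ) ≤ 1 / 2 by norm_num)
    have e : (1 / 2 : ℝ) • (L e23 + (1 / 2 : ℝ) • L (Pi.single 0 1)
        + (L e23 + (-(1 / 2) : ℝ) • L (Pi.single 0 1))) = L e23 := by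
      ext i j
      simp only [Matrix.smul_apply, Matrix.add_apply, smul_eq_mul]
      ring
    rwa [e] at c
  obtain ⟨Q, C, hQs, hQp, hQQ, hMQ, hC⟩ := D1_proj hM
  -- `L x` kills the image of `Q`
  have hLkQ : ∀ k, L (Pi.single k 1) * Q = 0 := by
    intro k
    ext i j
    have hv : L e23 *ᵥ (fun i => Q i j) = 0 := by
      funext i
      have := congrFun (congrFun hMQ i) j
      simpa [Matrix.mul_apply, Matrix.mulVec, dotProduct] using this
    have := congrFun (D1_ker (hMpm k _ (Or.inl rfl)) (hMpm k _ (Or.inr rfl)) hv) i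
    simpa [Matrix.mul_apply, Matrix.mulVec, dotProduct] using this
  have hLsum : ∀ x, L x = ∑ k, x k • L (Pi.single k 1) := by
    intro x
    conv_lhs => rw [pi_eq_sum_univ' x]
    rw [map_sum]
    refine Finset.sum_congr rfl fun k _ => ?_
    rw [map_smul]
  have hLQ : ∀ x, L x * Q = 0 := by
    intro x
    rw [hLsum, Finset.sum_mul]
    refine Finset.sum_eq_zero fun k _ => ?_
    rw [Matrix.smul_mul, hLkQ, smul_zero]
  have hQL : ∀ x, Q * L x = 0 := by
    intro x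
    have := congrArg Matrix.transpose (hLQ x)
    rwa [transpose_mul, hQs.eq, (hsymm x).eq, transpose_zero] at this
  -- the new pencil
  set L' : Pencil N := fun k =>
    Cᵀ * (L (Pi.single k 1) + (Pi.single k (1 : ℝ) : Fin 23 → ℝ) 0 • Q) * C with hL'
  have hLx : ∀ x, Lx L' x = Cᵀ * (L x + x 0 • Q) * C := by
    intro x
    have e1 : L x + x 0 • Q
        = ∑ k, x k • (L (Pi.single k 1) + (Pi.single k (1 : ℝ) : Fin 23 → ℝ) 0 • Q) := by
      simp only [smul_add, Finset.sum_add_distrib]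
      rw [← hLsum]
      congr 1
      rw [Finset.sum_eq_single (0 : Fin 23)]
      · simp
      · intro k _ hk
        simp [Ne.symm hk]
      · simp
    rw [e1, Finset.mul_sum, Finset.sum_mul]
    unfold Lx
    refine Finset.sum_congr rfl fun k _ => ?_
    rw [hL', Matrix.mul_smul, Matrix.smul_mul]
  have hQx : ∀ x, (L x + x 0 • Q).IsSymm := by
    intro x
    exact (hsymm x).add (hQs.smul _)
  have hCdet : IsUnit C.det := by
    have h5 : (Cᵀ * (L e23 + Q)) * C = 1 := hC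
    have h6 := congrArg Matrix.det h5
    rw [det_mul, det_one] at h6
    exact IsUnit.of_mul_eq_one_right _ h6
  refine ⟨L', ?_, ?_, ?_, ?_⟩
  · intro k
    have h5 : Lx L' (Pi.single k 1) = L' k := by rw [Lx_single, one_smul]
    rw [← h5, hLx, Matrix.IsSymm]
    simp only [transpose_mul, transpose_transpose, (hQx _).eq, Matrix.mul_assoc]
  · rw [hLx, show e23 0 = (1 : ℝ) from rfl, one_smul]
    exact hC
  · intro x hx
    rw [hLx]
    exact D1_psd_conj (((hmem x).1 hx).add (hQp.smul (h3 x hx))) C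
  · intro x hx
    by_contra hne
    have hxK0 : x ∈ K0 := ⟨hx.1, hx.2.1, hx.2.2.1⟩
    have hxKK : x ∈ KK := h4 hxK0
    have hpsd : (Lx L' x).PosSemidef := by
      rw [hLx]
      exact D1_psd_conj (((hmem x).1 hxKK).add (hQp.smul (h3 x hxKK))) C
    obtain ⟨ε, hε, hε2⟩ := D1_eps hpsd hne
    -- `L (x - ε e)` is psd
    have e1 : Lx L' x - ε • (1 : Matrix (Fin N) (Fin N) ℝ)
        = Cᵀ * (L (x - ε • e23) + (x - ε • e23) 0 • Q) * C := by
      have e2 : Lx L' (x - ε • e23) = Lx L' x - ε • (1 : Matrix (Fin N) (Fin N) ℝ) := by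
        rw [Lx_sub, Lx_smul]
        congr 2
        rw [hLx, show e23 0 = (1 : ℝ) from rfl, one_smul]
        exact hC
      rw [← e2, hLx]
    rw [e1] at hε2
    have e3 := D1_psd_conj hε2 (C⁻¹ * (1 - Q))
    have e4 : (C⁻¹ * (1 - Q))ᵀ * (Cᵀ * (L (x - ε • e23) + (x - ε • e23) 0 • Q) * C)
        * (C⁻¹ * (1 - Q)) = L (x - ε • e23) := by
      have hCC : C * C⁻¹ = 1 := Matrix.mul_nonsing_inv C hCdet
      have hCC' : (C⁻¹)ᵀ * Cᵀ = 1 := by rw [← transpose_mul, hCC, transpose_one]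
      have h1Q : (1 - Q)ᵀ = 1 - Q := by rw [transpose_sub, transpose_one, hQs.eq]
      calc (C⁻¹ * (1 - Q))ᵀ * (Cᵀ * (L (x - ε • e23) + (x - ε • e23) 0 • Q) * C)
        * (C⁻¹ * (1 - Q))
          = (1 - Q) * ((C⁻¹)ᵀ * Cᵀ) * (L (x - ε • e23) + (x - ε • e23) 0 • Q)
            * (C * C⁻¹) * (1 - Q) := by
            rw [transpose_mul, h1Q]; simp only [Matrix.mul_assoc]
        _ = (1 - Q) * (L (x - ε • e23) + (x - ε • e23) 0 • Q) * (1 - Q) := by
            rw [hCC, hCC', Matrix.mul_one, Matrix.mul_one]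
        _ = L (x - ε • e23) := by
            have e5 : (1 - Q) * L (x - ε • e23) = L (x - ε • e23) := by
              rw [Matrix.sub_mul, hQL, Matrix.one_mul, sub_zero]
            have e6 : (1 - Q) * Q = 0 := by
              rw [Matrix.sub_mul, hQQ, Matrix.one_mul, sub_self]
            have e7 : L (x - ε • e23) * (1 - Q) = L (x - ε • e23) := by
              rw [Matrix.mul_sub, hLQ, Matrix.mul_one, sub_zero]
            rw [Matrix.mul_add, e5, Matrix.mul_smul, e6, smul_zero, add_zero, e7]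
    rw [e4] at e3
    exact h2 x hx ε hε ((hmem _).2 e3)

end Crest.Agent.R237.S2
end

-- ▼ part R237/S2D2a
section

/-!
Row 237, statement S0368, node D2a: the set of normalised pencils is compact.
-/

set_option autoImplicit false

namespace Crest.Agent.R237.S2

open Matrix

theorem cont_Lx {N : ℕ} (x : Fin 23 → ℝ) : Continuous fun L : Pencil N => Lx L x := by
  unfold Lx
  exact continuous_finsetSum _ fun k _ => (continuous_apply k).const_smul (x k)

theorem closed_psd {N : ℕ} : IsClosed {M : Matrix (Fin N) (Fin N) ℝ | M.PosSemidef} := by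
  have h : {M : Matrix (Fin N) (Fin N) ℝ | M.PosSemidef} =
      {M | Mᵀ = M} ∩ ⋂ v : Fin N → ℝ, {M | 0 ≤ v ⬝ᵥ M *ᵥ v} := by
    ext M
    simp only [Set.mem_ofPred_eq, Set.mem_inter_iff, Set.mem_iInter]
    constructor
    · intro hM
      refine ⟨?_, fun v => ?_⟩
      · have := hM.isHermitian
        rwa [Matrix.IsHermitian, Matrix.conjTranspose_eq_transpose_of_trivial] at this
      · have := hM.dotProduct_mulVec_nonneg v
        simpa using this
    · rintro ⟨h1, h2⟩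
      refine Matrix.PosSemidef.of_dotProduct_mulVec_nonneg ?_ fun v => ?_
      · rw [Matrix.IsHermitian, Matrix.conjTranspose_eq_transpose_of_trivial]; exact h1
      · simpa using h2 v
  rw [h]
  refine IsClosed.inter (isClosed_eq (by fun_prop) continuous_id) (isClosed_iInter fun v => ?_)
  refine isClosed_le continuous_const ?_
  exact continuous_const.dotProduct (Continuous.matrix_mulVec continuous_id continuous_const)

theorem PP_closed (N : ℕ) : IsClosed (PP N) := by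
  have h : PP N = {L | ∀ k, (L k)ᵀ = L k} ∩ {L | Lx L e23 = 1} ∩
      (⋂ x ∈ KK, {L : Pencil N | (Lx L x).PosSemidef}) ∩
      (⋂ x ∈ BK, {L : Pencil N | (Lx L x).det = 0}) := by
    ext L
    simp only [PP, Set.mem_ofPred_eq, Set.mem_inter_iff, Set.mem_iInter, Matrix.IsSymm]
    tauto
  rw [h]
  refine IsClosed.inter (IsClosed.inter (IsClosed.inter ?_ ?_) ?_) ?_
  · have : {L : Pencil N | ∀ k, (L k)ᵀ = L k} = ⋂ k, {L : Pencil N | (L k)ᵀ = L k} := by
      ext L; simp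
    rw [this]
    refine isClosed_iInter fun k => isClosed_eq ?_ (continuous_apply k)
    exact (continuous_apply k).matrix_transpose
  · exact isClosed_eq (cont_Lx _) continuous_const
  · exact isClosed_biInter fun x _ => closed_psd.preimage (cont_Lx x)
  · exact isClosed_biInter fun x _ => isClosed_eq (cont_Lx x).matrix_det continuous_const

/-- entries of a symmetric matrix with `-2 ≤ A ≤ 2` -/
theorem entry_bound {N : ℕ} {A : Matrix (Fin N) (Fin N) ℝ} (hA : A.IsSymm)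
    (h1 : ∀ v : Fin N → ℝ, 0 ≤ v ⬝ᵥ v + 1 / 2 * (v ⬝ᵥ A *ᵥ v))
    (h2 : ∀ v : Fin N → ℝ, 0 ≤ v ⬝ᵥ v - 1 / 2 * (v ⬝ᵥ A *ᵥ v)) (i j : Fin N) :
    |A i j| ≤ 4 := by
  have hd : ∀ a b : Fin N, (Pi.single a (1:ℝ) : Fin N → ℝ) ⬝ᵥ A *ᵥ Pi.single b 1 = A a b := by
    intro a b
    simp [Matrix.col_apply]
  have hs : A j i = A i j := by
    have := congrFun (congrFun hA i) j
    simpa using this
  have hn : ∀ a b : Fin N, (Pi.single a (1:ℝ) : Fin N → ℝ) ⬝ᵥ Pi.single b 1 =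
      if a = b then 1 else 0 := by
    intro a b
    by_cases h : a = b
    · subst h; simp
    · simp [h]
  have e := fun s : ℝ => h1 (Pi.single i 1 + s • Pi.single j 1)
  have e' := fun s : ℝ => h2 (Pi.single i 1 + s • Pi.single j 1)
  simp only [mulVec_add, mulVec_smul, add_dotProduct, dotProduct_add, smul_dotProduct,
    dotProduct_smul, hd, hn, smul_eq_mul, hs, if_true, eq_comm (a := j) (b := i)] at e e'
  have ei := h1 (Pi.single i 1)
  have ei' := h2 (Pi.single i 1)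
  have ej := h1 (Pi.single j 1)
  have ej' := h2 (Pi.single j 1)
  simp only [hd, hn, if_true] at ei ei' ej ej'
  have a1 := e 1
  have a2 := e (-1)
  have b1 := e' 1
  have b2 := e' (-1)
  rw [abs_le]
  by_cases h : i = j
  · subst h
    constructor <;> linarith
  · simp only [if_neg h] at a1 a2 b1 b2
    constructor <;> linarith

theorem D2a (hpm : Stmt_e_pm) : Stmt_D2a := by
  intro N
  refine (isCompact_univ_pi (X := fun _ : Fin 23 => Matrix (Fin N) (Fin N) ℝ)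
    (s := fun _ => Set.pi Set.univ fun _ : Fin N => Set.pi Set.univ fun _ : Fin N =>
      Set.Icc (-4 : ℝ) 4)
    (fun _ => isCompact_univ_pi fun _ => isCompact_univ_pi fun _ => isCompact_Icc)).of_isClosed_subset
    (PP_closed N) ?_
  intro L hL k _ i _ j _
  obtain ⟨hsymm, he, hpsd, -⟩ := hL
  have key := entry_bound (hsymm k) ?_ ?_ i j
  · exact abs_le.1 key
  · intro v
    have h := hpsd _ (hpm k (1/2) (Or.inl rfl))
    rw [Lx_add, Lx_smul, Lx_single, he, one_smul] at h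
    have h2 := h.dotProduct_mulVec_nonneg v
    simpa [add_mulVec, smul_mulVec, dotProduct_add, dotProduct_smul] using h2
  · intro v
    have h := hpsd _ (hpm k (-(1/2)) (Or.inr rfl))
    rw [Lx_add, Lx_smul, Lx_single, he, one_smul] at h
    have h2 := h.dotProduct_mulVec_nonneg v
    simp only [star_trivial, add_mulVec, one_mulVec, smul_mulVec, dotProduct_add,
      dotProduct_smul, smul_eq_mul] at h2
    linarith

end Crest.Agent.R237.S2
end

-- ▼ part R237/S2D3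
section

/-!
Row 237, S0368, node D3: grading of a normalised pencil by the torus weights.
-/

set_option autoImplicit false

namespace Crest.Agent.R237.S2

open Matrix

/-- elementary: a number bounded by `C / t` for all `t ≥ 1` vanishes. -/
theorem eq_zero_of_bdd {c C : ℝ} (h : ∀ t : ℝ, 1 ≤ t → |t * c| ≤ C) : c = 0 := by
  by_contra hc
  have hc' : 0 < |c| := abs_pos.mpr hc
  have h1 := h (max 1 ((C + 1) / |c|)) (le_max_left _ _)
  rw [abs_mul, abs_of_nonneg (le_trans zero_le_one (le_max_left _ _))] at h1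
  have h2 : (C + 1) / |c| * |c| ≤ max 1 ((C + 1) / |c|) * |c| :=
    mul_le_mul_of_nonneg_right (le_max_right _ _) hc'.le
  rw [div_mul_cancel₀ _ hc'.ne'] at h2
  linarith

variable {ι n : Type*} [Fintype ι] [DecidableEq ι] [Fintype n] [DecidableEq n]

/-- quadratic form bound, one value of the torus parameter -/
theorem grading_one (om : ι → ℕ) (P : ι → Matrix n n ℝ) (A : Matrix n n ℝ) (w : ℕ)
    (hPP : ∀ i j, i ≠ j → P i * P j = 0) (hP2 : ∀ i, P i * P i = P i)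
    (hPs : ∀ i, (P i)ᵀ = P i) (hA : Aᵀ = A) (l : ℝ) (hl : 0 < l)
    (hp : (∑ i, l ^ (2 * om i) • P i + l ^ w • A).PosSemidef)
    (hm : (∑ i, l ^ (2 * om i) • P i - l ^ w • A).PosSemidef)
    (i j : ι) (f g : n → ℝ) (hf : P i *ᵥ f = f) (hg : P j *ᵥ g = g) :
    |(l ^ w / l ^ (om i + om j)) * (f ⬝ᵥ (A *ᵥ g))| ≤ (f ⬝ᵥ f + g ⬝ᵥ g) / 2 := by
  set M : Matrix n n ℝ := ∑ i, l ^ (2 * om i) • P i with hM
  have hMf : ∀ (k : ι) (h : n → ℝ), P k *ᵥ h = h → M *ᵥ h = l ^ (2 * om k) • h := by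
    intro k h hh
    rw [hM, Matrix.sum_mulVec, Finset.sum_eq_single k]
    · rw [Matrix.smul_mulVec, hh]
    · intro b _ hb
      rw [Matrix.smul_mulVec, ← hh, Matrix.mulVec_mulVec, hPP b k hb, Matrix.zero_mulVec, smul_zero]
    · intro h'; exact absurd (Finset.mem_univ _) h'
  have hMs : Mᵀ = M := by
    rw [hM, Matrix.transpose_sum]
    exact Finset.sum_congr rfl fun k _ => by rw [Matrix.transpose_smul, hPs]
  -- positivity in elementary form
  have pos1 : ∀ h : n → ℝ, 0 ≤ h ⬝ᵥ (M *ᵥ h) + l ^ w * (h ⬝ᵥ (A *ᵥ h)) := by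
    intro h
    have := hp.dotProduct_mulVec_nonneg h
    simpa [Matrix.add_mulVec, Matrix.smul_mulVec, dotProduct_add, dotProduct_smul] using this
  have pos2 : ∀ h : n → ℝ, 0 ≤ h ⬝ᵥ (M *ᵥ h) - l ^ w * (h ⬝ᵥ (A *ᵥ h)) := by
    intro h
    have := hm.dotProduct_mulVec_nonneg h
    simpa [Matrix.sub_mulVec, Matrix.smul_mulVec, dotProduct_sub, dotProduct_smul] using this
  set a : ℝ := (l ^ om i)⁻¹ with ha
  set b : ℝ := (l ^ om j)⁻¹ with hb
  have hsymA : g ⬝ᵥ (A *ᵥ f) = f ⬝ᵥ (A *ᵥ g) := by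
    rw [dotProduct_mulVec, ← mulVec_transpose, hA, dotProduct_comm]
  have hsymM : g ⬝ᵥ (M *ᵥ f) = f ⬝ᵥ (M *ᵥ g) := by
    rw [dotProduct_mulVec, ← mulVec_transpose, hMs, dotProduct_comm]
  have hff : f ⬝ᵥ (M *ᵥ f) = l ^ (2 * om i) * (f ⬝ᵥ f) := by
    rw [hMf i f hf, dotProduct_smul, smul_eq_mul]
  have hgg : g ⬝ᵥ (M *ᵥ g) = l ^ (2 * om j) * (g ⬝ᵥ g) := by
    rw [hMf j g hg, dotProduct_smul, smul_eq_mul]
  have e1 : ∀ s : ℝ, ∀ T : Matrix n n ℝ, (a • f + s • b • g) ⬝ᵥ (T *ᵥ (a • f + s • b • g))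
      = a ^ 2 * (f ⬝ᵥ (T *ᵥ f)) + s * a * b * (f ⬝ᵥ (T *ᵥ g)) + s * a * b * (g ⬝ᵥ (T *ᵥ f))
        + s ^ 2 * b ^ 2 * (g ⬝ᵥ (T *ᵥ g)) := by
    intro s T
    simp only [Matrix.mulVec_add, Matrix.mulVec_smul, dotProduct_add, add_dotProduct,
      dotProduct_smul, smul_dotProduct, smul_eq_mul]
    ring
  have ha2 : a ^ 2 * l ^ (2 * om i) = 1 := by
    rw [ha, mul_comm 2, pow_mul, ← mul_pow, inv_mul_cancel₀ (pow_pos hl _).ne', one_pow]
  have hb2 : b ^ 2 * l ^ (2 * om j) = 1 := by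
    rw [hb, mul_comm 2, pow_mul, ← mul_pow, inv_mul_cancel₀ (pow_pos hl _).ne', one_pow]
  have key : l ^ w / l ^ (om i + om j) = l ^ w * a * b := by
    rw [pow_add, ha, hb]; field_simp
  rw [key]
  have q1 := pos1 (a • f + (1:ℝ) • b • g)
  have q2 := pos2 (a • f + (-1:ℝ) • b • g)
  have q3 := pos2 (a • f + (1:ℝ) • b • g)
  have q4 := pos1 (a • f + (-1:ℝ) • b • g)
  rw [e1, e1, hff, hgg, hsymA, hsymM] at q1 q2 q3 q4
  set X := f ⬝ᵥ (A *ᵥ g)
  set Y := f ⬝ᵥ (M *ᵥ g)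
  set F := f ⬝ᵥ f
  set G := g ⬝ᵥ g
  set FA := f ⬝ᵥ (A *ᵥ f)
  set GA := g ⬝ᵥ (A *ᵥ g)
  have hF : a ^ 2 * (l ^ (2 * om i) * F) = F := by rw [← mul_assoc, ha2, one_mul]
  have hG : b ^ 2 * (l ^ (2 * om j) * G) = G := by rw [← mul_assoc, hb2, one_mul]
  rw [abs_le]
  constructor
  · nlinarith [q1, q2, hF, hG]
  · nlinarith [q3, q4, hF, hG]

/-- **Grading.** -/
theorem grading_vec (om : ι → ℕ) (P : ι → Matrix n n ℝ) (A : Matrix n n ℝ) (w : ℕ)
    (hPP : ∀ i j, i ≠ j → P i * P j = 0) (hP2 : ∀ i, P i * P i = P i)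
    (hPs : ∀ i, (P i)ᵀ = P i) (hA : Aᵀ = A)
    (hp : ∀ l : ℝ, 0 < l → (∑ i, l ^ (2 * om i) • P i + l ^ w • A).PosSemidef)
    (hm : ∀ l : ℝ, 0 < l → (∑ i, l ^ (2 * om i) • P i - l ^ w • A).PosSemidef)
    {i j : ι} (hij : w ≠ om i + om j) {f g : n → ℝ} (hf : P i *ᵥ f = f) (hg : P j *ᵥ g = g) :
    f ⬝ᵥ (A *ᵥ g) = 0 := by
  have base := fun l hl => grading_one om P A w hPP hP2 hPs hA l hl (hp l hl) (hm l hl) i j f g hf hg
  refine eq_zero_of_bdd (C := (f ⬝ᵥ f + g ⬝ᵥ g) / 2) fun t ht => ?_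
  have ht0 : 0 < t := lt_of_lt_of_le one_pos ht
  rcases lt_or_gt_of_ne hij with h | h
  · have h1 := base t⁻¹ (inv_pos.mpr ht0)
    obtain ⟨d, hd⟩ := Nat.exists_eq_add_of_lt h
    have h2 : (t⁻¹) ^ w / (t⁻¹) ^ (om i + om j) = t * t ^ d := by
      rw [hd, pow_add, pow_add, pow_one, inv_pow, inv_pow]; field_simp
    rw [h2] at h1
    refine le_trans ?_ h1
    rw [abs_mul, abs_mul]
    refine mul_le_mul_of_nonneg_right ?_ (abs_nonneg _)
    rw [abs_of_pos ht0, abs_of_pos (by positivity)]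
    exact le_mul_of_one_le_right ht0.le (one_le_pow₀ ht)
  · have h1 := base t ht0
    obtain ⟨d, hd⟩ := Nat.exists_eq_add_of_lt h
    have h2 : t ^ w / t ^ (om i + om j) = t * t ^ d := by
      rw [hd]; field_simp; ring
    rw [h2] at h1
    refine le_trans ?_ h1
    rw [abs_mul, abs_mul]
    refine mul_le_mul_of_nonneg_right ?_ (abs_nonneg _)
    rw [abs_of_pos ht0, abs_of_pos (by positivity)]
    exact le_mul_of_one_le_right ht0.le (one_le_pow₀ ht)

theorem grading_mat (om : ι → ℕ) (P : ι → Matrix n n ℝ) (A : Matrix n n ℝ) (w : ℕ)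
    (hPP : ∀ i j, i ≠ j → P i * P j = 0) (hP2 : ∀ i, P i * P i = P i)
    (hPs : ∀ i, (P i)ᵀ = P i) (hA : Aᵀ = A)
    (hp : ∀ l : ℝ, 0 < l → (∑ i, l ^ (2 * om i) • P i + l ^ w • A).PosSemidef)
    (hm : ∀ l : ℝ, 0 < l → (∑ i, l ^ (2 * om i) • P i - l ^ w • A).PosSemidef)
    {i j : ι} (hij : w ≠ om i + om j) :
    P i * A * P j = 0 := by
  ext a b
  have h := grading_vec om P A w hPP hP2 hPs hA hp hm hij
    (f := P i *ᵥ Pi.single a 1) (g := P j *ᵥ Pi.single b 1)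
    (by rw [Matrix.mulVec_mulVec, hP2]) (by rw [Matrix.mulVec_mulVec, hP2])
  have e : (P i *ᵥ Pi.single a (1:ℝ)) ⬝ᵥ (A *ᵥ (P j *ᵥ Pi.single b 1)) = (P i * A * P j) a b := by
    rw [← hPs i, Matrix.mulVec_transpose, ← dotProduct_mulVec, Matrix.mulVec_mulVec,
      Matrix.mulVec_mulVec, hPs i, single_one_dotProduct, Matrix.mulVec_single_one, ]
    simp [Matrix.col, Matrix.mul_assoc]
  rw [← e, h]; rfl


/-! ### the concrete statement -/

theorem tor_add (l : ℝ) (x y : Fin 23 → ℝ) : tor l (x + y) = tor l x + tor l y := by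
  ext k; simp [tor, mul_add]

theorem tor_smul (l c : ℝ) (x : Fin 23 → ℝ) : tor l (c • x) = c • tor l x := by
  ext k; simp only [tor, Pi.smul_apply, smul_eq_mul]; ring

theorem tor_single (l : ℝ) (k : Fin 23) (c : ℝ) :
    tor l (Pi.single k c) = Pi.single k (l ^ wt k * c) := by
  ext j
  by_cases h : j = k
  · subst h; simp [tor]
  · simp [tor, h]

theorem wt_dg (i : Fin 5) : wt (dg i) = 2 * om i := by
  revert i; decide

theorem tor_e23 (l : ℝ) : tor l e23 = ∑ i, Pi.single (dg i) (l ^ (2 * om i)) := by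
  rw [e23_eq]
  have : ∀ s : Finset (Fin 5), tor l (∑ i ∈ s, Pi.single (dg i) (1:ℝ)) =
      ∑ i ∈ s, Pi.single (dg i) (l ^ (2 * om i)) := by
    intro s
    induction s using Finset.induction_on with
    | empty => ext k; simp [tor]
    | insert a s ha ih =>
      rw [Finset.sum_insert ha, Finset.sum_insert ha, tor_add, ih, tor_single, mul_one, wt_dg]
  exact this _

theorem Lx_tor_pm {N : ℕ} (L : Pencil N) (l σ : ℝ) (k : Fin 23) :
    Lx L (tor l (e23 + σ • Pi.single k 1)) =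
      ∑ i, l ^ (2 * om i) • L (dg i) + l ^ wt k • (σ • L k) := by
  rw [tor_add, tor_smul, tor_single, tor_e23, Lx_add, Lx_smul, Lx_sum, Lx_single, mul_one]
  congr 1
  · exact Finset.sum_congr rfl fun i _ => Lx_single _ _ _
  · rw [smul_comm]

/-- **Node D3.** -/
theorem D3 (h1 : Stmt_tor_KK) (h2 : Stmt_e_pm) : Stmt_D3 := by
  intro N L hL horth k i j hij
  obtain ⟨hsymm, -, hpsd, -⟩ := hL
  have hA : ((1/2 : ℝ) • L k)ᵀ = (1/2 : ℝ) • L k := by
    rw [Matrix.transpose_smul, (hsymm k).eq]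
  have h := grading_mat om (fun i => L (dg i)) ((1/2 : ℝ) • L k) (wt k)
    (fun i j hne => by rw [horth i j, if_neg hne]) (fun i => by rw [horth i i, if_pos rfl])
    (fun i => (hsymm _).eq) hA
    (fun l hl => by
      have := hpsd _ (h1 l hl _ (h2 k (1/2) (Or.inl rfl)))
      rwa [Lx_tor_pm] at this)
    (fun l hl => by
      have := hpsd _ (h1 l hl _ (h2 k (-(1/2)) (Or.inr rfl)))
      rw [Lx_tor_pm] at this
      rwa [neg_smul, smul_neg, ← sub_eq_add_neg] at this)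
    (i := i) (j := j) (fun h => hij h.symm)
  have h3 : (1/2 : ℝ) • (L (dg i) * L k * L (dg j)) = 0 := by
    rw [← h, Matrix.mul_smul, Matrix.smul_mul]
  have h4 : (1/2 : ℝ) ≠ 0 := by norm_num
  exact (smul_eq_zero.mp h3).resolve_left h4

end Crest.Agent.R237.S2
end

-- ▼ part R237/S2D4
section

/-!
Row 237, statement S0368, node D4: limit of the kernel vectors.
-/

set_option autoImplicit false

namespace Crest.Agent.R237.S2

open Matrix

variable {N : ℕ} {L : Pencil N}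

/-- the component of `f` -/
def cp (L : Pencil N) (f : Fin N → ℝ) (i : Fin 5) : Fin N → ℝ := L (dg i) *ᵥ f













/-- scalar data of a kernel vector -/
structure Kd (L : Pencil N) (d : ℝ) (f : Fin N → ℝ) : Prop where
  n23 : cp L f 3 ⬝ᵥ cp L f 3 = cp L f 2 ⬝ᵥ cp L f 2
  n24 : cp L f 4 ⬝ᵥ cp L f 4 = cp L f 2 ⬝ᵥ cp L f 2
  u01 : cp L f 2 ⬝ᵥ L 8 *ᵥ cp L f 3 = cp L f 2 ⬝ᵥ cp L f 2
  u02 : cp L f 2 ⬝ᵥ L 9 *ᵥ cp L f 4 = cp L f 2 ⬝ᵥ cp L f 2
  u12 : cp L f 3 ⬝ᵥ L 11 *ᵥ cp L f 4 = cp L f 2 ⬝ᵥ cp L f 2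
  eq : (1 + d) / (4 * d) * (cp L f 0 ⬝ᵥ cp L f 0 + cp L f 1 ⬝ᵥ cp L f 1)
      + 2 * ((1 - d) / (4 * d)) * (cp L f 0 ⬝ᵥ L 1 *ᵥ cp L f 1)
      + (1 + d) * (cp L f 2 ⬝ᵥ cp L f 2 + cp L f 3 ⬝ᵥ cp L f 3)
      + 2 * (cp L f 0 ⬝ᵥ L 3 *ᵥ cp L f 3 + cp L f 1 ⬝ᵥ L 3 *ᵥ cp L f 2) = 0

theorem psd_ker {M : Matrix (Fin N) (Fin N) ℝ} (hM : M.PosSemidef) {f : Fin N → ℝ}
    (h : f ⬝ᵥ M *ᵥ f = 0) : M *ᵥ f = 0 := by
  have := (hM.dotProduct_mulVec_zero_iff f).1 (by simpa using h)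
  exact this








/-- the `JJ` form -/
def qJ (L : Pencil N) (f : Fin N → ℝ) : ℝ :=
  cp L f 0 ⬝ᵥ cp L f 0 + cp L f 1 ⬝ᵥ cp L f 1 + 2 * (cp L f 0 ⬝ᵥ L 1 *ᵥ cp L f 1)


/-- the closed sets of approximate limits -/
def SS (L : Pencil N) (n : ℕ) : Set (Fin N → ℝ) :=
  {f | cp L f 2 ⬝ᵥ cp L f 2 = 1} ∩ {f | cp L f 3 ⬝ᵥ cp L f 3 = 1} ∩
  {f | cp L f 4 ⬝ᵥ cp L f 4 = 1} ∩ {f | cp L f 2 ⬝ᵥ L 8 *ᵥ cp L f 3 = 1} ∩
  {f | cp L f 2 ⬝ᵥ L 9 *ᵥ cp L f 4 = 1} ∩ {f | cp L f 3 ⬝ᵥ L 11 *ᵥ cp L f 4 = 1} ∩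
  {f | ((n : ℝ) + 1) * qJ L f ≤ 24} ∩ {f | 0 ≤ qJ L f} ∩
  {f | cp L f 0 ⬝ᵥ cp L f 0 + cp L f 1 ⬝ᵥ cp L f 1 ≤ 24} ∩
  {f | 1 / 2 * (cp L f 0 ⬝ᵥ cp L f 0 + cp L f 1 ⬝ᵥ cp L f 1) +
    2 * (cp L f 0 ⬝ᵥ L 3 *ᵥ cp L f 3 + cp L f 1 ⬝ᵥ L 3 *ᵥ cp L f 2) + 2 ≤ 0}







end Crest.Agent.R237.S2
end

-- ▼ part R237/S2D2b808
section

/-!
Row 237, statement S0368, node D2b: the maximiser of `∑ ω_i tr P_i` has orthogonal idempotents.
-/

set_option autoImplicit false

namespace Crest.Agent.R237.S2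

open Matrix

theorem psd_sandwich_zero {N : ℕ} {P C : Matrix (Fin N) (Fin N) ℝ} (hP : P.PosSemidef)
    (h : Cᵀ * P * C = 0) : P * C = 0 := by
  have hv : ∀ v : Fin N → ℝ, P *ᵥ (C *ᵥ v) = 0 := by
    intro v
    refine psd_ker hP ?_
    have h1 : (C *ᵥ v) ⬝ᵥ P *ᵥ (C *ᵥ v) = v ⬝ᵥ (Cᵀ * P * C) *ᵥ v := by
      rw [← mulVec_mulVec, ← mulVec_mulVec, mulVec_transpose]
      rw [dotProduct_comm (C *ᵥ v), dotProduct_mulVec, dotProduct_comm]
    rw [h1, h, zero_mulVec, dotProduct_zero]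
  ext i j
  have := congrFun (hv (Pi.single j 1)) i
  rw [mulVec_mulVec] at this
  simpa [Matrix.col_apply] using this

/-- **matrix lemma** -/
theorem proj_of_max {N : ℕ} (P : Fin 5 → Matrix (Fin N) (Fin N) ℝ)
    (hpsd : ∀ i, (P i).PosSemidef) (hsum : ∑ i, P i = 1) (w : Fin 5 → ℕ)
    (hinj : ∀ i j, w i = w j → i = j)
    (hmax : ∀ l : ℝ, 0 < l → 2 * ∑ i, (w i : ℝ) * l ^ (2 * w i) * (P i).trace
      - ∑ i, ∑ j, (w j : ℝ) * l ^ (2 * w i + 2 * w j) * (P i * P j).trace ≤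
        ∑ i, (w i : ℝ) * (P i).trace) :
    ∀ i j, P i * P j = if i = j then P i else 0 := by
  set f : ℝ → ℝ := fun l => 2 * ∑ i, (w i : ℝ) * l ^ (2 * w i) * (P i).trace
      - ∑ i, ∑ j, (w j : ℝ) * l ^ (2 * w i + 2 * w j) * (P i * P j).trace with hf
  have hsymm : ∀ i, (P i)ᵀ = P i := by
    intro i
    have := (hpsd i).isHermitian
    rwa [Matrix.IsHermitian, Matrix.conjTranspose_eq_transpose_of_trivial] at this
  -- traces
  have tr1 : ∀ j, ∑ i, (P i * P j).trace = (P j).trace := by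
    intro j
    rw [← Matrix.trace_sum, ← Finset.sum_mul, hsum, one_mul]
  have f1 : f 1 = ∑ i, (w i : ℝ) * (P i).trace := by
    simp only [hf, one_pow, mul_one]
    rw [Finset.sum_comm]
    have : ∀ j, ∑ i, (w j : ℝ) * (P i * P j).trace = (w j : ℝ) * (P j).trace := by
      intro j
      rw [← Finset.mul_sum, tr1]
    simp only [this]
    ring
  have hloc : IsLocalMax f 1 := by
    filter_upwards [lt_mem_nhds (show (0 : ℝ) < 1 from one_pos)] with l hl
    rw [f1]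
    exact hmax l hl
  have hder : HasDerivAt f (2 * ∑ i, (w i : ℝ) * ((2 * w i : ℕ) * (1:ℝ) ^ (2 * w i - 1)) *
      (P i).trace - ∑ i, ∑ j, (w j : ℝ) * ((2 * w i + 2 * w j : ℕ) *
        (1:ℝ) ^ (2 * w i + 2 * w j - 1)) * (P i * P j).trace) 1 := by
    refine HasDerivAt.sub (HasDerivAt.const_mul _ (HasDerivAt.fun_sum fun i _ => ?_))
      (HasDerivAt.fun_sum fun i _ => HasDerivAt.fun_sum fun j _ => ?_)
    · exact ((hasDerivAt_pow (2 * w i) (1:ℝ)).const_mul (w i : ℝ)).mul_const _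
    · exact ((hasDerivAt_pow (2 * w i + 2 * w j) (1:ℝ)).const_mul (w j : ℝ)).mul_const _
  have h0 := hloc.hasDerivAt_eq_zero hder
  simp only [one_pow, mul_one] at h0
  push_cast at h0
  -- the matrix W
  set W : Matrix (Fin N) (Fin N) ℝ := ∑ i, (w i : ℝ) • P i with hW
  have hWs : Wᵀ = W := by
    rw [hW, Matrix.transpose_sum]
    exact Finset.sum_congr rfl fun i _ => by rw [Matrix.transpose_smul, hsymm]
  have trWP : ∀ j, (W * P j).trace = ∑ i, (w i : ℝ) * (P i * P j).trace := by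
    intro j
    rw [hW, Finset.sum_mul, Matrix.trace_sum]
    exact Finset.sum_congr rfl fun i _ => by rw [Matrix.smul_mul, Matrix.trace_smul, smul_eq_mul]
  have trWW : (W * W).trace = ∑ i, ∑ j, (w i : ℝ) * (w j : ℝ) * (P i * P j).trace := by
    conv_lhs => rw [hW]
    rw [Finset.sum_mul, Matrix.trace_sum]
    refine Finset.sum_congr rfl fun i _ => ?_
    rw [Matrix.smul_mul, Matrix.trace_smul, Finset.mul_sum, Matrix.trace_sum, smul_eq_mul,
      Finset.mul_sum]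
    refine Finset.sum_congr rfl fun j _ => ?_
    rw [Matrix.mul_smul, Matrix.trace_smul, smul_eq_mul]
    ring
  have S2 : ∑ i, ∑ j, (w j : ℝ) * (w j : ℝ) * (P i * P j).trace =
      ∑ j, (w j : ℝ) * (w j : ℝ) * (P j).trace := by
    rw [Finset.sum_comm]
    exact Finset.sum_congr rfl fun j _ => by rw [← Finset.mul_sum, tr1]
  have key : ∑ i, (w i : ℝ) * (w i : ℝ) * (P i).trace = (W * W).trace := by
    have e1 : 2 * ∑ i, (w i : ℝ) * (2 * (w i : ℝ)) * (P i).trace =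
        4 * ∑ i, (w i : ℝ) * (w i : ℝ) * (P i).trace := by
      rw [Finset.mul_sum, Finset.mul_sum]
      exact Finset.sum_congr rfl fun i _ => by ring
    have e2 : ∑ i, ∑ j, (w j : ℝ) * (2 * (w i : ℝ) + 2 * (w j : ℝ)) * (P i * P j).trace =
        2 * (W * W).trace + 2 * ∑ j, (w j : ℝ) * (w j : ℝ) * (P j).trace := by
      rw [trWW, ← S2, Finset.mul_sum, Finset.mul_sum, ← Finset.sum_add_distrib]
      refine Finset.sum_congr rfl fun i _ => ?_
      rw [Finset.mul_sum, Finset.mul_sum, ← Finset.sum_add_distrib]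
      exact Finset.sum_congr rfl fun j _ => by ring
    rw [e1, e2] at h0
    linarith
  -- the sandwich matrices
  set C : Fin 5 → Matrix (Fin N) (Fin N) ℝ := fun i => (w i : ℝ) • 1 - W with hC
  have hCs : ∀ i, (C i)ᵀ = C i := by
    intro i
    simp only [hC, Matrix.transpose_sub, Matrix.transpose_smul, Matrix.transpose_one, hWs]
  have hSpsd : ∀ i, ((C i)ᵀ * P i * C i).PosSemidef := by
    intro i
    have := (hpsd i).conjTranspose_mul_mul_same (C i)
    rwa [Matrix.conjTranspose_eq_transpose_of_trivial] at this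
  have hStr : ∀ i, ((C i)ᵀ * P i * C i).trace =
      (w i : ℝ) * (w i : ℝ) * (P i).trace - 2 * ((w i : ℝ) * (W * P i).trace)
        + (W * W * P i).trace := by
    intro i
    rw [hCs]
    have e : C i * P i * C i = ((w i : ℝ) * (w i : ℝ)) • P i - (w i : ℝ) • (P i * W)
        - (w i : ℝ) • (W * P i) + W * P i * W := by
      simp only [hC, sub_mul, mul_sub, smul_mul_assoc, mul_smul_comm, one_mul, mul_one, smul_smul,
        smul_sub]
      abel
    rw [e, Matrix.trace_add, Matrix.trace_sub, Matrix.trace_sub, Matrix.trace_smul,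
      Matrix.trace_smul, Matrix.trace_smul, Matrix.trace_mul_comm (P i) W,
      Matrix.trace_mul_comm (W * P i) W, ← Matrix.mul_assoc]
    simp only [smul_eq_mul]
    ring
  have htot : ∑ i, ((C i)ᵀ * P i * C i).trace = 0 := by
    simp only [hStr]
    rw [Finset.sum_add_distrib, Finset.sum_sub_distrib, key, ← Finset.mul_sum]
    have e1 : ∑ i, (w i : ℝ) * (W * P i).trace = (W * W).trace := by
      conv_rhs => rw [hW]
      rw [← hW, Finset.mul_sum, Matrix.trace_sum]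
      exact Finset.sum_congr rfl fun i _ => by
        rw [Matrix.mul_smul, Matrix.trace_smul, smul_eq_mul]
    have e2 : ∑ i, (W * W * P i).trace = (W * W).trace := by
      rw [← Matrix.trace_sum, ← Finset.mul_sum, hsum, mul_one]
    rw [e1, e2]
    ring
  have hz : ∀ i, ((C i)ᵀ * P i * C i) = 0 := by
    intro i
    have h1 := (Finset.sum_eq_zero_iff_of_nonneg (fun i _ => (hSpsd i).trace_nonneg)).1 htot i
      (Finset.mem_univ i)
    exact (hSpsd i).trace_eq_zero_iff.1 h1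
  have hPC : ∀ i, P i * C i = 0 := fun i => psd_sandwich_zero (hpsd i) (hz i)
  have hPW : ∀ i, P i * W = (w i : ℝ) • P i := by
    intro i
    have := hPC i
    simp only [hC, mul_sub, mul_smul_comm, mul_one] at this
    exact (sub_eq_zero.1 this).symm
  have hWP : ∀ i, W * P i = (w i : ℝ) • P i := by
    intro i
    have := congrArg Matrix.transpose (hPW i)
    rwa [Matrix.transpose_mul, hWs, hsymm, Matrix.transpose_smul, hsymm] at this
  have hoff : ∀ i j, i ≠ j → P i * P j = 0 := by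
    intro i j hij
    have h1 : P i * W * P j = (w i : ℝ) • (P i * P j) := by rw [hPW, smul_mul_assoc]
    have h2 : P i * W * P j = (w j : ℝ) • (P i * P j) := by
      rw [Matrix.mul_assoc, hWP, mul_smul_comm]
    have h3 : ((w i : ℝ) - (w j : ℝ)) • (P i * P j) = 0 := by
      rw [sub_smul, ← h1, ← h2, sub_self]
    rcases smul_eq_zero.1 h3 with h | h
    · exfalso
      have : (w i : ℝ) = (w j : ℝ) := sub_eq_zero.1 h
      exact hij (hinj i j (by exact_mod_cast this))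
    · exact h
  intro i j
  by_cases hij : i = j
  · subst hij
    rw [if_pos rfl]
    have : P i * ∑ j, P j = P i := by rw [hsum, mul_one]
    rw [Finset.mul_sum, Finset.sum_eq_single i] at this
    · exact this
    · intro j _ hj
      exact hoff i j (fun h => hj h.symm)
    · simp
  · rw [if_neg hij]
    exact hoff i j hij

theorem om_inj : ∀ i j : Fin 5, om i = om j → i = j := by decide

theorem E_psd {N : ℕ} {L : Pencil N} (hL : L ∈ PP N) (hE : Stmt_E_mem) (i : Fin 5) :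
    (L (dg i)).PosSemidef := by
  have := hL.2.2.1 _ (hE i)
  rwa [Lx_single, one_smul] at this

/-- the transported pencil -/
theorem transport {N : ℕ} {L : Pencil N} (hL : L ∈ PP N) (hKK : Stmt_tor_KK) (hBK : Stmt_tor_BK)
    (l : ℝ) (hl : 0 < l) (B : Matrix (Fin N) (Fin N) ℝ) (hB : B.det ≠ 0)
    (hM : Lx L (tor l e23) = Bᵀ * B) :
    (fun k => (l ^ wt k) • ((B⁻¹)ᵀ * L k * B⁻¹)) ∈ PP N := by
  have hBu : IsUnit B.det := isUnit_iff_ne_zero.2 hB
  have hx : ∀ x, Lx (fun k => (l ^ wt k) • ((B⁻¹)ᵀ * L k * B⁻¹)) x =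
      (B⁻¹)ᵀ * Lx L (tor l x) * B⁻¹ := by
    intro x
    unfold Lx tor
    rw [Finset.mul_sum, Finset.sum_mul]
    refine Finset.sum_congr rfl fun k _ => ?_
    rw [mul_smul_comm, smul_mul_assoc, smul_smul, mul_comm]
  refine ⟨fun k => ?_, ?_, fun x hxK => ?_, fun x hxB => ?_⟩
  · show ((l ^ wt k) • ((B⁻¹)ᵀ * L k * B⁻¹))ᵀ = (l ^ wt k) • ((B⁻¹)ᵀ * L k * B⁻¹)
    rw [Matrix.transpose_smul, Matrix.transpose_mul, Matrix.transpose_mul,
      Matrix.transpose_transpose, (hL.1 k).eq, Matrix.mul_assoc]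
  · rw [hx, hM]
    have : (B⁻¹)ᵀ * (Bᵀ * B) * B⁻¹ = ((B⁻¹)ᵀ * Bᵀ) * (B * B⁻¹) := by
      simp only [Matrix.mul_assoc]
    rw [this, ← Matrix.transpose_mul, Matrix.mul_nonsing_inv _ hBu, Matrix.transpose_one, one_mul]
  · rw [hx]
    have := (hL.2.2.1 _ (hKK l hl x hxK)).conjTranspose_mul_mul_same B⁻¹
    rwa [Matrix.conjTranspose_eq_transpose_of_trivial] at this
  · rw [hx, Matrix.det_mul, Matrix.det_mul, hL.2.2.2 _ (hBK l hl x hxB), mul_zero, zero_mul]

theorem M_posDef {N : ℕ} {L : Pencil N} (hL : L ∈ PP N) (hE : Stmt_E_mem) (l : ℝ) (hl : 0 < l) :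
    (∑ i, l ^ (2 * om i) • L (dg i)).PosDef := by
  -- `∑ l^{2ω_i} P_i ≥ m ∑ P_i`, `m = min`
  obtain ⟨m, hm, hmi⟩ : ∃ m : ℝ, 0 < m ∧ ∀ i : Fin 5, m ≤ l ^ (2 * om i) := by
    refine ⟨Finset.univ.inf' Finset.univ_nonempty fun i : Fin 5 => l ^ (2 * om i), ?_, ?_⟩
    · rw [Finset.lt_inf'_iff]
      exact fun i _ => pow_pos hl _
    · intro i
      exact Finset.inf'_le _ (Finset.mem_univ i)
  have hsplit : ∑ i, l ^ (2 * om i) • L (dg i) =
      m • (1 : Matrix (Fin N) (Fin N) ℝ) + ∑ i, (l ^ (2 * om i) - m) • L (dg i) := by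
    have h1 : (1 : Matrix (Fin N) (Fin N) ℝ) = ∑ i, L (dg i) := by
      rw [← Lx_e23]; exact hL.2.1.symm
    rw [h1, Finset.smul_sum, ← Finset.sum_add_distrib]
    exact Finset.sum_congr rfl fun i _ => by rw [← add_smul]; congr 1; ring
  rw [hsplit]
  refine (PosDef.one.smul hm).add_posSemidef ?_
  exact Matrix.posSemidef_sum _ fun i _ => (E_psd hL hE i).smul (sub_nonneg.2 (hmi i))

theorem D2b (hKK : Stmt_tor_KK) (hBK : Stmt_tor_BK) (hE : Stmt_E_mem) : Stmt_D2b := by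
  intro N L hL hmax
  refine proj_of_max (fun i => L (dg i)) (E_psd hL hE) (by rw [← Lx_e23]; exact hL.2.1) om
    om_inj fun l hl => ?_
  have hMeq : Lx L (tor l e23) = ∑ i, l ^ (2 * om i) • L (dg i) := by
    rw [tor_e23, Lx_sum]
    exact Finset.sum_congr rfl fun i _ => Lx_single _ _ _
  have hPD := M_posDef hL hE l hl
  obtain ⟨B, hB⟩ : ∃ B : Matrix (Fin N) (Fin N) ℝ,
      ∑ i, l ^ (2 * om i) • L (dg i) = Bᵀ * B := by
    open scoped MatrixOrder in
    obtain ⟨B, hB⟩ := CStarAlgebra.nonneg_iff_eq_star_mul_self.mp hPD.posSemidef.nonneg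
    refine ⟨B, ?_⟩
    rw [hB, Matrix.star_eq_conjTranspose, Matrix.conjTranspose_eq_transpose_of_trivial]
  have hdetM : (∑ i, l ^ (2 * om i) • L (dg i)).det ≠ 0 := hPD.det_pos.ne'
  have hBdet : B.det ≠ 0 := by
    intro h
    rw [hB, Matrix.det_mul, h, mul_zero] at hdetM
    exact hdetM rfl
  have hBu : IsUnit B.det := isUnit_iff_ne_zero.2 hBdet
  have hPP := transport hL hKK hBK l hl B hBdet (by rw [hMeq, hB])
  have hle := hmax _ hPP
  set M : Matrix (Fin N) (Fin N) ℝ := ∑ i, l ^ (2 * om i) • L (dg i) with hMdef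
  have hMs : Mᵀ = M := by rw [hB, Matrix.transpose_mul, Matrix.transpose_transpose]
  -- the comparison of traces
  have hcomp : ∀ i, 2 * (L (dg i)).trace - (M * L (dg i)).trace ≤
      ((B⁻¹)ᵀ * L (dg i) * B⁻¹).trace := by
    intro i
    set P := L (dg i)
    have hps : (((B⁻¹)ᵀ * (1 - M)) * P * ((B⁻¹)ᵀ * (1 - M))ᵀ).PosSemidef := by
      have := (E_psd hL hE i).mul_mul_conjTranspose_same ((B⁻¹)ᵀ * (1 - M))
      rwa [Matrix.conjTranspose_eq_transpose_of_trivial] at this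
    have htr := hps.trace_nonneg
    have hinv1 : (B⁻¹)ᵀ * Bᵀ = 1 := by
      rw [← Matrix.transpose_mul, Matrix.mul_nonsing_inv _ hBu, Matrix.transpose_one]
    have hinv2 : B⁻¹ * B = 1 := Matrix.nonsing_inv_mul _ hBu
    have hinv3 : B * B⁻¹ = 1 := Matrix.mul_nonsing_inv _ hBu
    have hC : (B⁻¹)ᵀ * (1 - M) = (B⁻¹)ᵀ - B := by
      rw [mul_sub, mul_one, hB, ← Matrix.mul_assoc, hinv1, one_mul]
    rw [hC, Matrix.transpose_sub, Matrix.transpose_transpose] at htr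
    have e : ((B⁻¹)ᵀ - B) * P * (B⁻¹ - Bᵀ) = (B⁻¹)ᵀ * P * B⁻¹ - (B⁻¹)ᵀ * P * Bᵀ
        - B * P * B⁻¹ + B * P * Bᵀ := by
      simp only [sub_mul, mul_sub]
      abel
    rw [e, Matrix.trace_add, Matrix.trace_sub, Matrix.trace_sub] at htr
    have t1 : ((B⁻¹)ᵀ * P * Bᵀ).trace = P.trace := by
      rw [Matrix.trace_mul_comm, ← Matrix.mul_assoc, ← Matrix.transpose_mul, hinv2,
        Matrix.transpose_one, one_mul]
    have t2 : (B * P * B⁻¹).trace = P.trace := by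
      rw [Matrix.trace_mul_comm, ← Matrix.mul_assoc, hinv2, one_mul]
    have t3 : (B * P * Bᵀ).trace = (M * P).trace := by
      rw [Matrix.trace_mul_comm, ← Matrix.mul_assoc, hB]
    rw [t1, t2, t3] at htr
    linarith
  have htrM : ∀ j, (M * L (dg j)).trace = ∑ i, l ^ (2 * om i) * (L (dg i) * L (dg j)).trace := by
    intro j
    rw [hMdef, Finset.sum_mul, Matrix.trace_sum]
    exact Finset.sum_congr rfl fun i _ => by rw [smul_mul_assoc, Matrix.trace_smul, smul_eq_mul]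
  refine le_trans ?_ hle
  have h1 : ∀ i, (om i : ℝ) * ((l ^ wt (dg i)) • ((B⁻¹)ᵀ * L (dg i) * B⁻¹)).trace =
      (om i : ℝ) * l ^ (2 * om i) * ((B⁻¹)ᵀ * L (dg i) * B⁻¹).trace := by
    intro i
    rw [Matrix.trace_smul, wt_dg, smul_eq_mul]
    ring
  simp only [h1]
  have h2 : 2 * ∑ i, (om i : ℝ) * l ^ (2 * om i) * (L (dg i)).trace
      - ∑ i, ∑ j, (om j : ℝ) * l ^ (2 * om i + 2 * om j) * (L (dg i) * L (dg j)).trace =
      ∑ i, (om i : ℝ) * l ^ (2 * om i) * (2 * (L (dg i)).trace - (M * L (dg i)).trace) := by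
    rw [Finset.sum_comm (s := (Finset.univ : Finset (Fin 5))), Finset.mul_sum,
      ← Finset.sum_sub_distrib]
    refine Finset.sum_congr rfl fun j _ => ?_
    rw [htrM, mul_sub, Finset.mul_sum]
    congr 1
    · ring
    · exact Finset.sum_congr rfl fun i _ => by rw [pow_add]; ring
  rw [h2]
  refine Finset.sum_le_sum fun i _ => ?_
  exact mul_le_mul_of_nonneg_left (hcomp i) (by positivity)

end Crest.Agent.R237.S2
end

-- ▼ part R237/S2HypCore
section

/-!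
Row 237, S0368, node A: hyperbolicity of `det (det X • U - Γ(adj X))`, abstract form.
-/

set_option autoImplicit false

open Matrix Complex

namespace Crest.Agent.R237.S2Hyp

variable {n : Type*} [Fintype n]

/-- the Hermitian form of a real symmetric matrix at a complex vector is real -/
theorem quad_re (G : Matrix n n ℝ) (hG : G.IsSymm) (w : n → ℂ) :
    star w ⬝ᵥ ((G.map Complex.ofReal) *ᵥ w) =
      (((fun i => (w i).re) ⬝ᵥ (G *ᵥ fun i => (w i).re) +
        (fun i => (w i).im) ⬝ᵥ (G *ᵥ fun i => (w i).im) : ℝ) : ℂ) := by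
  have h1 : star w ⬝ᵥ ((G.map Complex.ofReal) *ᵥ w) =
      ∑ i, ∑ j, (G i j : ℂ) * (starRingEnd ℂ (w i) * w j) := by
    simp only [dotProduct, mulVec, Finset.mul_sum, Matrix.map_apply, Pi.star_apply]
    refine Finset.sum_congr rfl fun i _ => Finset.sum_congr rfl fun j _ => ?_
    simp only [starRingEnd_apply]
    ring
  rw [h1]
  apply Complex.ext
  · simp only [Complex.re_sum, Complex.ofReal_re, dotProduct, mulVec, Finset.mul_sum]
    rw [← Finset.sum_add_distrib]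
    refine Finset.sum_congr rfl fun i _ => ?_
    rw [← Finset.sum_add_distrib]
    refine Finset.sum_congr rfl fun j _ => ?_
    simp only [Complex.mul_re, Complex.ofReal_re, Complex.ofReal_im, Complex.conj_re,
      Complex.conj_im]
    ring
  · simp only [Complex.im_sum, Complex.ofReal_im]
    have h2 : ∑ i, ∑ j, ((G i j : ℂ) * (starRingEnd ℂ (w i) * w j)).im =
        ∑ i, ∑ j, (G i j * ((w i).re * (w j).im) - G i j * ((w i).im * (w j).re)) := by
      refine Finset.sum_congr rfl fun i _ => Finset.sum_congr rfl fun j _ => ?_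
      simp only [Complex.mul_im, Complex.mul_re, Complex.ofReal_re, Complex.ofReal_im,
        Complex.conj_re, Complex.conj_im]
      ring
    rw [h2]
    simp only [Finset.sum_sub_distrib]
    rw [sub_eq_zero, Finset.sum_comm]
    refine Finset.sum_congr rfl fun j _ => Finset.sum_congr rfl fun i _ => ?_
    have : G i j = G j i := by
      have := congrFun (congrFun hG j) i
      simpa [Matrix.transpose_apply] using this
    rw [this]; ring

/-- the real algebra -/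
theorem scalar_core {α β τ b s k1 g0 g1 g2 : ℝ} (hz : τ ≠ 0) (hs0 : 0 < s)
    (hre' : (α * β - τ ^ 2 - b ^ 2) * k1 - τ * (α + β) * (τ * s) = β * g0 + b * g1 + α * g2)
    (him' : (α * β - τ ^ 2 - b ^ 2) * (τ * s) + τ * (α + β) * k1 = τ * g0 + τ * g2)
    (hQ1 : 0 ≤ (1 : ℝ) ^ 2 * g0 + 1 * 0 * g1 + 0 ^ 2 * g2)
    (hQ2 : 0 ≤ (0 : ℝ) ^ 2 * g0 + 0 * 1 * g1 + 1 ^ 2 * g2)
    (hQ3 : 0 ≤ β ^ 2 * g0 + β * b * g1 + b ^ 2 * g2)
    (hQ4 : 0 ≤ b ^ 2 * g0 + b * α * g1 + α ^ 2 * g2) : False := by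
  have hkey : ((α * β - τ ^ 2 - b ^ 2) ^ 2 + (τ * (α + β)) ^ 2) * s =
      -((g0 + g2) * τ ^ 2 + (β ^ 2 * g0 + β * b * g1 + b ^ 2 * g2) +
        (b ^ 2 * g0 + b * α * g1 + α ^ 2 * g2)) := by
    have h1 : τ * (((α * β - τ ^ 2 - b ^ 2) ^ 2 + (τ * (α + β)) ^ 2) * s) =
        τ * -((g0 + g2) * τ ^ 2 + (β ^ 2 * g0 + β * b * g1 + b ^ 2 * g2) +
        (b ^ 2 * g0 + b * α * g1 + α ^ 2 * g2)) := by
      linear_combination (α * β - τ ^ 2 - b ^ 2) * him' - τ * (α + β) * hre'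
    exact mul_left_cancel₀ hz h1
  have hτ2 : 0 < τ ^ 2 := by positivity
  have hle : ((α * β - τ ^ 2 - b ^ 2) ^ 2 + (τ * (α + β)) ^ 2) * s ≤ 0 := by
    rw [hkey]
    have : 0 ≤ (g0 + g2) * τ ^ 2 := by
      apply mul_nonneg _ hτ2.le
      linarith
    linarith
  have hsq : (α * β - τ ^ 2 - b ^ 2) ^ 2 + (τ * (α + β)) ^ 2 ≤ 0 :=
    nonpos_of_mul_nonpos_left hle hs0
  have e1 : τ * (α + β) = 0 := by
    have := sq_nonneg (α * β - τ ^ 2 - b ^ 2)
    exact pow_eq_zero_iff (two_ne_zero) |>.1 (le_antisymm (by linarith) (sq_nonneg _))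
  have e2 : α * β - τ ^ 2 - b ^ 2 = 0 := by
    have := sq_nonneg (τ * (α + β))
    exact pow_eq_zero_iff (two_ne_zero) |>.1 (le_antisymm (by linarith) (sq_nonneg _))
  have e3 : α + β = 0 := (mul_eq_zero.1 e1).resolve_left hz
  have e4 : β = -α := by linarith
  rw [e4] at e2
  nlinarith [sq_nonneg α, sq_nonneg b]

/-- **hyperbolicity, core**: `det ((det (z - X)) (z - U) - Γ(adj (z - X))) ≠ 0` for non-real `z`. -/
theorem core [DecidableEq n] (G00 G01 G11 U : Matrix n n ℝ) (h00 : G00.IsSymm) (h01 : G01.IsSymm)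
    (h11 : G11.IsSymm) (hU : U.IsSymm)
    (hF : ∀ (x0 x1 : ℝ) (y : n → ℝ), 0 ≤ x0 ^ 2 * (y ⬝ᵥ (G00 *ᵥ y)) +
      x0 * x1 * (y ⬝ᵥ (G01 *ᵥ y)) + x1 ^ 2 * (y ⬝ᵥ (G11 *ᵥ y)))
    (a b c : ℝ) (z : ℂ)
    (hdet : ((((z - a) * (z - c) - (b : ℂ) ^ 2) • (z • (1 : Matrix n n ℂ) - U.map Complex.ofReal) -
      ((z - c) • G00.map Complex.ofReal + (b : ℂ) • G01.map Complex.ofReal +
        (z - a) • G11.map Complex.ofReal)).det = 0)) : z.im = 0 := by
  by_contra hz
  obtain ⟨w, hw0, hw⟩ := Matrix.exists_mulVec_eq_zero_iff.2 hdet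
  set q : Matrix n n ℝ → ℝ := fun G => (fun i => (w i).re) ⬝ᵥ (G *ᵥ fun i => (w i).re) +
        (fun i => (w i).im) ⬝ᵥ (G *ᵥ fun i => (w i).im) with hq
  have hquad : ∀ G : Matrix n n ℝ, G.IsSymm →
      star w ⬝ᵥ ((G.map Complex.ofReal) *ᵥ w) = (q G : ℂ) := fun G hG => quad_re G hG w
  -- the norm of `w`
  set s : ℝ := q 1 with hs
  have hs1 : star w ⬝ᵥ w = (s : ℂ) := by
    have := hquad 1 Matrix.isSymm_one
    simpa using this
  have hs0 : 0 < s := by
    have h1 : s = ∑ i, ((w i).re ^ 2 + (w i).im ^ 2) := by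
      rw [hs, hq]
      simp only [Matrix.one_mulVec, dotProduct]
      rw [← Finset.sum_add_distrib]
      exact Finset.sum_congr rfl fun i _ => by ring
    obtain ⟨i, hi⟩ : ∃ i, w i ≠ 0 := by
      by_contra hc
      push Not at hc
      exact hw0 (funext hc)
    rw [h1]
    refine Finset.sum_pos' (fun j _ => by positivity) ⟨i, Finset.mem_univ i, ?_⟩
    by_contra hc
    have h2 : (w i).re ^ 2 + (w i).im ^ 2 = 0 := le_antisymm (not_lt.1 hc) (by positivity)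
    apply hi
    apply Complex.ext
    · simp only [Complex.zero_re]; nlinarith [sq_nonneg (w i).re, sq_nonneg (w i).im]
    · simp only [Complex.zero_im]; nlinarith [sq_nonneg (w i).re, sq_nonneg (w i).im]
  have hQ : ∀ x0 x1 : ℝ, 0 ≤ x0 ^ 2 * q G00 + x0 * x1 * q G01 + x1 ^ 2 * q G11 := by
    intro x0 x1
    have h1 := hF x0 x1 fun i => (w i).re
    have h2 := hF x0 x1 fun i => (w i).im
    simp only [hq]
    linarith
  -- the scalar equation
  have heq := congrArg (fun u => star w ⬝ᵥ u) hw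
  simp only [dotProduct_zero] at heq
  rw [Matrix.sub_mulVec, Matrix.add_mulVec, Matrix.add_mulVec, Matrix.smul_mulVec,
    Matrix.sub_mulVec, Matrix.smul_mulVec, Matrix.smul_mulVec, Matrix.smul_mulVec,
    Matrix.smul_mulVec, Matrix.one_mulVec, dotProduct_sub, dotProduct_smul, dotProduct_sub,
    dotProduct_smul, dotProduct_add, dotProduct_add, dotProduct_smul, dotProduct_smul,
    dotProduct_smul, hquad _ hU, hquad _ h00, hquad _ h01, hquad _ h11, hs1] at heq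
  simp only [smul_eq_mul] at heq
  -- real and imaginary parts
  set τ : ℝ := z.im with hτ
  set α : ℝ := z.re - a with hα
  set β : ℝ := z.re - c with hβ
  have eA : z - a = ⟨α, τ⟩ := by
    apply Complex.ext <;> simp [hα, hτ]
  have eB : z - c = ⟨β, τ⟩ := by
    apply Complex.ext <;> simp [hβ, hτ]
  have eD : (z - a) * (z - c) - (b : ℂ) ^ 2 = ⟨α * β - τ ^ 2 - b ^ 2, τ * (α + β)⟩ := by
    rw [eA, eB]
    apply Complex.ext
    · simp only [Complex.sub_re, Complex.mul_re]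
      have : ((b : ℂ) ^ 2).re = b ^ 2 := by rw [← Complex.ofReal_pow, Complex.ofReal_re]
      rw [this]; ring
    · simp only [Complex.sub_im, Complex.mul_im]
      have : ((b : ℂ) ^ 2).im = 0 := by rw [← Complex.ofReal_pow, Complex.ofReal_im]
      rw [this]; ring
  rw [eD, eA, eB] at heq
  have hre := congrArg Complex.re heq
  have him := congrArg Complex.im heq
  simp only [Complex.sub_re, Complex.sub_im, Complex.mul_re, Complex.mul_im, Complex.add_re,
    Complex.add_im, Complex.ofReal_re, Complex.ofReal_im, Complex.zero_re, Complex.zero_im] at hre him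
  rw [← hτ] at hre him
  -- `D κ = N`
  set k1 : ℝ := z.re * s - q U with hk1
  have hre' : (α * β - τ ^ 2 - b ^ 2) * k1 - τ * (α + β) * (τ * s) =
      β * q G00 + b * q G01 + α * q G11 := by
    rw [hk1]; linarith
  have him' : (α * β - τ ^ 2 - b ^ 2) * (τ * s) + τ * (α + β) * k1 =
      τ * q G00 + τ * q G11 := by
    rw [hk1]; linarith
  have hQ1 := hQ 1 0
  have hQ2 := hQ 0 1
  have hQ3 := hQ β b
  have hQ4 := hQ b α
  clear_value k1 τ α β s
  generalize q G00 = g0 at *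
  generalize q G01 = g1 at *
  generalize q G11 = g2 at *
  exact scalar_core hz hs0 hre' him' hQ1 hQ2 hQ3 hQ4

end Crest.Agent.R237.S2Hyp
end

-- ▼ part R237/S2Pad
section

/-!
Row 237, S0368: padding lemmas.
* multiplication of a hyperbolic polynomial by a power of a linear form;
* padding of a semidefinite lift to larger matrix size and number of auxiliary variables.
-/

set_option autoImplicit false
open Crest.GeometryTopology

namespace Crest.Agent.R237.S2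

open Hyperbolic MvPolynomial

/-- the linear form `∑ c i X i`. -/
noncomputable def linF {m : ℕ} (c : Fin m → ℝ) : MvPolynomial (Fin m) ℝ :=
  ∑ i, C (c i) * X i

theorem linF_eval {m : ℕ} (c x : Fin m → ℝ) : eval x (linF c) = ∑ i, c i * x i := by
  simp [linF]

theorem linF_homog {m : ℕ} (c : Fin m → ℝ) : (linF c).IsHomogeneous 1 := by
  unfold linF
  refine MvPolynomial.IsHomogeneous.sum _ _ _ fun i _ => ?_
  simpa using (isHomogeneous_C (Fin m) (c i)).mul (isHomogeneous_X ℝ i)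

theorem linF_line {m : ℕ} (c e x : Fin m → ℝ) (z : ℂ) :
    lineEvalC (linF c) e x z = z * ((∑ i, c i * e i : ℝ) : ℂ) - ((∑ i, c i * x i : ℝ) : ℂ) := by
  simp only [lineEvalC, linF, map_sum, map_mul, aeval_X, MvPolynomial.aeval_C]
  push_cast
  rw [Finset.mul_sum, ← Finset.sum_sub_distrib]
  refine Finset.sum_congr rfl fun i _ => ?_
  simp
  ring

theorem lineEvalC_mul {m : ℕ} (p q : MvPolynomial (Fin m) ℝ) (e x : Fin m → ℝ) (z : ℂ) :
    lineEvalC (p * q) e x z = lineEvalC p e x z * lineEvalC q e x z := by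
  simp [lineEvalC]

theorem lineEvalC_pow {m : ℕ} (p : MvPolynomial (Fin m) ℝ) (e x : Fin m → ℝ) (z : ℂ) (k : ℕ) :
    lineEvalC (p ^ k) e x z = lineEvalC p e x z ^ k := by
  simp [lineEvalC]

/-- products of hyperbolic polynomials. -/
theorem hyp_mul {m : ℕ} {p q : MvPolynomial (Fin m) ℝ} {e : Fin m → ℝ}
    (hp : IsHyperbolic p e) (hq : IsHyperbolic q e) : IsHyperbolic (p * q) e := by
  obtain ⟨⟨a, ha⟩, hpe, hpz⟩ := hp
  obtain ⟨⟨b, hb⟩, hqe, hqz⟩ := hq
  refine ⟨⟨a + b, ha.mul hb⟩, ?_, ?_⟩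
  · rw [map_mul]; exact mul_pos hpe hqe
  · intro x z h
    rw [lineEvalC_mul] at h
    rcases mul_eq_zero.1 h with h | h
    · exact hpz x z h
    · exact hqz x z h

theorem hyp_linF {m : ℕ} (c e : Fin m → ℝ) (h : 0 < ∑ i, c i * e i) :
    IsHyperbolic (linF c) e := by
  refine ⟨⟨1, linF_homog c⟩, by rwa [linF_eval], ?_⟩
  intro x z hz
  rw [linF_line, sub_eq_zero] at hz
  have h2 := congrArg Complex.im hz
  rw [Complex.mul_im, Complex.ofReal_im, Complex.ofReal_im, Complex.ofReal_re] at h2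
  have : z.im * (∑ i, c i * e i) = 0 := by linarith
  rcases mul_eq_zero.1 this with h3 | h3
  · exact h3
  · exact absurd h3 h.ne'

theorem hyp_pow {m : ℕ} {p : MvPolynomial (Fin m) ℝ} {e : Fin m → ℝ}
    (hp : IsHyperbolic p e) (k : ℕ) : IsHyperbolic (p ^ k) e := by
  obtain ⟨⟨a, ha⟩, hpe, hpz⟩ := hp
  refine ⟨⟨a * k, ha.pow k⟩, ?_, ?_⟩
  · rw [map_pow]; exact pow_pos hpe k
  · intro x z h
    rw [lineEvalC_pow] at h
    exact hpz x z (by
      by_contra hw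
      exact pow_ne_zero k hw h)






/-! ### padding of lifts -/

/-- A lift given by a linear map into symmetric `ι × ι` matrices with an auxiliary space of
dimension at most `a` gives a lift with matrices of size exactly `k ≥ card ι` and `a` auxiliary
variables. -/
theorem lift_pad {m k a : ℕ} {ι E : Type*} [Fintype ι] [DecidableEq ι]
    [AddCommGroup E] [Module ℝ E] [FiniteDimensional ℝ E]
    (hι : Fintype.card ι ≤ k) (hE : Module.finrank ℝ E ≤ a)
    (P : (Fin m → ℝ) →ₗ[ℝ] Matrix ι ι ℝ) (Q : E →ₗ[ℝ] Matrix ι ι ℝ)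
    (hP : ∀ x, (P x).IsSymm) (hQ : ∀ y, (Q y).IsSymm) (K : Set (Fin m → ℝ))
    (hK : ∀ x, x ∈ K ↔ ∃ y : E, (P x + Q y).PosSemidef) :
    ∃ (A : Fin m → Matrix (Fin k) (Fin k) ℝ) (B : Fin a → Matrix (Fin k) (Fin k) ℝ),
      (∀ i, (A i).IsSymm) ∧ (∀ j, (B j).IsSymm) ∧
        K = {x | ∃ v : Fin a → ℝ, (∑ i, x i • A i + ∑ j, v j • B j).PosSemidef} := by
  classical
  -- a surjection `Fin a → ℝ` onto `E`
  obtain ⟨S, hS⟩ : ∃ S : (Fin a → ℝ) →ₗ[ℝ] E, Function.Surjective S := by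
    let b := Module.finBasis ℝ E
    refine ⟨b.equivFun.symm.toLinearMap ∘ₗ LinearMap.funLeft ℝ ℝ (Fin.castLE hE), ?_⟩
    exact b.equivFun.symm.surjective.comp
      (LinearMap.funLeft_surjective_of_injective ℝ ℝ _ (Fin.castLE_injective hE))
  -- an embedding `ι → Fin k`
  obtain ⟨φ⟩ : Nonempty (ι ↪ Fin k) := Function.Embedding.nonempty_of_card_le (by simpa using hι)
  -- the padding map
  let pad : Matrix ι ι ℝ →ₗ[ℝ] Matrix (Fin k) (Fin k) ℝ :=
    { toFun := fun M => Matrix.of fun i j =>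
        if h : (∃ a, φ a = i) ∧ ∃ b, φ b = j then M h.1.choose h.2.choose else 0
      map_add' := by
        intro M N
        ext i j
        simp only [Matrix.of_apply, Matrix.add_apply]
        split_ifs <;> simp
      map_smul' := by
        intro r M
        ext i j
        simp only [Matrix.of_apply, Matrix.smul_apply, RingHom.id_apply]
        split_ifs <;> simp }
  have pad_app : ∀ (M : Matrix ι ι ℝ) (a b : ι), pad M (φ a) (φ b) = M a b := by
    intro M a b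
    have h : (∃ a', φ a' = φ a) ∧ ∃ b', φ b' = φ b := ⟨⟨a, rfl⟩, ⟨b, rfl⟩⟩
    simp only [pad, LinearMap.coe_mk, AddHom.coe_mk, Matrix.of_apply, dif_pos h]
    rw [φ.injective h.1.choose_spec, φ.injective h.2.choose_spec]
  have pad_symm : ∀ M : Matrix ι ι ℝ, M.IsSymm → (pad M).IsSymm := by
    intro M hM
    ext i j
    simp only [pad, LinearMap.coe_mk, AddHom.coe_mk, Matrix.of_apply, Matrix.transpose_apply]
    by_cases hi : ∃ a, φ a = i <;> by_cases hj : ∃ b, φ b = j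
    · rw [dif_pos ⟨hj, hi⟩, dif_pos ⟨hi, hj⟩]
      exact congrFun (congrFun hM _) _
    · rw [dif_neg (fun h => hj h.1), dif_neg (fun h => hj h.2)]
    · rw [dif_neg (fun h => hi h.2), dif_neg (fun h => hi h.1)]
    · rw [dif_neg (fun h => hi h.2), dif_neg (fun h => hi h.1)]
  -- the quadratic form of the padded matrix
  have pad_quad : ∀ (M : Matrix ι ι ℝ) (w : Fin k → ℝ),
      w ⬝ᵥ (pad M).mulVec w = (fun a => w (φ a)) ⬝ᵥ M.mulVec (fun a => w (φ a)) := by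
    intro M w
    have hz : ∀ i j : Fin k, (i ∉ Set.range φ ∨ j ∉ Set.range φ) → pad M i j = 0 := by
      intro i j h
      simp only [pad, LinearMap.coe_mk, AddHom.coe_mk, Matrix.of_apply]
      rw [dif_neg]
      rintro ⟨⟨a, ha⟩, ⟨b, hb⟩⟩
      rcases h with h | h
      · exact h ⟨a, ha⟩
      · exact h ⟨b, hb⟩
    have hsum : ∀ f : Fin k → ℝ, (∀ i, i ∉ Set.range φ → f i = 0) →
        ∑ i, f i = ∑ a, f (φ a) := by
      intro f hf
      rw [← Finset.sum_map Finset.univ φ f]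
      symm
      refine Finset.sum_subset (Finset.subset_univ _) fun i _ hi => hf i ?_
      rintro ⟨a, ha⟩
      exact hi (Finset.mem_map.2 ⟨a, Finset.mem_univ a, ha⟩)
    simp only [dotProduct, Matrix.mulVec]
    rw [hsum]
    · refine Finset.sum_congr rfl fun a _ => ?_
      congr 1
      rw [hsum]
      · exact Finset.sum_congr rfl fun b _ => by rw [pad_app]
      · intro j hj
        rw [hz _ _ (Or.inr hj), zero_mul]
    · intro i hi
      have : ∑ j, pad M i j * w j = 0 :=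
        Finset.sum_eq_zero fun j _ => by rw [hz _ _ (Or.inl hi), zero_mul]
      rw [this, mul_zero]
  have pad_psd : ∀ M : Matrix ι ι ℝ, M.IsSymm → ((pad M).PosSemidef ↔ M.PosSemidef) := by
    intro M hM
    constructor
    · intro h
      refine Matrix.PosSemidef.of_dotProduct_mulVec_nonneg ?_ fun y => ?_
      · rw [Matrix.IsHermitian, Matrix.conjTranspose_eq_transpose_of_trivial]; exact hM
      · have h2 := h.dotProduct_mulVec_nonneg (fun i => if h : ∃ a, φ a = i then y h.choose else 0)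
        have h3 := pad_quad M (fun i => if h : ∃ a, φ a = i then y h.choose else 0)
        have h4 : (fun a => (fun i => if h : ∃ a, φ a = i then y h.choose else 0) (φ a)) = y := by
          ext a
          have h5 : ∃ a', φ a' = φ a := ⟨a, rfl⟩
          simp only [dif_pos h5]
          rw [φ.injective h5.choose_spec]
        rw [h4] at h3
        simp only [star_trivial] at h2 ⊢
        rw [← h3]; exact h2
    · intro h
      refine Matrix.PosSemidef.of_dotProduct_mulVec_nonneg ?_ fun w => ?_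
      · rw [Matrix.IsHermitian, Matrix.conjTranspose_eq_transpose_of_trivial]
        exact pad_symm M hM
      · simp only [star_trivial]
        rw [pad_quad]
        have := h.dotProduct_mulVec_nonneg (fun a => w (φ a))
        simpa using this
  refine ⟨fun i => pad (P (Pi.single i 1)), fun j => pad (Q (S (Pi.single j 1))),
    fun i => pad_symm _ (hP _), fun j => pad_symm _ (hQ _), ?_⟩
  have hx : ∀ x : Fin m → ℝ, ∑ i, x i • pad (P (Pi.single i 1)) = pad (P x) := by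
    intro x
    conv_rhs => rw [← Finset.univ_sum_single x]
    simp only [map_sum]
    refine Finset.sum_congr rfl fun i _ => ?_
    rw [← map_smul, ← map_smul, ← Pi.single_smul]
    simp
  have hv : ∀ v : Fin a → ℝ, ∑ j, v j • pad (Q (S (Pi.single j 1))) = pad (Q (S v)) := by
    intro v
    conv_rhs => rw [← Finset.univ_sum_single v]
    simp only [map_sum]
    refine Finset.sum_congr rfl fun i _ => ?_
    rw [← map_smul, ← map_smul, ← map_smul, ← Pi.single_smul]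
    simp
  ext x
  rw [hK, Set.mem_ofPred_eq]
  constructor
  · rintro ⟨y, hy⟩
    obtain ⟨v, rfl⟩ := hS y
    refine ⟨v, ?_⟩
    rw [hx, hv, ← map_add, pad_psd _ ((hP x).add (hQ _))]
    exact hy
  · rintro ⟨v, hv'⟩
    refine ⟨S v, ?_⟩
    rw [hx, hv, ← map_add, pad_psd _ ((hP x).add (hQ _))] at hv'
    exact hv'


end Crest.Agent.R237.S2
end

-- ▼ part R237/S2HypMain
section

/-!
Row 237, S0368, node A: `poly k` is homogeneous of degree `11 + k`, hyperbolic, and `1` at `e`.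
-/

set_option autoImplicit false

open Matrix MvPolynomial
open Crest.GeometryTopology Hyperbolic

namespace Crest.Agent.R237.S2Hyp

open S2

/-! ### `F ≥ 0` -/

theorem FF_nonneg (p q r s x0 x1 y0 y1 y2 : ℝ) : 0 ≤ FF p q r s x0 x1 y0 y1 y2 := by
  have e1 : |p * x1 * y0| * |q * x0 * y1| = |p * x0 * y1| * |q * x1 * y0| := by
    rw [← abs_mul, ← abs_mul]; congr 1; ring
  have e2 : |r * x1 * y1| * |s * x0 * y2| = |r * x0 * y2| * |s * x1 * y1| := by
    rw [← abs_mul, ← abs_mul]; congr 1; ring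
  have h1 := sq_nonneg (|p * x1 * y0| - |q * x0 * y1|)
  have h2 := sq_nonneg (|r * x1 * y1| - |s * x0 * y2|)
  have h3 := sq_nonneg (|p * x0 * y1| + |q * x1 * y0| - |r * x0 * y2| - |s * x1 * y1|)
  have a1 : (p * x0 * y1) * (r * x0 * y2) ≤ |p * x0 * y1| * |r * x0 * y2| := by
    rw [← abs_mul]; exact le_abs_self _
  have a2 : (p * x0 * y1) * (s * x1 * y1) ≤ |p * x0 * y1| * |s * x1 * y1| := by
    rw [← abs_mul]; exact le_abs_self _
  have a3 : (q * x1 * y0) * (r * x0 * y2) ≤ |q * x1 * y0| * |r * x0 * y2| := by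
    rw [← abs_mul]; exact le_abs_self _
  have a4 : -((q * x1 * y0) * (s * x1 * y1)) ≤ |q * x1 * y0| * |s * x1 * y1| := by
    rw [← abs_mul]; exact neg_le_abs _
  have s1 := sq_abs (p * x1 * y0)
  have s2 := sq_abs (q * x0 * y1)
  have s3 := sq_abs (r * x1 * y1)
  have s4 := sq_abs (s * x0 * y2)
  have s5 := sq_abs (p * x0 * y1)
  have s6 := sq_abs (q * x1 * y0)
  have s7 := sq_abs (r * x0 * y2)
  have s8 := sq_abs (s * x1 * y1)
  have key : FF p q r s x0 x1 y0 y1 y2 = (p * x1 * y0) ^ 2 + (q * x0 * y1) ^ 2 +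
      (r * x1 * y1) ^ 2 + (s * x0 * y2) ^ 2 + (p * x0 * y1) ^ 2 + (q * x1 * y0) ^ 2 +
      (r * x0 * y2) ^ 2 + (s * x1 * y1) ^ 2 - 2 * ((p * x0 * y1) * (r * x0 * y2) +
        (p * x0 * y1) * (s * x1 * y1) + (q * x1 * y0) * (r * x0 * y2) -
        (q * x1 * y0) * (s * x1 * y1)) := by
    unfold FF; ring
  rw [key]
  nlinarith

/-- coefficient matrices of `Gam` -/
def G00 (p q r s : ℝ) : Matrix (Fin 3) (Fin 3) ℝ :=
  !![0, 0, 0; 0, p^2+q^2, -(p*r); 0, -(p*r), r^2+s^2]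

def G01 (p q r s : ℝ) : Matrix (Fin 3) (Fin 3) ℝ :=
  !![0, 0, -(q*r); 0, -(2*(p*s)), 0; -(q*r), 0, 0]

def G11 (p q r s : ℝ) : Matrix (Fin 3) (Fin 3) ℝ :=
  !![p^2+q^2, q*s, 0; q*s, r^2+s^2, 0; 0, 0, 0]

theorem G00_symm (p q r s : ℝ) : (G00 p q r s).IsSymm := by
  unfold G00; ext i j; fin_cases i <;> fin_cases j <;> simp [Matrix.transpose_apply]

theorem G01_symm (p q r s : ℝ) : (G01 p q r s).IsSymm := by
  unfold G01; ext i j; fin_cases i <;> fin_cases j <;> simp [Matrix.transpose_apply]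

theorem G11_symm (p q r s : ℝ) : (G11 p q r s).IsSymm := by
  unfold G11; ext i j; fin_cases i <;> fin_cases j <;> simp [Matrix.transpose_apply]

theorem form_eq (p q r s x0 x1 : ℝ) (y : Fin 3 → ℝ) :
    x0 ^ 2 * (y ⬝ᵥ (G00 p q r s *ᵥ y)) + x0 * x1 * (y ⬝ᵥ (G01 p q r s *ᵥ y)) +
      x1 ^ 2 * (y ⬝ᵥ (G11 p q r s *ᵥ y)) = FF p q r s x0 x1 (y 0) (y 1) (y 2) := by
  simp only [G00, G01, G11, FF, dotProduct, mulVec, Fin.sum_univ_three, Matrix.of_apply,
    Matrix.cons_val', Matrix.cons_val_zero, Matrix.cons_val_one, Matrix.cons_val,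
    Matrix.cons_val_fin_one]
  ring

/-- the real matrix `U` -/
theorem Um_symm (x : Fin 23 → ℝ) : (Um x).IsSymm := by
  unfold Um; ext i j; fin_cases i <;> fin_cases j <;> simp [Matrix.transpose_apply]

/-- `D9` along the complex line is the determinant of `core`. -/
theorem D9_line (x : Fin 23 → ℝ) (z : ℂ) :
    D9 (fun i => z * (e23 i : ℂ) - (x i : ℂ)) =
      ((((z - (x 0 : ℝ)) * (z - (x 2 : ℝ)) - ((x 1 : ℝ) : ℂ) ^ 2) •
        (z • (1 : Matrix (Fin 3) (Fin 3) ℂ) - (Um x).map Complex.ofReal) -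
      ((z - (x 2 : ℝ)) • (G00 (-(x 3)) (-(x 4)) (-(x 5)) (-(x 6))).map Complex.ofReal +
        ((x 1 : ℝ) : ℂ) • (G01 (-(x 3)) (-(x 4)) (-(x 5)) (-(x 6))).map Complex.ofReal +
        (z - (x 0 : ℝ)) • (G11 (-(x 3)) (-(x 4)) (-(x 5)) (-(x 6))).map Complex.ofReal)).det) := by
  unfold D9
  congr 1
  ext i j
  fin_cases i <;> fin_cases j <;>
    simp [dl, Um, Gam, G00, G01, G11, e23, Matrix.smul_apply, Matrix.sub_apply, Matrix.add_apply,
      Matrix.one_apply] <;> ring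

theorem map_dl {R S : Type*} [CommRing R] [CommRing S] (f : R →+* S) (z : Fin 23 → R) :
    f (dl z) = dl (fun i => f (z i)) := by
  simp [dl]

theorem map_D9 {R S : Type*} [CommRing R] [CommRing S] (f : R →+* S) (z : Fin 23 → R) :
    f (D9 z) = D9 (fun i => f (z i)) := by
  unfold D9
  rw [RingHom.map_det]
  congr 1
  ext i j
  fin_cases i <;> fin_cases j <;> simp [dl, Um, Gam, map_ofNat]

theorem lineEvalC_dl (x : Fin 23 → ℝ) (z : ℂ) :
    lineEvalC (dl (fun i => (MvPolynomial.X i : MvPolynomial (Fin 23) ℝ))) e23 x z =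
      dl (fun i => z * (e23 i : ℂ) - (x i : ℂ)) := by
  unfold lineEvalC
  have := map_dl (MvPolynomial.aeval (fun i => z * (e23 i : ℂ) - (x i : ℂ)) :
    MvPolynomial (Fin 23) ℝ →ₐ[ℝ] ℂ).toRingHom (fun i => MvPolynomial.X i)
  simpa using this

theorem lineEvalC_D9 (x : Fin 23 → ℝ) (z : ℂ) :
    lineEvalC (D9 (fun i => (MvPolynomial.X i : MvPolynomial (Fin 23) ℝ))) e23 x z =
      D9 (fun i => z * (e23 i : ℂ) - (x i : ℂ)) := by
  unfold lineEvalC
  have := map_D9 (MvPolynomial.aeval (fun i => z * (e23 i : ℂ) - (x i : ℂ)) :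
    MvPolynomial (Fin 23) ℝ →ₐ[ℝ] ℂ).toRingHom (fun i => MvPolynomial.X i)
  simpa using this

/-! ### homogeneity -/

theorem homog_dl : (dl (fun i => (MvPolynomial.X i : MvPolynomial (Fin 23) ℝ))).IsHomogeneous 2 := by
  unfold dl
  exact ((isHomogeneous_X ℝ 0).mul (isHomogeneous_X ℝ 2)).sub ((isHomogeneous_X ℝ 1).pow 2)

theorem homog_det {M : Matrix (Fin 3) (Fin 3) (MvPolynomial (Fin 23) ℝ)} {d : ℕ}
    (h : ∀ i j, (M i j).IsHomogeneous d) : M.det.IsHomogeneous (d + d + d) := by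
  rw [Matrix.det_fin_three]
  have t : ∀ i j k l m n, (M i j * M k l * M m n).IsHomogeneous (d + d + d) := fun i j k l m n =>
    ((h i j).mul (h k l)).mul (h m n)
  exact (((((t _ _ _ _ _ _).sub (t _ _ _ _ _ _)).sub (t _ _ _ _ _ _)).add (t _ _ _ _ _ _)).add
    (t _ _ _ _ _ _)).sub (t _ _ _ _ _ _)

theorem homog_D9 : (D9 (fun i => (MvPolynomial.X i : MvPolynomial (Fin 23) ℝ))).IsHomogeneous 9 := by
  unfold D9
  have hX : ∀ i : Fin 23, (MvPolynomial.X i : MvPolynomial (Fin 23) ℝ).IsHomogeneous 1 := fun i =>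
    isHomogeneous_X ℝ i
  have h2 : ∀ i j : Fin 23, ((MvPolynomial.X i : MvPolynomial (Fin 23) ℝ) * MvPolynomial.X j).IsHomogeneous 2 :=
    fun i j => (hX i).mul (hX j)
  have hp : ∀ i : Fin 23, ((MvPolynomial.X i : MvPolynomial (Fin 23) ℝ) ^ 2).IsHomogeneous 2 :=
    fun i => (hX i).pow 2
  have h3 : ∀ (P : MvPolynomial (Fin 23) ℝ) (i : Fin 23), P.IsHomogeneous 2 →
      (P * MvPolynomial.X i).IsHomogeneous 3 := fun P i hP => hP.mul (hX i)
  have h0 : (0 : MvPolynomial (Fin 23) ℝ).IsHomogeneous 3 := isHomogeneous_zero _ _ _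
  have hc : ∀ (P : MvPolynomial (Fin 23) ℝ), P.IsHomogeneous 3 → (2 * P).IsHomogeneous 3 := by
    intro P hP
    have e : (2 : MvPolynomial (Fin 23) ℝ) = MvPolynomial.C (2 : ℝ) := (map_ofNat MvPolynomial.C 2).symm
    rw [e]
    simpa using (isHomogeneous_C (Fin 23) (2 : ℝ)).mul hP
  refine homog_det (d := 3) fun i j => ?_
  fin_cases i <;> fin_cases j <;>
    simp only [Fin.zero_eta, Fin.mk_one, Fin.reduceFinMk, Matrix.sub_apply, Matrix.smul_apply,
      smul_eq_mul, Um, Gam, Matrix.of_apply, Matrix.cons_val', Matrix.cons_val_zero,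
      Matrix.cons_val_one, Matrix.cons_val, Matrix.cons_val_fin_one, mul_neg, neg_mul, neg_neg,
      sub_neg_eq_add]
  · exact (h3 _ _ homog_dl).sub (h3 _ _ ((hp _).add (hp _)))
  · exact (h3 _ _ homog_dl).sub (h3 _ _ (h2 _ _))
  · exact (h3 _ _ homog_dl).sub (h3 _ _ (h2 _ _))
  · exact (h3 _ _ homog_dl).sub (h3 _ _ (h2 _ _))
  · exact (h3 _ _ homog_dl).sub (((h3 _ _ ((hp _).add (hp _))).add (h3 _ _ ((hp _).add (hp _)))).add
      (hc _ (h3 _ _ (h2 _ _))))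
  · exact (h3 _ _ homog_dl).add (h3 _ _ (h2 _ _))
  · exact (h3 _ _ homog_dl).sub (h3 _ _ (h2 _ _))
  · exact (h3 _ _ homog_dl).add (h3 _ _ (h2 _ _))
  · exact (h3 _ _ homog_dl).sub (h3 _ _ ((hp _).add (hp _)))

/-- **homogeneity** -/
theorem homog_poly (k : ℕ) : (poly k).IsHomogeneous (11 + k) := by
  unfold poly
  have := (homog_dl.mul homog_D9).mul ((isHomogeneous_X ℝ (0 : Fin 23)).pow k)
  simpa using this

/-! ### value at `e` -/

theorem eval_poly (k : ℕ) (x : Fin 23 → ℝ) : eval x (poly k) = dl x * D9 x * x 0 ^ k := by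
  unfold poly
  rw [map_mul, map_mul, map_pow, eval_X]
  have h1 := map_dl (MvPolynomial.eval x) (fun i => MvPolynomial.X i)
  have h2 := map_D9 (MvPolynomial.eval x) (fun i => MvPolynomial.X i)
  simp only [eval_X] at h1 h2
  rw [h1, h2]

theorem eval_e (k : ℕ) : eval e23 (poly k) = 1 := by
  rw [eval_poly]
  have h1 : dl e23 = 1 := by simp [dl, e23]
  have h2 : D9 e23 = 1 := by
    unfold D9
    rw [Matrix.det_fin_three]
    simp [dl, Um, Gam, e23]
  have h3 : e23 0 = 1 := rfl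
  rw [h1, h2, h3]; simp

/-! ### hyperbolicity -/

theorem hyp_dl : IsHyperbolic (dl (fun i => (MvPolynomial.X i : MvPolynomial (Fin 23) ℝ))) e23 := by
  refine ⟨⟨2, homog_dl⟩, ?_, ?_⟩
  · have h1 := map_dl (MvPolynomial.eval e23) (fun i => MvPolynomial.X i)
    simp only [eval_X] at h1
    rw [h1]; simp [dl, e23]
  · intro x z h
    rw [lineEvalC_dl] at h
    simp only [dl, e23, Matrix.cons_val_zero, Matrix.cons_val_one, Matrix.cons_val] at h
    by_contra hz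
    have hre := congrArg Complex.re h
    have him := congrArg Complex.im h
    simp [pow_two] at hre him
    have e1 : z.im * ((z.re - x 0) + (z.re - x 2)) = 0 := by linarith
    have e2 : (z.re - x 0) + (z.re - x 2) = 0 := (mul_eq_zero.1 e1).resolve_left hz
    have e3 : z.re - x 2 = -(z.re - x 0) := by linarith
    rw [e3] at hre
    have : 0 < z.im ^ 2 := by positivity
    nlinarith [sq_nonneg (z.re - x 0), sq_nonneg (x 1)]

theorem hyp_D9 : IsHyperbolic (D9 (fun i => (MvPolynomial.X i : MvPolynomial (Fin 23) ℝ))) e23 := by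
  refine ⟨⟨9, homog_D9⟩, ?_, ?_⟩
  · have h1 := map_D9 (MvPolynomial.eval e23) (fun i => MvPolynomial.X i)
    simp only [eval_X] at h1
    rw [h1]
    unfold D9
    rw [Matrix.det_fin_three]
    simp [dl, Um, Gam, e23]
  · intro x z h
    rw [lineEvalC_D9, D9_line] at h
    exact core _ _ _ _ (G00_symm _ _ _ _) (G01_symm _ _ _ _) (G11_symm _ _ _ _) (Um_symm x)
      (fun x0 x1 y => by rw [form_eq]; exact FF_nonneg _ _ _ _ _ _ _ _ _) _ _ _ z h

theorem X_eq_linF : (MvPolynomial.X 0 : MvPolynomial (Fin 23) ℝ) = linF (Pi.single 0 1) := by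
  unfold linF
  rw [Finset.sum_eq_single 0]
  · simp
  · intro b _ hb; simp [hb]
  · intro h; exact absurd (Finset.mem_univ _) h

/-- **hyperbolicity of `poly k`** -/
theorem hyp_poly (k : ℕ) : IsHyperbolic (poly k) e23 := by
  unfold poly
  refine hyp_mul (hyp_mul hyp_dl hyp_D9) (hyp_pow ?_ k)
  rw [X_eq_linF]
  refine hyp_linF _ _ ?_
  rw [Finset.sum_eq_single 0]
  · simp [e23]
  · intro b _ hb; simp [hb]
  · intro h; exact absurd (Finset.mem_univ _) h

/-- same as `hyp_poly` -/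
theorem hyperbolic_poly (k : ℕ) : Hyperbolic.IsHyperbolic (poly k) e23 := hyp_poly k

end Crest.Agent.R237.S2Hyp
end

-- ▼ part R237/S2KF
section

/-!
Row 237, S0368, KFACTS (helper513): torus invariance of `KK` and `BK`, `K0 ⊆ KK`, and
`x ∈ BK → x - ε e ∉ KK`.
-/

set_option autoImplicit false

open Matrix

namespace Crest.Agent.R237.S2

/-- the quadratic form of `Gam` -/
def GF (p q r s P00 P01 P11 y0 y1 y2 : ℝ) : ℝ :=
  (p^2+q^2)*P11*y0^2 + 2*(q*s*P11)*(y0*y1) - 2*(q*r*P01)*(y0*y2)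
    + ((p^2+q^2)*P00 + (r^2+s^2)*P11 - 2*(p*s*P01))*y1^2
    - 2*(p*r*P00)*(y1*y2) + (r^2+s^2)*P00*y2^2

theorem GF_nonneg (p q r s Q00 Q01 Q11 y0 y1 y2 : ℝ) (h0 : 0 ≤ Q00) (h1 : 0 ≤ Q11)
    (h : Q01 ^ 2 ≤ Q00 * Q11) : 0 ≤ GF p q r s Q00 Q01 Q11 y0 y1 y2 := by
  have f1 := S2Hyp.FF_nonneg p q r s 0 1 y0 y1 y2
  rcases eq_or_lt_of_le h0 with h0 | h0
  · have hQ : Q01 = 0 := by
      have : Q01 ^ 2 ≤ 0 := by rw [← h0] at h; simpa using h
      exact pow_eq_zero_iff (two_ne_zero) |>.1 (le_antisymm this (sq_nonneg _))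
    have e : GF p q r s Q00 Q01 Q11 y0 y1 y2 = Q11 * FF p q r s 0 1 y0 y1 y2 := by
      rw [hQ, ← h0]; unfold GF FF; ring
    rw [e]; exact mul_nonneg h1 f1
  · have f2 := S2Hyp.FF_nonneg p q r s Q00 Q01 y0 y1 y2
    have e : Q00 * GF p q r s Q00 Q01 Q11 y0 y1 y2 = FF p q r s Q00 Q01 y0 y1 y2
        + (Q00 * Q11 - Q01 ^ 2) * FF p q r s 0 1 y0 y1 y2 := by
      unfold GF FF; ring
    have h2 : 0 ≤ Q00 * GF p q r s Q00 Q01 Q11 y0 y1 y2 := by
      rw [e]; exact add_nonneg f2 (mul_nonneg (by linarith) f1)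
    exact nonneg_of_mul_nonneg_right h2 h0

/-- the quadratic form of `U - Γ(v)(X⁻¹)` -/
theorem form_UG (z : Fin 23 → ℝ) (y : Fin 3 → ℝ) :
    y ⬝ᵥ ((Um z - Gz z) *ᵥ y) = (z 7 * y 0 ^ 2 + 2 * z 8 * (y 0 * y 1) + 2 * z 9 * (y 0 * y 2)
      + z 10 * y 1 ^ 2 + 2 * z 11 * (y 1 * y 2) + z 12 * y 2 ^ 2)
      - GF (z 3) (z 4) (z 5) (z 6) (z 2 / dl z) (-(z 1) / dl z) (z 0 / dl z) (y 0) (y 1) (y 2) := by
  simp only [Um, Gz, Gam, GF, dotProduct, mulVec, Fin.sum_univ_three, Matrix.of_apply,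
    Matrix.sub_apply, Matrix.cons_val', Matrix.cons_val_zero, Matrix.cons_val_one, Matrix.cons_val,
    Matrix.cons_val_fin_one]
  ring

theorem UG_herm (z : Fin 23 → ℝ) : (Um z - Gz z).IsHermitian := by
  ext i j
  fin_cases i <;> fin_cases j <;>
    simp [Um, Gz, Gam, Matrix.conjTranspose_apply]

theorem dl_pos_two {z : Fin 23 → ℝ} (h0 : 0 < z 0) (hd : 0 < dl z) : 0 < z 2 := by
  unfold dl at hd
  by_contra h
  have : z 0 * z 2 ≤ 0 := mul_nonpos_of_nonneg_of_nonpos h0.le (not_lt.1 h)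
  nlinarith [sq_nonneg (z 1)]

/-- diagonal nonnegative increments -/
structure DiagInc (w : Fin 23 → ℝ) : Prop where
  h0 : 0 ≤ w 0
  h1 : w 1 = 0
  h2 : 0 ≤ w 2
  h3 : w 3 = 0
  h4 : w 4 = 0
  h5 : w 5 = 0
  h6 : w 6 = 0
  h7 : 0 ≤ w 7
  h8 : w 8 = 0
  h9 : w 9 = 0
  h10 : 0 ≤ w 10
  h11 : w 11 = 0
  h12 : 0 ≤ w 12

theorem K0_form_add {z w : Fin 23 → ℝ} (h0 : 0 < z 0) (hd : 0 < dl z) (hw : DiagInc w) :
    0 < (z + w) 0 ∧ 0 < dl (z + w) ∧ ∀ y : Fin 3 → ℝ,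
      y ⬝ᵥ ((Um z - Gz z) *ᵥ y) + (w 7 * y 0 ^ 2 + w 10 * y 1 ^ 2 + w 12 * y 2 ^ 2)
        ≤ y ⬝ᵥ ((Um (z + w) - Gz (z + w)) *ᵥ y) := by
  have h2 := dl_pos_two h0 hd
  have hd' : 0 < dl (z + w) := by
    have e : dl (z + w) = dl z + (z 0 * w 2 + w 0 * z 2 + w 0 * w 2) := by
      simp only [dl, Pi.add_apply, hw.h1]; ring
    rw [e]
    have a1 := mul_nonneg h0.le hw.h2
    have a2 := mul_nonneg hw.h0 h2.le
    have a3 := mul_nonneg hw.h0 hw.h2
    linarith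
  refine ⟨?_, hd', fun y => ?_⟩
  · simp only [Pi.add_apply]; have := hw.h0; linarith
  rw [form_UG, form_UG]
  set d := dl z with hdd
  set d' := dl (z + w) with hdd'
  have key := GF_nonneg (z 3) (z 4) (z 5) (z 6) (z 2 / d - (z 2 + w 2) / d')
    (-(z 1) / d - -(z 1) / d') (z 0 / d - (z 0 + w 0) / d') (y 0) (y 1) (y 2) ?_ ?_ ?_
  · have e : GF (z 3) (z 4) (z 5) (z 6) (z 2 / d - (z 2 + w 2) / d')
        (-(z 1) / d - -(z 1) / d') (z 0 / d - (z 0 + w 0) / d') (y 0) (y 1) (y 2) =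
        GF (z 3) (z 4) (z 5) (z 6) (z 2 / d) (-(z 1) / d) (z 0 / d) (y 0) (y 1) (y 2)
        - GF (z 3) (z 4) (z 5) (z 6) ((z 2 + w 2) / d') (-(z 1) / d') ((z 0 + w 0) / d')
          (y 0) (y 1) (y 2) := by
      unfold GF; ring
    rw [e] at key
    simp only [Pi.add_apply, hw.h1, hw.h3, hw.h4, hw.h5, hw.h6, hw.h8, hw.h9, hw.h11, add_zero]
    nlinarith
  · have e : z 2 / d - (z 2 + w 2) / d' =
        (z 2 * (z 2 + w 2) * w 0 + w 2 * z 1 ^ 2) / (d * d') := by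
      rw [div_sub_div _ _ hd.ne' hd'.ne']
      congr 1
      rw [hdd, hdd']
      simp only [dl, Pi.add_apply, hw.h1]; ring
    rw [e]
    have a1 := hw.h0
    have a2 := hw.h2
    positivity
  · have e : z 0 / d - (z 0 + w 0) / d' =
        (z 0 * (z 0 + w 0) * w 2 + w 0 * z 1 ^ 2) / (d * d') := by
      rw [div_sub_div _ _ hd.ne' hd'.ne']
      congr 1
      rw [hdd, hdd']
      simp only [dl, Pi.add_apply, hw.h1]; ring
    rw [e]
    have a1 := hw.h0
    have a2 := hw.h2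
    positivity
  · have e0 : z 2 / d - (z 2 + w 2) / d' =
        (z 2 * (z 2 + w 2) * w 0 + w 2 * z 1 ^ 2) / (d * d') := by
      rw [div_sub_div _ _ hd.ne' hd'.ne']
      congr 1
      rw [hdd, hdd']
      simp only [dl, Pi.add_apply, hw.h1]; ring
    have e1 : z 0 / d - (z 0 + w 0) / d' =
        (z 0 * (z 0 + w 0) * w 2 + w 0 * z 1 ^ 2) / (d * d') := by
      rw [div_sub_div _ _ hd.ne' hd'.ne']
      congr 1
      rw [hdd, hdd']
      simp only [dl, Pi.add_apply, hw.h1]; ring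
    have e2 : -(z 1) / d - -(z 1) / d' =
        (-(z 1) * (z 0 * w 2 + w 0 * z 2 + w 0 * w 2)) / (d * d') := by
      rw [div_sub_div _ _ hd.ne' hd'.ne']
      congr 1
      rw [hdd, hdd']
      simp only [dl, Pi.add_apply, hw.h1]; ring
    rw [e0, e1, e2, div_pow, div_mul_div_comm, ← pow_two (d * d')]
    refine div_le_div_of_nonneg_right ?_ (by positivity)
    have e3 : (z 2 * (z 2 + w 2) * w 0 + w 2 * z 1 ^ 2) * (z 0 * (z 0 + w 0) * w 2 + w 0 * z 1 ^ 2)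
        - (-(z 1) * (z 0 * w 2 + w 0 * z 2 + w 0 * w 2)) ^ 2 = w 0 * w 2 * (d * d') := by
      rw [hdd, hdd']
      simp only [dl, Pi.add_apply, hw.h1]; ring
    have a1 := hw.h0
    have a2 := hw.h2
    have : 0 ≤ w 0 * w 2 * (d * d') := by positivity
    linarith

theorem star_eq (y : Fin 3 → ℝ) : star y = y := by ext i; simp

theorem K0_add {z w : Fin 23 → ℝ} (hz : z ∈ K0) (hw : DiagInc w) : z + w ∈ K0 := by
  obtain ⟨h0, hd, hU⟩ := hz
  obtain ⟨a, b, c⟩ := K0_form_add h0 hd hw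
  refine ⟨a, b, Matrix.PosSemidef.of_dotProduct_mulVec_nonneg (UG_herm _) fun y => ?_⟩
  have h1 := hU.dotProduct_mulVec_nonneg y
  rw [star_eq] at h1 ⊢
  have h2 := c y
  have a1 := mul_nonneg hw.h7 (sq_nonneg (y 0))
  have a2 := mul_nonneg hw.h10 (sq_nonneg (y 1))
  have a3 := mul_nonneg hw.h12 (sq_nonneg (y 2))
  linarith

theorem diagInc_smul_e {t : ℝ} (ht : 0 ≤ t) : DiagInc (t • e23) := by
  constructor <;> simp [e23, ht]

theorem K0_sub_KK : Stmt_K0_sub_KK := fun _ hz _ ht => K0_add hz (diagInc_smul_e ht.le)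

theorem BK_sub : Stmt_BK_sub := by
  intro x hx ε hε hK
  have hz : x - ε • e23 + (ε / 2) • e23 ∈ K0 := hK (ε / 2) (by positivity)
  set z := x - ε • e23 + (ε / 2) • e23 with hzd
  have hxz : x = z + (ε / 2) • e23 := by
    rw [hzd]
    ext i
    simp only [Pi.add_apply, Pi.sub_apply, Pi.smul_apply, smul_eq_mul]
    ring
  obtain ⟨h0, hd, hU⟩ := hz
  obtain ⟨a, b, c⟩ := K0_form_add h0 hd (diagInc_smul_e (t := ε / 2) (by positivity))
  rw [← hxz] at c
  have hpd : (Um x - Gz x).PosDef := by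
    refine Matrix.PosDef.of_dotProduct_mulVec_pos (UG_herm _) fun y hy => ?_
    have h1 := hU.dotProduct_mulVec_nonneg y
    rw [star_eq] at h1 ⊢
    have h2 := c y
    have e7 : ((ε / 2) • e23 : Fin 23 → ℝ) 7 = ε / 2 := by simp [e23]
    have e10 : ((ε / 2) • e23 : Fin 23 → ℝ) 10 = ε / 2 := by simp [e23]
    have e12 : ((ε / 2) • e23 : Fin 23 → ℝ) 12 = ε / 2 := by simp [e23]
    rw [e7, e10, e12] at h2
    have h3 : 0 < y 0 ^ 2 + y 1 ^ 2 + y 2 ^ 2 := by
      by_contra hc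
      apply hy
      have s0 := sq_nonneg (y 0)
      have s1 := sq_nonneg (y 1)
      have s2 := sq_nonneg (y 2)
      have z0 : y 0 ^ 2 = 0 := by linarith
      have z1 : y 1 ^ 2 = 0 := by linarith
      have z2 : y 2 ^ 2 = 0 := by linarith
      ext i
      fin_cases i
      · simpa using z0
      · simpa using z1
      · simpa using z2
    have h4 : 0 < (ε / 2) * (y 0 ^ 2 + y 1 ^ 2 + y 2 ^ 2) := by positivity
    linarith
  exact absurd hx.2.2.2 hpd.det_pos.ne'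

/-! ### torus -/

/-- `diag (l², l, 1)` -/
def Dt (l : ℝ) : Matrix (Fin 3) (Fin 3) ℝ := !![l ^ 2, 0, 0; 0, l, 0; 0, 0, 1]

theorem dl_tor (l : ℝ) (x : Fin 23 → ℝ) : dl (tor l x) = l ^ 42 * dl x := by
  simp only [dl, tor, wt, Matrix.cons_val_zero, Matrix.cons_val_one, Matrix.cons_val]
  ring

theorem UG_tor {l : ℝ} (hl : 0 < l) {x : Fin 23 → ℝ} (hd : 0 < dl x) :
    Um (tor l x) - Gz (tor l x) = Dt l * (Um x - Gz x) * Dt l := by
  have hl0 := hl.ne'
  have hd0 := hd.ne'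
  have e0 : tor l x 2 / dl (tor l x) = x 2 / dl x / l ^ 22 := by
    rw [dl_tor]
    simp only [tor, wt, Matrix.cons_val]
    field_simp
  have e1 : -(tor l x 1) / dl (tor l x) = -(x 1) / dl x / l ^ 21 := by
    rw [dl_tor]
    simp only [tor, wt, Matrix.cons_val_one, Matrix.cons_val]
    field_simp
  have e2 : tor l x 0 / dl (tor l x) = x 0 / dl x / l ^ 20 := by
    rw [dl_tor]
    simp only [tor, wt, Matrix.cons_val_zero]
    field_simp
  unfold Gz
  rw [e0, e1, e2]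
  generalize x 2 / dl x = P0
  generalize -(x 1) / dl x = P1
  generalize x 0 / dl x = P2
  ext i j
  fin_cases i <;> fin_cases j <;>
    simp only [Um, Gam, Dt, tor, wt, Matrix.mul_apply, Fin.sum_univ_three, Matrix.sub_apply,
      Matrix.of_apply, Matrix.cons_val', Matrix.cons_val_zero, Matrix.cons_val_one, Matrix.cons_val,
      Matrix.cons_val_fin_one, Fin.zero_eta, Fin.mk_one, Fin.reduceFinMk] <;>
    field_simp <;> ring

theorem Dt_symm (l : ℝ) : (Dt l)ᴴ = Dt l := by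
  ext i j
  fin_cases i <;> fin_cases j <;> simp [Dt, Matrix.conjTranspose_apply]

theorem tor_K0 {l : ℝ} (hl : 0 < l) {x : Fin 23 → ℝ} (hx : x ∈ K0) : tor l x ∈ K0 := by
  obtain ⟨h0, hd, hU⟩ := hx
  refine ⟨?_, ?_, ?_⟩
  · simp only [tor]; positivity
  · rw [dl_tor]; positivity
  · rw [UG_tor hl hd]
    have := hU.conjTranspose_mul_mul_same (Dt l)
    rwa [Dt_symm] at this

theorem tor_BK : Stmt_tor_BK := by
  intro l hl x hx
  obtain ⟨h0, hd, hU, hdet⟩ := hx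
  obtain ⟨a, b, c⟩ := tor_K0 hl (show x ∈ K0 from ⟨h0, hd, hU⟩)
  refine ⟨a, b, c, ?_⟩
  rw [UG_tor hl hd, Matrix.det_mul, Matrix.det_mul, hdet]
  simp

theorem tor_KK : Stmt_tor_KK := by
  intro l hl x hx t ht
  -- choose `s` with `s * l ^ wt ≤ t`
  set s : ℝ := t / (l ^ 22 + l ^ 20 + l ^ 4 + l ^ 2 + 1) with hs
  have hden : 0 < l ^ 22 + l ^ 20 + l ^ 4 + l ^ 2 + 1 := by positivity
  have hs0 : 0 < s := by positivity
  have hst : s * (l ^ 22 + l ^ 20 + l ^ 4 + l ^ 2 + 1) = t := by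
    rw [hs]; field_simp
  have h1 := tor_K0 hl (hx s hs0)
  have e : tor l x + t • e23 = tor l (x + s • e23) + (fun k => (t - s * l ^ wt k) * e23 k) := by
    ext k
    simp only [Pi.add_apply, Pi.smul_apply, smul_eq_mul, tor]
    ring
  rw [e]
  refine K0_add h1 ?_
  have p22 : 0 < l ^ 22 := by positivity
  have p20 : 0 < l ^ 20 := by positivity
  have p4 : 0 < l ^ 4 := by positivity
  have p2 : 0 < l ^ 2 := by positivity
  constructor <;>
    simp only [e23, wt, Matrix.cons_val_zero, Matrix.cons_val_one, Matrix.cons_val, mul_zero,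
      mul_one, pow_zero]
  · nlinarith [mul_pos hs0 p22, mul_pos hs0 p20, mul_pos hs0 p4, mul_pos hs0 p2]
  · nlinarith [mul_pos hs0 p22, mul_pos hs0 p20, mul_pos hs0 p4, mul_pos hs0 p2]
  · nlinarith [mul_pos hs0 p22, mul_pos hs0 p20, mul_pos hs0 p4, mul_pos hs0 p2]
  · nlinarith [mul_pos hs0 p22, mul_pos hs0 p20, mul_pos hs0 p4, mul_pos hs0 p2]
  · nlinarith [mul_pos hs0 p22, mul_pos hs0 p20, mul_pos hs0 p4, mul_pos hs0 p2]

end Crest.Agent.R237.S2
end

-- ▼ part R237/S2KG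
section

/-!
Row 237, statement S0368, KFACTS: membership facts for the cone `KK`
(`e_pm`, `E_mem`, `block_mem`, `coord0`, `G_mem`, `xd_mem`, `e23_dummy_mem`).
-/

set_option autoImplicit false

namespace Crest.Agent.R237.S2

open Matrix Crest.Agent.R237.S2Cone


/-- `K0` depends only on the first 13 coordinates -/
theorem KG_K0_congr {x y : Fin 23 → ℝ} (h : ∀ k : Fin 23, (k : ℕ) < 13 → x k = y k) (hx : x ∈ K0) :
    y ∈ K0 := by
  have e0 := h 0 (by decide)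
  have e1 := h 1 (by decide)
  have e2 := h 2 (by decide)
  have e3 := h 3 (by decide)
  have e4 := h 4 (by decide)
  have e5 := h 5 (by decide)
  have e6 := h 6 (by decide)
  have e7 := h 7 (by decide)
  have e8 := h 8 (by decide)
  have e9 := h 9 (by decide)
  have e10 := h 10 (by decide)
  have e11 := h 11 (by decide)
  have e12 := h 12 (by decide)
  obtain ⟨a, b, c⟩ := hx
  have hd : dl x = dl y := by unfold dl; rw [e0, e1, e2]
  refine ⟨by rw [← e0]; exact a, by rw [← hd]; exact b, ?_⟩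
  have hU : Um y - Gz y = Um x - Gz x := by
    unfold Um Gz
    rw [hd, e0, e1, e2, e3, e4, e5, e6, e7, e8, e9, e10, e11, e12]
  rw [hU]; exact c

/-- `KK` depends only on the first 13 coordinates -/
theorem KG_KK_congr {x y : Fin 23 → ℝ} (h : ∀ k : Fin 23, (k : ℕ) < 13 → x k = y k) (hx : x ∈ KK) :
    y ∈ KK := by
  intro t ht
  exact KG_K0_congr (fun k hk => by simp only [Pi.add_apply, h k hk]) (hx t ht)

/-- positive semidefinite `3 × 3` matrices from the quadratic form -/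
theorem KG_psd3_of (a b c d e f : ℝ) (h : ∀ y0 y1 y2, 0 ≤ qf a b c d e f y0 y1 y2) :
    (!![a, b, c; b, d, e; c, e, f] : Matrix (Fin 3) (Fin 3) ℝ).PosSemidef :=
  (psd3_iff a b c d e f).2 h

theorem KG_e23_mem : e23 ∈ KK := by
  have : e23 = mk 1 0 1 0 0 0 0 1 0 0 1 0 1 := rfl
  rw [this]
  refine mk_mem_KK _ _ _ _ _ _ _ _ _ (by norm_num) (by norm_num) (by norm_num) ?_
  apply KG_psd3_of
  intro y0 y1 y2; unfold qf; nlinarith [sq_nonneg y0, sq_nonneg y1, sq_nonneg y2]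

theorem e23_dummy_mem : ∀ k : Fin 23, 13 ≤ (k : ℕ) → ∀ s : ℝ, e23 + s • Pi.single k 1 ∈ KK := by
  intro k hk s
  refine KG_KK_congr (x := e23) (fun j hj => ?_) KG_e23_mem
  have hne : j ≠ k := by
    rintro rfl; omega
  simp [hne]


theorem coord0 : Stmt_coord0 := by
  intro x hx
  by_contra hneg
  push Not at hneg
  have h := (hx (-(x 0)) (by linarith)).1
  simp [e23] at h

theorem E_mem : Stmt_E_mem := by
  intro i
  fin_cases i
  · have : (Pi.single (dg 0) (1 : ℝ) : Fin 23 → ℝ) = mk 1 0 0 0 0 0 0 0 0 0 0 0 0 := by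
      ext k; fin_cases k <;> simp [dg, mk]
    show (Pi.single (dg 0) (1 : ℝ) : Fin 23 → ℝ) ∈ KK
    rw [this]
    refine mk_mem_KK _ _ _ _ _ _ _ _ _ (by norm_num) (by norm_num) (by norm_num) ?_
    apply KG_psd3_of; intro y0 y1 y2; unfold qf; nlinarith [sq_nonneg y0, sq_nonneg y1, sq_nonneg y2]
  · have : (Pi.single (dg 1) (1 : ℝ) : Fin 23 → ℝ) = mk 0 0 1 0 0 0 0 0 0 0 0 0 0 := by
      ext k; fin_cases k <;> simp [dg, mk]
    show (Pi.single (dg 1) (1 : ℝ) : Fin 23 → ℝ) ∈ KK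
    rw [this]
    refine mk_mem_KK _ _ _ _ _ _ _ _ _ (by norm_num) (by norm_num) (by norm_num) ?_
    apply KG_psd3_of; intro y0 y1 y2; unfold qf; nlinarith [sq_nonneg y0, sq_nonneg y1, sq_nonneg y2]
  · have : (Pi.single (dg 2) (1 : ℝ) : Fin 23 → ℝ) = mk 0 0 0 0 0 0 0 1 0 0 0 0 0 := by
      ext k; fin_cases k <;> simp [dg, mk]
    show (Pi.single (dg 2) (1 : ℝ) : Fin 23 → ℝ) ∈ KK
    rw [this]
    refine mk_mem_KK _ _ _ _ _ _ _ _ _ (by norm_num) (by norm_num) (by norm_num) ?_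
    apply KG_psd3_of; intro y0 y1 y2; unfold qf; nlinarith [sq_nonneg y0, sq_nonneg y1, sq_nonneg y2]
  · have : (Pi.single (dg 3) (1 : ℝ) : Fin 23 → ℝ) = mk 0 0 0 0 0 0 0 0 0 0 1 0 0 := by
      ext k; fin_cases k <;> simp [dg, mk]
    show (Pi.single (dg 3) (1 : ℝ) : Fin 23 → ℝ) ∈ KK
    rw [this]
    refine mk_mem_KK _ _ _ _ _ _ _ _ _ (by norm_num) (by norm_num) (by norm_num) ?_
    apply KG_psd3_of; intro y0 y1 y2; unfold qf; nlinarith [sq_nonneg y0, sq_nonneg y1, sq_nonneg y2]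
  · have : (Pi.single (dg 4) (1 : ℝ) : Fin 23 → ℝ) = mk 0 0 0 0 0 0 0 0 0 0 0 0 1 := by
      ext k; fin_cases k <;> simp [dg, mk]
    show (Pi.single (dg 4) (1 : ℝ) : Fin 23 → ℝ) ∈ KK
    rw [this]
    refine mk_mem_KK _ _ _ _ _ _ _ _ _ (by norm_num) (by norm_num) (by norm_num) ?_
    apply KG_psd3_of; intro y0 y1 y2; unfold qf; nlinarith [sq_nonneg y0, sq_nonneg y1, sq_nonneg y2]



theorem e_pm : Stmt_e_pm := by
  intro k σ hσ
  have hb : σ ^ 2 = 1 / 4 := by rcases hσ with h | h <;> rw [h] <;> norm_num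
  have hlo : -(1/2) ≤ σ := by rcases hσ with h | h <;> rw [h] <;> norm_num
  have hhi : σ ≤ 1/2 := by rcases hσ with h | h <;> rw [h] <;> norm_num
  by_cases hk : 13 ≤ (k : ℕ)
  · exact e23_dummy_mem k hk σ
  push Not at hk
  -- the first 13 coordinates
  have hcase : k = 0 ∨ k = 1 ∨ k = 2 ∨ k = 3 ∨ k = 4 ∨ k = 5 ∨ k = 6 ∨ k = 7 ∨ k = 8 ∨ k = 9 ∨
      k = 10 ∨ k = 11 ∨ k = 12 := by
    revert k; decide
  rcases hcase with rfl | rfl | rfl | rfl | rfl | rfl | rfl | rfl | rfl | rfl | rfl | rfl | rfl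
  · have : (e23 + σ • Pi.single 0 1 : Fin 23 → ℝ) = mk (1+σ) 0 1 0 0 0 0 1 0 0 1 0 1 := by
      ext k; fin_cases k <;> simp [e23, mk]
    rw [this]
    refine mk_mem_KK _ _ _ _ _ _ _ _ _ (by linarith) (by norm_num) (by nlinarith) ?_
    apply KG_psd3_of; intro y0 y1 y2; unfold qf; nlinarith [sq_nonneg y0, sq_nonneg y1, sq_nonneg y2]
  · have : (e23 + σ • Pi.single 1 1 : Fin 23 → ℝ) = mk 1 σ 1 0 0 0 0 1 0 0 1 0 1 := by
      ext k; fin_cases k <;> simp [e23, mk]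
    rw [this]
    refine mk_mem_KK _ _ _ _ _ _ _ _ _ (by linarith) (by norm_num) (by nlinarith) ?_
    apply KG_psd3_of; intro y0 y1 y2; unfold qf; nlinarith [sq_nonneg y0, sq_nonneg y1, sq_nonneg y2]
  · have : (e23 + σ • Pi.single 2 1 : Fin 23 → ℝ) = mk 1 0 (1+σ) 0 0 0 0 1 0 0 1 0 1 := by
      ext k; fin_cases k <;> simp [e23, mk]
    rw [this]
    refine mk_mem_KK _ _ _ _ _ _ _ _ _ (by linarith) (by linarith) (by nlinarith) ?_
    apply KG_psd3_of; intro y0 y1 y2; unfold qf; nlinarith [sq_nonneg y0, sq_nonneg y1, sq_nonneg y2]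
  · have : (e23 + σ • Pi.single 3 1 : Fin 23 → ℝ) =
        mk (1/(1*1-0^2)) (-0/(1*1-0^2)) (1/(1*1-0^2)) σ 0 0 0 1 0 0 1 0 1 := by
      ext k; fin_cases k <;> simp [e23, mk]
    rw [this]
    apply K0_subset_KK
    refine mk_mem_K0 σ 0 0 0 1 0 1 one_pos (by norm_num) _ _ _ _ _ _ ?_
    have h2 : (!![1, 0, 0; 0, 1, 0; 0, 0, 1] : Matrix (Fin 3) (Fin 3) ℝ) - Gam σ 0 0 0 1 0 1 =
        !![3/4, 0, 0; 0, 3/4, 0; 0, 0, 1] := by
      ext i j; fin_cases i <;> fin_cases j <;> simp [Gam] <;> linarith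
    rw [h2]
    apply KG_psd3_of; intro y0 y1 y2; unfold qf; nlinarith [sq_nonneg y0, sq_nonneg y1, sq_nonneg y2]
  · have : (e23 + σ • Pi.single 4 1 : Fin 23 → ℝ) =
        mk (1/(1*1-0^2)) (-0/(1*1-0^2)) (1/(1*1-0^2)) 0 σ 0 0 1 0 0 1 0 1 := by
      ext k; fin_cases k <;> simp [e23, mk]
    rw [this]
    apply K0_subset_KK
    refine mk_mem_K0 0 σ 0 0 1 0 1 one_pos (by norm_num) _ _ _ _ _ _ ?_
    have h2 : (!![1, 0, 0; 0, 1, 0; 0, 0, 1] : Matrix (Fin 3) (Fin 3) ℝ) - Gam 0 σ 0 0 1 0 1 =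
        !![3/4, 0, 0; 0, 3/4, 0; 0, 0, 1] := by
      ext i j; fin_cases i <;> fin_cases j <;> simp [Gam] <;> linarith
    rw [h2]
    apply KG_psd3_of; intro y0 y1 y2; unfold qf; nlinarith [sq_nonneg y0, sq_nonneg y1, sq_nonneg y2]
  · have : (e23 + σ • Pi.single 5 1 : Fin 23 → ℝ) =
        mk (1/(1*1-0^2)) (-0/(1*1-0^2)) (1/(1*1-0^2)) 0 0 σ 0 1 0 0 1 0 1 := by
      ext k; fin_cases k <;> simp [e23, mk]
    rw [this]
    apply K0_subset_KK
    refine mk_mem_K0 0 0 σ 0 1 0 1 one_pos (by norm_num) _ _ _ _ _ _ ?_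
    have h2 : (!![1, 0, 0; 0, 1, 0; 0, 0, 1] : Matrix (Fin 3) (Fin 3) ℝ) - Gam 0 0 σ 0 1 0 1 =
        !![1, 0, 0; 0, 3/4, 0; 0, 0, 3/4] := by
      ext i j; fin_cases i <;> fin_cases j <;> simp [Gam] <;> linarith
    rw [h2]
    apply KG_psd3_of; intro y0 y1 y2; unfold qf; nlinarith [sq_nonneg y0, sq_nonneg y1, sq_nonneg y2]
  · have : (e23 + σ • Pi.single 6 1 : Fin 23 → ℝ) =
        mk (1/(1*1-0^2)) (-0/(1*1-0^2)) (1/(1*1-0^2)) 0 0 0 σ 1 0 0 1 0 1 := by
      ext k; fin_cases k <;> simp [e23, mk]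
    rw [this]
    apply K0_subset_KK
    refine mk_mem_K0 0 0 0 σ 1 0 1 one_pos (by norm_num) _ _ _ _ _ _ ?_
    have h2 : (!![1, 0, 0; 0, 1, 0; 0, 0, 1] : Matrix (Fin 3) (Fin 3) ℝ) - Gam 0 0 0 σ 1 0 1 =
        !![1, 0, 0; 0, 3/4, 0; 0, 0, 3/4] := by
      ext i j; fin_cases i <;> fin_cases j <;> simp [Gam] <;> linarith
    rw [h2]
    apply KG_psd3_of; intro y0 y1 y2; unfold qf; nlinarith [sq_nonneg y0, sq_nonneg y1, sq_nonneg y2]
  · have : (e23 + σ • Pi.single 7 1 : Fin 23 → ℝ) = mk 1 0 1 0 0 0 0 (1+σ) 0 0 1 0 1 := by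
      ext k; fin_cases k <;> simp [e23, mk]
    rw [this]
    refine mk_mem_KK _ _ _ _ _ _ _ _ _ (by norm_num) (by norm_num) (by norm_num) ?_
    apply KG_psd3_of; intro y0 y1 y2; unfold qf; nlinarith [sq_nonneg y0, sq_nonneg y1, sq_nonneg y2]
  · have : (e23 + σ • Pi.single 8 1 : Fin 23 → ℝ) = mk 1 0 1 0 0 0 0 1 σ 0 1 0 1 := by
      ext k; fin_cases k <;> simp [e23, mk]
    rw [this]
    refine mk_mem_KK _ _ _ _ _ _ _ _ _ (by norm_num) (by norm_num) (by norm_num) ?_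
    apply KG_psd3_of; intro y0 y1 y2; unfold qf
    nlinarith [sq_nonneg (y0 + σ * y1), sq_nonneg y1, sq_nonneg y2]
  · have : (e23 + σ • Pi.single 9 1 : Fin 23 → ℝ) = mk 1 0 1 0 0 0 0 1 0 σ 1 0 1 := by
      ext k; fin_cases k <;> simp [e23, mk]
    rw [this]
    refine mk_mem_KK _ _ _ _ _ _ _ _ _ (by norm_num) (by norm_num) (by norm_num) ?_
    apply KG_psd3_of; intro y0 y1 y2; unfold qf
    nlinarith [sq_nonneg (y0 + σ * y2), sq_nonneg y1, sq_nonneg y2]
  · have : (e23 + σ • Pi.single 10 1 : Fin 23 → ℝ) = mk 1 0 1 0 0 0 0 1 0 0 (1+σ) 0 1 := by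
      ext k; fin_cases k <;> simp [e23, mk]
    rw [this]
    refine mk_mem_KK _ _ _ _ _ _ _ _ _ (by norm_num) (by norm_num) (by norm_num) ?_
    apply KG_psd3_of; intro y0 y1 y2; unfold qf; nlinarith [sq_nonneg y0, sq_nonneg y1, sq_nonneg y2]
  · have : (e23 + σ • Pi.single 11 1 : Fin 23 → ℝ) = mk 1 0 1 0 0 0 0 1 0 0 1 σ 1 := by
      ext k; fin_cases k <;> simp [e23, mk]
    rw [this]
    refine mk_mem_KK _ _ _ _ _ _ _ _ _ (by norm_num) (by norm_num) (by norm_num) ?_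
    apply KG_psd3_of; intro y0 y1 y2; unfold qf
    nlinarith [sq_nonneg (y1 + σ * y2), sq_nonneg y0, sq_nonneg y2]
  · have : (e23 + σ • Pi.single 12 1 : Fin 23 → ℝ) = mk 1 0 1 0 0 0 0 1 0 0 1 0 (1+σ) := by
      ext k; fin_cases k <;> simp [e23, mk]
    rw [this]
    refine mk_mem_KK _ _ _ _ _ _ _ _ _ (by norm_num) (by norm_num) (by norm_num) ?_
    apply KG_psd3_of; intro y0 y1 y2; unfold qf; nlinarith [sq_nonneg y0, sq_nonneg y1, sq_nonneg y2]

end Crest.Agent.R237.S2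
end

-- ▼ part R237/S2NotSpec
section

/-!
Row 237, statement S0368: assembly of the non-spectrahedrality.
-/

set_option autoImplicit false

namespace Crest.Agent.R237.S2

open Matrix

theorem graded_false {N : ℕ} {L : Pencil N} (hL : Graded L) : False := by
  refine S2F.final (A := L) ⟨hL.symm, ?_, ?_, ?_, ?_, hL.psd, ?_⟩ K0_subset_KK
  · have h := hL.sum_one
    rw [Fin.sum_univ_five] at h
    exact h
  · intro i j hij
    exact (hL.orth i j).trans (if_neg hij)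
  · intro i
    exact (hL.orth i i).trans (if_pos rfl)
  · intro ν i j h
    exact grade237 hL ν i j h
  · intro z hz hdet
    exact hL.bd z ⟨hz.1, hz.2.1, hz.2.2, hdet⟩

theorem not_spec_of' (hD1 : Stmt_D1) (hD2a : Stmt_D2a) (hD2b : Stmt_D2b) (N : ℕ) (hN : 1 ≤ N)
    (L : (Fin 23 → ℝ) →ₗ[ℝ] Matrix (Fin N) (Fin N) ℝ) (hL : ∀ x, (L x).IsSymm) :
    KK ≠ {x | (L x).PosSemidef} :=
  not_spec_of hD1 hD2a hD2b (D3 tor_KK e_pm)
    (fun _ _ hG => (graded_false hG).elim) (fun _ _ _ _ hG _ => graded_false hG) N hN L hL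

/-- **N4.** -/
theorem not_spec (N : ℕ) (hN : 1 ≤ N)
    (L : (Fin 23 → ℝ) →ₗ[ℝ] Matrix (Fin N) (Fin N) ℝ) (hL : ∀ x, (L x).IsSymm) :
    KK ≠ {x | (L x).PosSemidef} :=
  not_spec_of' (D1 e_pm BK_sub coord0 K0_sub_KK) (D2a e_pm) (D2b tor_KK tor_BK E_mem) N hN L hL

end Crest.Agent.R237.S2
end

-- ▼ part R237/S2Lift

/-!
Row 237, S0368, node N3: the cone `KK` has an exact semidefinite lift.
-/

set_option autoImplicit false

namespace Crest.Agent.R237.S2

open Matrix Filter Topology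

/-- auxiliary space -/
abbrev WW : Type := Fin 4 → Fin 4 → Fin 2 → Fin 2 → ℝ

/-- symmetrisation of an auxiliary tensor in both pairs -/
noncomputable def sy (W : WW) : WW := fun k l i j =>
  (W k l i j + W l k i j + W k l j i + W l k j i) / 4

/-- the quadratic form of a tensor -/
def qf (D : WW) (w : Fin 4 → Fin 2 → ℝ) : ℝ := ∑ k, ∑ l, ∑ i, ∑ j, D k l i j * w k i * w l j

/-- `Γ` linearly extended -/
def GamW (W : WW) : Matrix (Fin 3) (Fin 3) ℝ :=
  !![W 0 0 1 1 + W 1 1 1 1, W 1 3 1 1, -(W 1 2 0 1);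
     W 1 3 1 1, W 0 0 0 0 + W 1 1 0 0 + (W 2 2 1 1 + W 3 3 1 1) - 2 * W 0 3 0 1, -(W 0 2 0 0);
     -(W 1 2 0 1), -(W 0 2 0 0), W 2 2 0 0 + W 3 3 0 0]

/-- the quadratic form of `GamW` -/
def gq (W : WW) (y : Fin 3 → ℝ) : ℝ :=
  (W 0 0 1 1 + W 1 1 1 1) * y 0 ^ 2 + (W 0 0 0 0 + W 1 1 0 0 + (W 2 2 1 1 + W 3 3 1 1)
    - 2 * W 0 3 0 1) * y 1 ^ 2 + (W 2 2 0 0 + W 3 3 0 0) * y 2 ^ 2
    + 2 * (W 1 3 1 1 * (y 0 * y 1)) - 2 * (W 1 2 0 1 * (y 0 * y 2)) - 2 * (W 0 2 0 0 * (y 1 * y 2))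

theorem gq_eq (W : WW) (y : Fin 3 → ℝ) : y ⬝ᵥ (GamW W).mulVec y = gq W y := by
  simp [GamW, gq, dotProduct, Matrix.mulVec, Fin.sum_univ_three]
  ring

/-- symmetric in both pairs -/
def IsSy (D : WW) : Prop := (∀ k l i j, D k l i j = D l k i j) ∧ ∀ k l i j, D k l i j = D k l j i

theorem sy_isSy (W : WW) : IsSy (sy W) := by
  constructor
  · intro k l i j; simp only [sy]; ring
  · intro k l i j; simp only [sy]; ring

theorem sy_eq (W : WW) (h : IsSy W) : sy W = W := by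
  funext k l i j
  simp only [sy]
  rw [h.1 l k i j, h.2 k l j i, h.1 l k j i, h.2 k l j i]
  ring

/-- the slice identity -/
theorem slice_id (W : WW) (y : Fin 3 → ℝ) (nu ka : ℝ) (e1 : nu ^ 2 + ka ^ 2 = 1)
    (e2 : nu * y 1 ^ 2 - ka * (y 0 * y 2) = -(y 1 ^ 2))
    (e3 : nu * (y 0 * y 2) + ka * y 1 ^ 2 = y 0 * y 2) :
    gq (sy W) y = qf (sy W) ![![y 1, 0], ![0, nu * y 0], ![-(y 2), 0], ![0, nu * y 1]]
      + qf (sy W) ![![0, 0], ![0, ka * y 0], ![0, 0], ![0, ka * y 1]]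
      + qf (sy W) ![![0, y 0], ![-(nu * y 1), 0], ![0, 0], ![-(ka * y 2), 0]]
      + qf (sy W) ![![0, 0], ![-(ka * y 1), 0], ![0, y 1], ![nu * y 2, 0]] := by
  simp only [qf, gq, Fin.sum_univ_four, Fin.sum_univ_two, sy]
  simp only [Matrix.cons_val_zero, Matrix.cons_val_one, Matrix.cons_val_two, Matrix.cons_val_three,
    Matrix.head_cons, Matrix.tail_cons]
  linear_combination (-(W 1 1 1 1 * y 0 ^ 2 + W 3 3 1 1 * y 1 ^ 2
    + 2 * ((W 1 3 1 1 + W 3 1 1 1) / 2) * (y 0 * y 1) + W 1 1 0 0 * y 1 ^ 2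
    + W 3 3 0 0 * y 2 ^ 2)) * e1
    - 2 * ((W 0 3 0 1 + W 3 0 0 1 + W 0 3 1 0 + W 3 0 1 0) / 4) * e2
    + 2 * ((W 1 2 0 1 + W 2 1 0 1 + W 1 2 1 0 + W 2 1 1 0) / 4) * e3

/-- **slice SOS**: `Γ(D) ⪰ 0` for every positive semidefinite block symmetric `D`. -/
theorem gq_nonneg (D : WW) (hD : IsSy D) (hpos : ∀ w, 0 ≤ qf D w) (y : Fin 3 → ℝ) :
    0 ≤ gq D y := by
  by_cases hN : y 0 ^ 2 * y 2 ^ 2 + y 1 ^ 4 = 0
  · have h1 : y 1 = 0 := by
      have : y 1 ^ 4 = 0 := by nlinarith [sq_nonneg (y 0 * y 2), sq_nonneg (y 1 ^ 2)]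
      exact pow_eq_zero_iff (by norm_num) |>.1 this
    have h02 : y 0 * y 2 = 0 := by
      have : (y 0 * y 2) ^ 2 = 0 := by rw [h1] at hN; nlinarith [hN]
      exact pow_eq_zero_iff (by norm_num) |>.1 this
    have d0011 := hpos ![![0, 1], ![0, 0], ![0, 0], ![0, 0]]
    have d1111 := hpos ![![0, 0], ![0, 1], ![0, 0], ![0, 0]]
    have d2200 := hpos ![![0, 0], ![0, 0], ![1, 0], ![0, 0]]
    have d3300 := hpos ![![0, 0], ![0, 0], ![0, 0], ![1, 0]]
    simp [qf, Fin.sum_univ_four, Fin.sum_univ_two] at d0011 d1111 d2200 d3300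
    have : gq D y = (D 0 0 1 1 + D 1 1 1 1) * y 0 ^ 2 + (D 2 2 0 0 + D 3 3 0 0) * y 2 ^ 2 := by
      simp only [gq]
      rw [h1]
      linear_combination (-(2 * D 1 2 0 1)) * h02
    rw [this]
    positivity
  · have hN' : 0 < y 0 ^ 2 * y 2 ^ 2 + y 1 ^ 4 := lt_of_le_of_ne (by positivity) (Ne.symm hN)
    set N := y 0 ^ 2 * y 2 ^ 2 + y 1 ^ 4 with hNd
    have hs : D = sy D := (sy_eq D hD).symm
    have h := slice_id D y ((y 0 ^ 2 * y 2 ^ 2 - y 1 ^ 4) / N) (2 * y 0 * y 1 ^ 2 * y 2 / N)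
      (by rw [div_pow, div_pow, ← add_div, div_eq_one_iff_eq (by positivity), hNd]; ring)
      (by field_simp; rw [hNd]; ring) (by field_simp; rw [hNd]; ring)
    rw [← hs] at h
    rw [h]
    have a1 := hpos ![![y 1, 0], ![0, ((y 0 ^ 2 * y 2 ^ 2 - y 1 ^ 4) / N) * y 0], ![-(y 2), 0], ![0, ((y 0 ^ 2 * y 2 ^ 2 - y 1 ^ 4) / N) * y 1]]
    have a2 := hpos ![![0, 0], ![0, (2 * y 0 * y 1 ^ 2 * y 2 / N) * y 0], ![0, 0], ![0, (2 * y 0 * y 1 ^ 2 * y 2 / N) * y 1]]
    have a3 := hpos ![![0, y 0], ![-(((y 0 ^ 2 * y 2 ^ 2 - y 1 ^ 4) / N) * y 1), 0], ![0, 0], ![-((2 * y 0 * y 1 ^ 2 * y 2 / N) * y 2), 0]]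
    have a4 := hpos ![![0, 0], ![-((2 * y 0 * y 1 ^ 2 * y 2 / N) * y 1), 0], ![0, y 1], ![((y 0 ^ 2 * y 2 ^ 2 - y 1 ^ 4) / N) * y 2, 0]]
    linarith

/-! ### the two quadratic forms of the lift -/

/-- first form: `aᵀ X a + 2 aᵀ (∑ v_k w_k) + W(w,w)` -/
def q1 (z : Fin 23 → ℝ) (W : WW) (a : Fin 2 → ℝ) (w : Fin 4 → Fin 2 → ℝ) : ℝ :=
  (z 0 * a 0 ^ 2 + 2 * (z 1 * (a 0 * a 1)) + z 2 * a 1 ^ 2)
    + 2 * (a 0 * (z 3 * w 0 0 + z 4 * w 1 0 + z 5 * w 2 0 + z 6 * w 3 0)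
      + a 1 * (z 3 * w 0 1 + z 4 * w 1 1 + z 5 * w 2 1 + z 6 * w 3 1)) + qf W w

/-- `yᵀ U y` -/
def uq (z : Fin 23 → ℝ) (y : Fin 3 → ℝ) : ℝ :=
  z 7 * y 0 ^ 2 + z 10 * y 1 ^ 2 + z 12 * y 2 ^ 2 + 2 * (z 8 * (y 0 * y 1))
    + 2 * (z 9 * (y 0 * y 2)) + 2 * (z 11 * (y 1 * y 2))

/-- the tensor `v vᵀ ⊗ P` -/
def vvP (z : Fin 23 → ℝ) (P : Fin 2 → Fin 2 → ℝ) : WW := fun k l i j =>
  ![z 3, z 4, z 5, z 6] k * ![z 3, z 4, z 5, z 6] l * P i j

theorem vvP_isSy (z : Fin 23 → ℝ) (P : Fin 2 → Fin 2 → ℝ) (hP : ∀ i j, P i j = P j i) :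
    IsSy (vvP z P) := by
  constructor
  · intro k l i j; simp only [vvP]; ring
  · intro k l i j; simp only [vvP]; rw [hP i j]

theorem gamW_vvP (z : Fin 23 → ℝ) (P : Fin 2 → Fin 2 → ℝ) :
    GamW (vvP z P) = Gam (z 3) (z 4) (z 5) (z 6) (P 0 0) (P 0 1) (P 1 1) := by
  ext i j
  fin_cases i <;> fin_cases j <;>
    simp [GamW, Gam, vvP] <;> ring

theorem uq_eq (z : Fin 23 → ℝ) (y : Fin 3 → ℝ) : y ⬝ᵥ (Um z).mulVec y = uq z y := by
  simp [Um, uq, dotProduct, Matrix.mulVec, Fin.sum_univ_three]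
  ring

theorem Um_isSymm (z : Fin 23 → ℝ) : (Um z).IsSymm := by
  ext i j
  fin_cases i <;> fin_cases j <;> simp [Um]

theorem GamW_isSymm (W : WW) : (GamW W).IsSymm := by
  ext i j
  fin_cases i <;> fin_cases j <;> simp [GamW]

/-- the inverse of the `X` block -/
noncomputable def Pz (z : Fin 23 → ℝ) : Fin 2 → Fin 2 → ℝ :=
  ![![z 2 / dl z, -(z 1) / dl z], ![-(z 1) / dl z, z 0 / dl z]]

theorem Gz_eq (z : Fin 23 → ℝ) : Gz z = GamW (vvP z (Pz z)) := by
  rw [gamW_vvP]; simp [Gz, Pz]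

/-- membership in `K0` through quadratic forms -/
theorem mem_K0_iff (z : Fin 23 → ℝ) :
    z ∈ K0 ↔ 0 < z 0 ∧ 0 < dl z ∧ ∀ y, gq (vvP z (Pz z)) y ≤ uq z y := by
  unfold K0
  rw [Set.mem_ofPred_eq]
  have hsym : (Um z - Gz z).IsSymm := by
    rw [Gz_eq]
    have h1 := Um_isSymm z
    have h2 := GamW_isSymm (vvP z (Pz z))
    unfold Matrix.IsSymm at *
    rw [Matrix.transpose_sub, h1, h2]
  have hq : ∀ y : Fin 3 → ℝ, y ⬝ᵥ (Um z - Gz z).mulVec y = uq z y - gq (vvP z (Pz z)) y := by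
    intro y
    rw [Matrix.sub_mulVec, dotProduct_sub, uq_eq, Gz_eq, gq_eq]
  refine and_congr Iff.rfl (and_congr Iff.rfl ⟨fun h y => ?_, fun h => ?_⟩)
  · have := h.dotProduct_mulVec_nonneg y
    simp only [star_trivial] at this
    rw [hq] at this
    linarith
  · refine Matrix.PosSemidef.of_dotProduct_mulVec_nonneg ?_ fun y => ?_
    · rw [Matrix.IsHermitian, Matrix.conjTranspose_eq_transpose_of_trivial]; exact hsym
    · simp only [star_trivial]
      rw [hq]; linarith [h y]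

/-- the translate `z + t e` -/
theorem te_vals (z : Fin 23 → ℝ) (t : ℝ) :
    (z + t • e23) 0 = z 0 + t ∧ (z + t • e23) 1 = z 1 ∧ (z + t • e23) 2 = z 2 + t ∧
    (z + t • e23) 3 = z 3 ∧ (z + t • e23) 4 = z 4 ∧ (z + t • e23) 5 = z 5 ∧
    (z + t • e23) 6 = z 6 ∧ (z + t • e23) 7 = z 7 + t ∧ (z + t • e23) 8 = z 8 ∧
    (z + t • e23) 9 = z 9 ∧ (z + t • e23) 10 = z 10 + t ∧ (z + t • e23) 11 = z 11 ∧
    (z + t • e23) 12 = z 12 + t := by
  simp [e23]

theorem q1_te (z : Fin 23 → ℝ) (t : ℝ) (W : WW) (a : Fin 2 → ℝ) (w : Fin 4 → Fin 2 → ℝ) :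
    q1 (z + t • e23) W a w = q1 z W a w + t * (a 0 ^ 2 + a 1 ^ 2) := by
  obtain ⟨h0, h1, h2, h3, h4, h5, h6, -⟩ := te_vals z t
  simp only [q1, h0, h1, h2, h3, h4, h5, h6]
  ring

theorem uq_te (z : Fin 23 → ℝ) (t : ℝ) (y : Fin 3 → ℝ) :
    uq (z + t • e23) y = uq z y + t * (y 0 ^ 2 + y 1 ^ 2 + y 2 ^ 2) := by
  obtain ⟨-, -, -, -, -, -, -, h7, h8, h9, h10, h11, h12⟩ := te_vals z t
  simp only [uq, h7, h8, h9, h10, h11, h12]
  ring

/-- Schur: if `q1 ≥ 0` and `X ≻ 0` then `W - v vᵀ ⊗ X⁻¹ ⪰ 0`. -/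
theorem schur_nonneg (z : Fin 23 → ℝ) (W : WW) (hdl : 0 < dl z)
    (h : ∀ a w, 0 ≤ q1 z W a w) (w : Fin 4 → Fin 2 → ℝ) : 0 ≤ qf (W - vvP z (Pz z)) w := by
  have hne : dl z ≠ 0 := hdl.ne'
  set b0 := z 3 * w 0 0 + z 4 * w 1 0 + z 5 * w 2 0 + z 6 * w 3 0 with hb0
  set b1 := z 3 * w 0 1 + z 4 * w 1 1 + z 5 * w 2 1 + z 6 * w 3 1 with hb1
  have h1 := h ![-((z 2 * b0 - z 1 * b1) / dl z), -((-(z 1) * b0 + z 0 * b1) / dl z)] w
  have h2 : qf (W - vvP z (Pz z)) w = qf W w - (z 2 * b0 ^ 2 - 2 * z 1 * b0 * b1 + z 0 * b1 ^ 2) / dl z := by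
    have : qf (vvP z (Pz z)) w = (z 2 * b0 ^ 2 - 2 * z 1 * b0 * b1 + z 0 * b1 ^ 2) / dl z := by
      simp only [qf, vvP, Pz, Fin.sum_univ_four, Fin.sum_univ_two]
      simp only [Matrix.cons_val_zero, Matrix.cons_val_one, Matrix.cons_val_two,
        Matrix.cons_val_three, Matrix.head_cons, Matrix.tail_cons]
      rw [hb0, hb1]
      field_simp
      ring
    rw [← this]
    simp only [qf, Pi.sub_apply, sub_mul, Finset.sum_sub_distrib]
  rw [h2]
  have h3 : q1 z W ![-((z 2 * b0 - z 1 * b1) / dl z), -((-(z 1) * b0 + z 0 * b1) / dl z)] w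
      = qf W w - (z 2 * b0 ^ 2 - 2 * z 1 * b0 * b1 + z 0 * b1 ^ 2) / dl z := by
    simp only [q1, Matrix.cons_val_zero, Matrix.cons_val_one]
    rw [← hb0, ← hb1]
    have hd : dl z = z 0 * z 2 - z 1 ^ 2 := rfl
    field_simp
    rw [hd]
    ring
  rw [← h3]
  exact h1

/-- conversely `q1 z (v vᵀ ⊗ X⁻¹) ≥ 0` when `X ≻ 0`. -/
theorem q1_vvP (z : Fin 23 → ℝ) (h0 : 0 < z 0) (hdl : 0 < dl z) (a : Fin 2 → ℝ)
    (w : Fin 4 → Fin 2 → ℝ) : 0 ≤ q1 z (vvP z (Pz z)) a w := by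
  have hne : dl z ≠ 0 := hdl.ne'
  set b0 := z 3 * w 0 0 + z 4 * w 1 0 + z 5 * w 2 0 + z 6 * w 3 0 with hb0
  set b1 := z 3 * w 0 1 + z 4 * w 1 1 + z 5 * w 2 1 + z 6 * w 3 1 with hb1
  have hqf : qf (vvP z (Pz z)) w = (z 2 * b0 ^ 2 - 2 * z 1 * b0 * b1 + z 0 * b1 ^ 2) / dl z := by
    simp only [qf, vvP, Pz, Fin.sum_univ_four, Fin.sum_univ_two]
    simp only [Matrix.cons_val_zero, Matrix.cons_val_one, Matrix.cons_val_two,
      Matrix.cons_val_three, Matrix.head_cons, Matrix.tail_cons]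
    rw [hb0, hb1]
    field_simp
    ring
  have key : q1 z (vvP z (Pz z)) a w
      = (z 0 * (a 0 + (z 2 * b0 - z 1 * b1) / dl z) ^ 2
        + 2 * (z 1 * ((a 0 + (z 2 * b0 - z 1 * b1) / dl z) * (a 1 + (-(z 1) * b0 + z 0 * b1) / dl z)))
        + z 2 * (a 1 + (-(z 1) * b0 + z 0 * b1) / dl z) ^ 2) := by
    simp only [q1]
    rw [hqf, ← hb0, ← hb1]
    have hd : dl z = z 0 * z 2 - z 1 ^ 2 := rfl
    field_simp
    rw [hd]
    ring
  rw [key]
  have hpsd : ∀ α β : ℝ, 0 ≤ z 0 * α ^ 2 + 2 * (z 1 * (α * β)) + z 2 * β ^ 2 := by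
    intro α β
    have hd : dl z = z 0 * z 2 - z 1 ^ 2 := rfl
    have h5 : 0 ≤ z 0 * (z 0 * α ^ 2 + 2 * (z 1 * (α * β)) + z 2 * β ^ 2) := by
      have : z 0 * (z 0 * α ^ 2 + 2 * (z 1 * (α * β)) + z 2 * β ^ 2)
          = (z 0 * α + z 1 * β) ^ 2 + dl z * β ^ 2 := by rw [hd]; ring
      rw [this]; positivity
    exact nonneg_of_mul_nonneg_right h5 h0
  exact hpsd _ _

/-- direction `lift → KK` -/
theorem mem_KK_of_lift (z : Fin 23 → ℝ) (W : WW) (hW : IsSy W)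
    (h1 : ∀ a w, 0 ≤ q1 z W a w) (h2 : ∀ y, gq W y ≤ uq z y) : z ∈ KK := by
  have hX : ∀ α β : ℝ, 0 ≤ z 0 * α ^ 2 + 2 * (z 1 * (α * β)) + z 2 * β ^ 2 := by
    intro α β
    have := h1 ![α, β] 0
    simpa [q1, qf] using this
  have h0 : 0 ≤ z 0 := by simpa using hX 1 0
  have h2' : 0 ≤ z 2 := by simpa using hX 0 1
  intro t ht
  obtain ⟨e0, e1, e2, e3, e4, e5, e6, e7, e8, e9, e10, e11, e12⟩ := te_vals z t
  have hdl : 0 < dl (z + t • e23) := by
    have hd : dl (z + t • e23) = (z 0 + t) * (z 2 + t) - z 1 ^ 2 := by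
      simp only [dl, e0, e1, e2]
    rw [hd]
    -- z1² ≤ z0 z2
    have h3 : z 1 ^ 2 ≤ z 0 * z 2 := by
      have h4 : discrim (z 0) (2 * z 1) (z 2) ≤ 0 := discrim_le_zero fun x => by
        have := hX x 1
        nlinarith [this]
      unfold discrim at h4
      nlinarith [h4]
    nlinarith [mul_pos ht ht, mul_nonneg h0 ht.le, mul_nonneg h2' ht.le]
  rw [mem_K0_iff]
  refine ⟨by rw [e0]; linarith, hdl, fun y => ?_⟩
  have hq1 : ∀ a w, 0 ≤ q1 (z + t • e23) W a w := by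
    intro a w
    rw [q1_te]
    have := h1 a w
    positivity
  have hS := schur_nonneg _ W hdl hq1
  have hsyD : IsSy (W - vvP (z + t • e23) (Pz (z + t • e23))) := by
    have hv := vvP_isSy (z + t • e23) (Pz (z + t • e23)) (by
      intro i j; fin_cases i <;> fin_cases j <;> simp [Pz])
    constructor
    · intro k l i j
      simp only [Pi.sub_apply]
      rw [hW.1 k l i j, hv.1 k l i j]
    · intro k l i j
      simp only [Pi.sub_apply]
      rw [hW.2 k l i j, hv.2 k l i j]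
  have hg := gq_nonneg _ hsyD hS y
  have hg2 : gq (W - vvP (z + t • e23) (Pz (z + t • e23))) y
      = gq W y - gq (vvP (z + t • e23) (Pz (z + t • e23))) y := by
    simp only [gq, Pi.sub_apply]
    ring
  rw [hg2] at hg
  rw [uq_te]
  have := h2 y
  have h9 : 0 ≤ t * (y 0 ^ 2 + y 1 ^ 2 + y 2 ^ 2) := by positivity
  linarith

/-- the trace bound -/
theorem bound_vvP (z : Fin 23 → ℝ) (h : z ∈ K0) (k l : Fin 4) (i j : Fin 2) :
    |vvP z (Pz z) k l i j| ≤ 2 * (z 7 + z 10 + z 12) := by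
  have h' := (mem_K0_iff z).1 h
  obtain ⟨h0, hdl, hy⟩ := h'
  have hd : dl z = z 0 * z 2 - z 1 ^ 2 := rfl
  have hz2 : 0 < z 2 := by
    have : 0 < z 0 * z 2 := by nlinarith [sq_nonneg (z 1)]
    exact (pos_iff_pos_of_mul_pos this).1 h0
  set A := Pz z 0 0 with hA
  set B := Pz z 0 1 with hB
  set Cc := Pz z 1 1 with hC
  have hA0 : 0 < A := by simp only [hA, Pz]; simp; positivity
  have hC0 : 0 < Cc := by simp only [hC, Pz]; simp; positivity
  have hB1 : Pz z 1 0 = B := by simp [hB, Pz]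
  have hAC : B ^ 2 ≤ A * Cc := by
    have : A * Cc - B ^ 2 = 1 / dl z := by
      have hne : dl z ≠ 0 := hdl.ne'
      simp only [hA, hB, hC, Pz, Matrix.cons_val_zero, Matrix.cons_val_one]
      rw [hd] at hne ⊢
      field_simp
    have h5 : 0 < 1 / dl z := by positivity
    linarith
  have hBs : |B| ≤ (A + Cc) / 2 := by
    refine abs_le_of_sq_le_sq ?_ (by positivity)
    nlinarith [sq_nonneg (A - Cc)]
  -- the trace
  have t0 := hy ![1, 0, 0]
  have t1 := hy ![0, 1, 0]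
  have t2 := hy ![0, 0, 1]
  simp [gq, uq, vvP] at t0 t1 t2
  have hsum : (z 3 ^ 2 + z 4 ^ 2 + z 5 ^ 2 + z 6 ^ 2) * (A + Cc) - 2 * (z 3 * z 6 * B)
      ≤ z 7 + z 10 + z 12 := by
    simp only [hA, hB, hC]
    linarith
  set S := z 3 ^ 2 + z 4 ^ 2 + z 5 ^ 2 + z 6 ^ 2 with hS
  have hcr : 2 * (z 3 * z 6 * B) ≤ S * ((A + Cc) / 2) := by
    have h1 : 2 * (z 3 * z 6 * B) ≤ (z 3 ^ 2 + z 6 ^ 2) * |B| := by
      have h2 : 2 * (z 3 * z 6 * B) ≤ |2 * (z 3 * z 6 * B)| := le_abs_self _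
      rw [abs_mul, abs_mul, abs_mul] at h2
      have h3 : |(2:ℝ)| = 2 := by norm_num
      rw [h3] at h2
      have h5 := mul_nonneg (sq_nonneg (|z 3| - |z 6|)) (abs_nonneg B)
      have h6 : (|z 3| - |z 6|) ^ 2 * |B| = (z 3 ^ 2 + z 6 ^ 2) * |B| - 2 * (|z 3| * |z 6| * |B|) := by
        rw [← sq_abs (z 3), ← sq_abs (z 6)]; ring
      linarith
    have h4 : (z 3 ^ 2 + z 6 ^ 2) * |B| ≤ S * ((A + Cc) / 2) := by
      refine mul_le_mul ?_ hBs (abs_nonneg B) (by positivity)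
      rw [hS]; linarith [sq_nonneg (z 4), sq_nonneg (z 5)]
    linarith
  have hST : S * (A + Cc) ≤ 2 * (z 7 + z 10 + z 12) := by linarith
  have hv : ∀ k : Fin 4, (![z 3, z 4, z 5, z 6] k) ^ 2 ≤ S := by
    intro k
    have s3 := sq_nonneg (z 3)
    have s4 := sq_nonneg (z 4)
    have s5 := sq_nonneg (z 5)
    have s6 := sq_nonneg (z 6)
    fin_cases k
    · show z 3 ^ 2 ≤ S
      rw [hS]; linarith
    · show z 4 ^ 2 ≤ S
      rw [hS]; linarith
    · show z 5 ^ 2 ≤ S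
      rw [hS]; linarith
    · show z 6 ^ 2 ≤ S
      rw [hS]; linarith
  have hvv : |![z 3, z 4, z 5, z 6] k * ![z 3, z 4, z 5, z 6] l| ≤ S := by
    have h1 := hv k
    have h2 := hv l
    generalize ![z 3, z 4, z 5, z 6] k = α at h1 ⊢
    generalize ![z 3, z 4, z 5, z 6] l = β at h2 ⊢
    have h3 := sq_nonneg (α + β)
    have h4 := sq_nonneg (α - β)
    rw [abs_le]
    constructor
    · linarith [add_sq α β]
    · linarith [sub_sq α β]
  have hP : |Pz z i j| ≤ A + Cc := by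
    have hAa : |A| = A := abs_of_pos hA0
    have hCa : |Cc| = Cc := abs_of_pos hC0
    fin_cases i <;> fin_cases j
    · show |Pz z 0 0| ≤ _
      rw [← hA, hAa]; linarith
    · show |Pz z 0 1| ≤ _
      rw [← hB]; linarith
    · show |Pz z 1 0| ≤ _
      rw [hB1]; linarith
    · show |Pz z 1 1| ≤ _
      rw [← hC, hCa]; linarith
  calc |vvP z (Pz z) k l i j| = |![z 3, z 4, z 5, z 6] k * ![z 3, z 4, z 5, z 6] l| * |Pz z i j| := by
        rw [← abs_mul]; rfl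
    _ ≤ S * (A + Cc) := mul_le_mul hvv hP (abs_nonneg _) (by positivity)
    _ ≤ _ := hST

theorem qf_cont (w : Fin 4 → Fin 2 → ℝ) : Continuous fun W : WW => qf W w := by
  unfold qf
  fun_prop

theorem gq_cont (y : Fin 3 → ℝ) : Continuous fun W : WW => gq W y := by
  unfold gq
  fun_prop

/-- direction `KK → lift` -/
theorem lift_of_mem_KK (z : Fin 23 → ℝ) (hz : z ∈ KK) :
    ∃ W : WW, IsSy W ∧ (∀ a w, 0 ≤ q1 z W a w) ∧ ∀ y, gq W y ≤ uq z y := by
  -- the sequence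
  have ht : ∀ n : ℕ, (0:ℝ) < 1 / ((n:ℝ) + 1) := fun n => by positivity
  have ht1 : ∀ n : ℕ, 1 / ((n:ℝ) + 1) ≤ 1 := fun n => by
    rw [div_le_one (by positivity)]
    linarith [Nat.cast_nonneg (α := ℝ) n]
  let zn : ℕ → Fin 23 → ℝ := fun n => z + (1 / ((n:ℝ) + 1)) • e23
  let Wn : ℕ → WW := fun n => vvP (zn n) (Pz (zn n))
  have hb : ∀ n, Wn n ∈ Metric.closedBall (0 : WW) (2 * (z 7 + z 10 + z 12 + 3)) := by
    intro n
    have hK := hz _ (ht n)
    have hbd := bound_vvP (zn n) hK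
    obtain ⟨-, -, -, -, -, -, -, h7, h8, h9, h10, h11, h12⟩ := te_vals z (1 / ((n:ℝ) + 1))
    have h5 : 2 * ((zn n) 7 + (zn n) 10 + (zn n) 12) ≤ 2 * (z 7 + z 10 + z 12 + 3) := by
      simp only [zn]
      rw [h7, h10, h12]
      linarith [ht1 n]
    have h0 : (0:ℝ) ≤ 2 * (z 7 + z 10 + z 12 + 3) :=
      (abs_nonneg _).trans ((hbd 0 0 0 0).trans h5)
    rw [mem_closedBall_zero_iff]
    refine (pi_norm_le_iff_of_nonneg h0).2 fun k => (pi_norm_le_iff_of_nonneg h0).2 fun l =>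
      (pi_norm_le_iff_of_nonneg h0).2 fun i => (pi_norm_le_iff_of_nonneg h0).2 fun j => ?_
    rw [Real.norm_eq_abs]
    exact (hbd k l i j).trans h5
  obtain ⟨W, -, φ, hφ, hW⟩ := (isCompact_closedBall (0 : WW) _).tendsto_subseq hb
  have htl : Tendsto (fun n : ℕ => 1 / ((φ n : ℝ) + 1)) atTop (𝓝 0) :=
    tendsto_one_div_add_atTop_nhds_zero_nat.comp hφ.tendsto_atTop
  have hsyn : ∀ n, IsSy (Wn n) := fun n => vvP_isSy _ _ (by
    intro i j; fin_cases i <;> fin_cases j <;> simp [Pz])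
  have happ : ∀ k l i j, Tendsto (fun n => (Wn (φ n)) k l i j) atTop (𝓝 (W k l i j)) := by
    intro k l i j
    have h1 := tendsto_pi_nhds.1 hW k
    have h2 := tendsto_pi_nhds.1 h1 l
    have h3 := tendsto_pi_nhds.1 h2 i
    exact tendsto_pi_nhds.1 h3 j
  refine ⟨W, ⟨fun k l i j => ?_, fun k l i j => ?_⟩, fun a w => ?_, fun y => ?_⟩
  · refine tendsto_nhds_unique (happ k l i j) ?_
    have := happ l k i j
    refine this.congr fun n => ?_
    exact ((hsyn (φ n)).1 k l i j).symm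
  · refine tendsto_nhds_unique (happ k l i j) ?_
    have := happ k l j i
    refine this.congr fun n => ?_
    exact ((hsyn (φ n)).2 k l i j).symm
  · -- `q1`
    have h1 : Tendsto (fun n => q1 z (Wn (φ n)) a w + 1 / ((φ n : ℝ) + 1) * (a 0 ^ 2 + a 1 ^ 2))
        atTop (𝓝 (q1 z W a w + 0 * (a 0 ^ 2 + a 1 ^ 2))) := by
      refine Tendsto.add ?_ (htl.mul_const _)
      unfold q1
      exact tendsto_const_nhds.add (((qf_cont w).tendsto W).comp hW)
    rw [zero_mul, add_zero] at h1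
    refine ge_of_tendsto' h1 fun n => ?_
    rw [← q1_te]
    have hK := (mem_K0_iff _).1 (hz _ (ht (φ n)))
    exact q1_vvP _ hK.1 hK.2.1 a w
  · have h1 : Tendsto (fun n => gq (Wn (φ n)) y) atTop (𝓝 (gq W y)) :=
      ((gq_cont y).tendsto W).comp hW
    have h2 : Tendsto (fun n => uq z y + 1 / ((φ n : ℝ) + 1) * (y 0 ^ 2 + y 1 ^ 2 + y 2 ^ 2))
        atTop (𝓝 (uq z y + 0 * (y 0 ^ 2 + y 1 ^ 2 + y 2 ^ 2))) :=
      tendsto_const_nhds.add (htl.mul_const _)
    rw [zero_mul, add_zero] at h2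
    refine le_of_tendsto_of_tendsto' h1 h2 fun n => ?_
    rw [← uq_te]
    exact ((mem_K0_iff _).1 (hz _ (ht (φ n)))).2.2 y

/-! ### the matrices of the lift -/

/-- the block `vᵀ ⊗ I₂` -/
def Bv (z : Fin 23 → ℝ) : Matrix (Fin 2) (Fin 4 × Fin 2) ℝ :=
  Matrix.of fun i kj => if i = kj.2 then ![z 3, z 4, z 5, z 6] kj.1 else 0

/-- the `W` block -/
def Wm (W : WW) : Matrix (Fin 4 × Fin 2) (Fin 4 × Fin 2) ℝ :=
  Matrix.of fun a b => W a.1 b.1 a.2 b.2

/-- the `z` part of the pencil -/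
def Pm (z : Fin 23 → ℝ) : Matrix ((Fin 2 ⊕ (Fin 4 × Fin 2)) ⊕ Fin 3) ((Fin 2 ⊕ (Fin 4 × Fin 2)) ⊕ Fin 3) ℝ :=
  Matrix.fromBlocks (Matrix.fromBlocks (Xm z) (Bv z) (Bv z)ᵀ 0) 0 0 (Um z)

/-- the `W` part of the pencil -/
noncomputable def Qm (W : WW) : Matrix ((Fin 2 ⊕ (Fin 4 × Fin 2)) ⊕ Fin 3) ((Fin 2 ⊕ (Fin 4 × Fin 2)) ⊕ Fin 3) ℝ :=
  Matrix.fromBlocks (Matrix.fromBlocks 0 0 0 (Wm (sy W))) 0 0 (-GamW (sy W))

theorem quad_blocks {ι κ : Type*} [Fintype ι] [Fintype κ] (A : Matrix ι ι ℝ) (B : Matrix ι κ ℝ)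
    (C : Matrix κ ι ℝ) (D : Matrix κ κ ℝ) (x : ι ⊕ κ → ℝ) :
    x ⬝ᵥ (Matrix.fromBlocks A B C D).mulVec x =
      (x ∘ Sum.inl) ⬝ᵥ A.mulVec (x ∘ Sum.inl) + (x ∘ Sum.inl) ⬝ᵥ B.mulVec (x ∘ Sum.inr)
      + (x ∘ Sum.inr) ⬝ᵥ C.mulVec (x ∘ Sum.inl) + (x ∘ Sum.inr) ⬝ᵥ D.mulVec (x ∘ Sum.inr) := by
  simp only [dotProduct, Matrix.mulVec, Fintype.sum_sum_type, Matrix.fromBlocks_apply₁₁,
    Matrix.fromBlocks_apply₁₂, Matrix.fromBlocks_apply₂₁, Matrix.fromBlocks_apply₂₂,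
    Function.comp_apply, mul_add, Finset.sum_add_distrib]
  ring

theorem quad_Wm (W : WW) (x : Fin 4 × Fin 2 → ℝ) :
    x ⬝ᵥ (Wm W).mulVec x = qf W (fun k i => x (k, i)) := by
  simp only [dotProduct, Matrix.mulVec, Wm, qf, Matrix.of_apply, Fintype.sum_prod_type,
    Fin.sum_univ_four, Fin.sum_univ_two]
  ring

theorem quad_Xm (z : Fin 23 → ℝ) (a : Fin 2 → ℝ) :
    a ⬝ᵥ (Xm z).mulVec a = z 0 * a 0 ^ 2 + 2 * (z 1 * (a 0 * a 1)) + z 2 * a 1 ^ 2 := by
  simp [dotProduct, Matrix.mulVec, Xm, Fin.sum_univ_two]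
  ring

theorem quad_Bv (z : Fin 23 → ℝ) (a : Fin 2 → ℝ) (w : Fin 4 × Fin 2 → ℝ) :
    a ⬝ᵥ (Bv z).mulVec w =
      a 0 * (z 3 * w (0, 0) + z 4 * w (1, 0) + z 5 * w (2, 0) + z 6 * w (3, 0))
      + a 1 * (z 3 * w (0, 1) + z 4 * w (1, 1) + z 5 * w (2, 1) + z 6 * w (3, 1)) := by
  simp [dotProduct, Matrix.mulVec, Bv, Fin.sum_univ_two, Fintype.sum_prod_type, Fin.sum_univ_four]

theorem quad_PQ (z : Fin 23 → ℝ) (W : WW) (x : (Fin 2 ⊕ (Fin 4 × Fin 2)) ⊕ Fin 3 → ℝ) :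
    x ⬝ᵥ (Pm z + Qm W).mulVec x =
      q1 z (sy W) (fun i => x (Sum.inl (Sum.inl i))) (fun k i => x (Sum.inl (Sum.inr (k, i))))
        + (uq z (fun i => x (Sum.inr i)) - gq (sy W) (fun i => x (Sum.inr i))) := by
  have hT : ∀ (a : Fin 2 → ℝ) (w : Fin 4 × Fin 2 → ℝ),
      w ⬝ᵥ (Bv z)ᵀ.mulVec a = a ⬝ᵥ (Bv z).mulVec w := by
    intro a w
    rw [Matrix.mulVec_transpose, dotProduct_comm, ← Matrix.dotProduct_mulVec]
  rw [Matrix.add_mulVec, dotProduct_add, Pm, Qm, quad_blocks, quad_blocks, quad_blocks, quad_blocks]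
  simp only [Matrix.zero_mulVec, dotProduct_zero, add_zero, zero_add, Matrix.neg_mulVec,
    dotProduct_neg]
  rw [hT, quad_Xm, quad_Bv, quad_Wm, uq_eq, gq_eq]
  simp only [q1, Function.comp_apply]
  ring!

/-- the lift in terms of the pencil -/
theorem psd_iff (z : Fin 23 → ℝ) (W : WW) :
    (Pm z + Qm W).PosSemidef ↔
      (∀ a w, 0 ≤ q1 z (sy W) a w) ∧ ∀ y, gq (sy W) y ≤ uq z y := by
  have hsym : (Pm z + Qm W).IsSymm := by
    have hX : (Xm z).IsSymm := by ext i j; fin_cases i <;> fin_cases j <;> simp [Xm]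
    have hW : (Wm (sy W)).IsSymm := by
      ext a b
      simp only [Wm, Matrix.transpose_apply, Matrix.of_apply]
      rw [(sy_isSy W).1, (sy_isSy W).2]
    unfold Matrix.IsSymm at *
    rw [Matrix.transpose_add, Pm, Qm, Matrix.fromBlocks_transpose, Matrix.fromBlocks_transpose,
      Matrix.fromBlocks_transpose, Matrix.fromBlocks_transpose, Matrix.transpose_transpose, hX, hW,
      Um_isSymm z, Matrix.transpose_neg, GamW_isSymm]
    simp
  constructor
  · intro h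
    constructor
    · intro a w
      have := h.dotProduct_mulVec_nonneg (Sum.elim (Sum.elim a (fun p => w p.1 p.2)) 0)
      rw [star_trivial, quad_PQ] at this
      simpa [uq, gq] using this
    · intro y
      have := h.dotProduct_mulVec_nonneg (Sum.elim 0 y)
      rw [star_trivial, quad_PQ] at this
      have h0 : q1 z (sy W) (fun i => (Sum.elim 0 y : (Fin 2 ⊕ (Fin 4 × Fin 2)) ⊕ Fin 3 → ℝ) (Sum.inl (Sum.inl i)))
          (fun k i => (Sum.elim 0 y : (Fin 2 ⊕ (Fin 4 × Fin 2)) ⊕ Fin 3 → ℝ) (Sum.inl (Sum.inr (k, i)))) = 0 := by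
        simp [q1, qf]
      rw [h0, zero_add] at this
      have h2 : 0 ≤ uq z y - gq (sy W) y := this
      linarith
  · rintro ⟨h1, h2⟩
    refine Matrix.PosSemidef.of_dotProduct_mulVec_nonneg ?_ fun x => ?_
    · rw [Matrix.IsHermitian, Matrix.conjTranspose_eq_transpose_of_trivial]; exact hsym
    · rw [star_trivial, quad_PQ]
      have := h1 (fun i => x (Sum.inl (Sum.inl i))) (fun k i => x (Sum.inl (Sum.inr (k, i))))
      have := h2 (fun i => x (Sum.inr i))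
      linarith

/-- `Pm` as a linear map -/
noncomputable def PL : (Fin 23 → ℝ) →ₗ[ℝ]
    Matrix ((Fin 2 ⊕ (Fin 4 × Fin 2)) ⊕ Fin 3) ((Fin 2 ⊕ (Fin 4 × Fin 2)) ⊕ Fin 3) ℝ where
  toFun := Pm
  map_add' := by
    intro z z'
    have hX : Xm (z + z') = Xm z + Xm z' := by
      ext i j; fin_cases i <;> fin_cases j <;> simp [Xm]
    have hU : Um (z + z') = Um z + Um z' := by
      ext i j; fin_cases i <;> fin_cases j <;> simp [Um]
    have hB : Bv (z + z') = Bv z + Bv z' := by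
      ext i ⟨k, j⟩
      simp only [Bv, Matrix.of_apply, Matrix.add_apply]
      split_ifs
      · fin_cases k <;> simp
      · simp
    simp only [Pm]
    rw [hX, hU, hB, Matrix.fromBlocks_add, Matrix.fromBlocks_add, Matrix.transpose_add]
    simp
  map_smul' := by
    intro r z
    have hX : Xm (r • z) = r • Xm z := by
      ext i j; fin_cases i <;> fin_cases j <;> simp [Xm]
    have hU : Um (r • z) = r • Um z := by
      ext i j; fin_cases i <;> fin_cases j <;> simp [Um]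
    have hB : Bv (r • z) = r • Bv z := by
      ext i ⟨k, j⟩
      simp only [Bv, Matrix.of_apply, Matrix.smul_apply]
      split_ifs
      · fin_cases k <;> simp
      · simp
    simp only [Pm, RingHom.id_apply]
    rw [hX, hU, hB, Matrix.fromBlocks_smul, Matrix.fromBlocks_smul, Matrix.transpose_smul]
    simp

/-- `Qm` as a linear map -/
noncomputable def QL : WW →ₗ[ℝ]
    Matrix ((Fin 2 ⊕ (Fin 4 × Fin 2)) ⊕ Fin 3) ((Fin 2 ⊕ (Fin 4 × Fin 2)) ⊕ Fin 3) ℝ where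
  toFun := Qm
  map_add' := by
    intro W W'
    have hs : sy (W + W') = sy W + sy W' := by
      funext k l i j; simp only [sy, Pi.add_apply]; ring
    have hG : GamW (sy W + sy W') = GamW (sy W) + GamW (sy W') := by
      ext i j; fin_cases i <;> fin_cases j <;> simp [GamW] <;> ring
    have hW : Wm (sy W + sy W') = Wm (sy W) + Wm (sy W') := by
      ext a b; simp [Wm]
    simp only [Qm]
    rw [hs, hG, hW, Matrix.fromBlocks_add, Matrix.fromBlocks_add]
    simp [add_comm]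
  map_smul' := by
    intro r W
    have hs : sy (r • W) = r • sy W := by
      funext k l i j; simp only [sy, Pi.smul_apply, smul_eq_mul]; ring
    have hG : GamW (r • sy W) = r • GamW (sy W) := by
      ext i j; fin_cases i <;> fin_cases j <;> simp [GamW] <;> ring
    have hW : Wm (r • sy W) = r • Wm (sy W) := by
      ext a b; simp [Wm]
    simp only [Qm, RingHom.id_apply]
    rw [hs, hG, hW, Matrix.fromBlocks_smul, Matrix.fromBlocks_smul]
    simp

theorem PL_symm (z : Fin 23 → ℝ) : (PL z).IsSymm := by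
  have hX : (Xm z).IsSymm := by ext i j; fin_cases i <;> fin_cases j <;> simp [Xm]
  show (Pm z).IsSymm
  unfold Matrix.IsSymm at *
  rw [Pm, Matrix.fromBlocks_transpose, Matrix.fromBlocks_transpose, Matrix.transpose_transpose, hX,
    Um_isSymm z]
  simp

theorem QL_symm (W : WW) : (QL W).IsSymm := by
  have hW : (Wm (sy W)).IsSymm := by
    ext a b
    simp only [Wm, Matrix.transpose_apply, Matrix.of_apply]
    rw [(sy_isSy W).1, (sy_isSy W).2]
  show (Qm W).IsSymm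
  unfold Matrix.IsSymm at *
  rw [Qm, Matrix.fromBlocks_transpose, Matrix.fromBlocks_transpose, hW, Matrix.transpose_neg,
    GamW_isSymm]
  simp

/-- membership in `KK` through the linear pencil -/
theorem mem_KK_iff (z : Fin 23 → ℝ) : z ∈ KK ↔ ∃ W : WW, (PL z + QL W).PosSemidef := by
  constructor
  · intro hz
    obtain ⟨W, hW, h1, h2⟩ := lift_of_mem_KK z hz
    refine ⟨W, ?_⟩
    show (Pm z + Qm W).PosSemidef
    rw [psd_iff, sy_eq W hW]
    exact ⟨h1, h2⟩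
  · rintro ⟨W, hW⟩
    have h : (Pm z + Qm W).PosSemidef := hW
    rw [psd_iff] at h
    exact mem_KK_of_lift z (sy W) (sy_isSy W) h.1 h.2

/-- **Node N3.** -/
theorem lift_KK : ∃ (A : Fin 23 → Matrix (Fin 100) (Fin 100) ℝ)
    (B : Fin 307 → Matrix (Fin 100) (Fin 100) ℝ),
    (∀ n, (A n).IsSymm) ∧ (∀ j, (B j).IsSymm) ∧
      KK = {x | ∃ v : Fin 307 → ℝ, (∑ ν, x ν • A ν + ∑ j, v j • B j).PosSemidef} := by
  refine lift_pad (ι := (Fin 2 ⊕ (Fin 4 × Fin 2)) ⊕ Fin 3) (E := WW) (by simp) ?_ PL QL PL_symm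
    QL_symm KK mem_KK_iff
  simp [WW, Module.finrank_pi_fintype]

end Crest.Agent.R237.S2
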